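import Mathlib

/-! Finite product laws: marginals, relative densities. -/

namespace Vale.Agent.P042.H779

open Finset

variable {ι : Type*} [Fintype ι] [DecidableEq ι] {V : ι → Type*} [∀ i, Fintype (V i)]
  [∀ i, DecidableEq (V i)]

/-- Marginal of `μ` on the coordinates in `R`, at `x`. -/
noncomputable def marg (μ : (∀ i, V i) → ℝ) (R : Finset ι) (x : ∀ i, V i) : ℝ :=
  ∑ y, if (∀ i ∈ R, y i = x i) then μ y else 0

/-- One-coordinate marginal. -/
noncomputable def m1 (μ : (∀ i, V i) → ℝ) (i : ι) (a : V i) : ℝ :=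
  ∑ y, if y i = a then μ y else 0

/-- The product of the one-coordinate marginals. -/
noncomputable def pw (μ : (∀ i, V i) → ℝ) (x : ∀ i, V i) : ℝ := ∏ i, m1 μ i (x i)

/-- Density of the `R`-marginal relative to the product of the one-coordinate marginals. -/
noncomputable def gd (μ : (∀ i, V i) → ℝ) (R : Finset ι) (x : ∀ i, V i) : ℝ :=
  marg μ R x / ∏ i ∈ R, m1 μ i (x i)

/-- `μ` is a probability. -/
structure IsProb (μ : (∀ i, V i) → ℝ) : Prop where
  nonneg : ∀ x, 0 ≤ μ x
  sum_eq : ∑ x, μ x = 1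

section
variable {μ : (∀ i, V i) → ℝ}

lemma marg_nonneg (h : IsProb μ) (R : Finset ι) (x : ∀ i, V i) : 0 ≤ marg μ R x := by
  unfold marg
  refine sum_nonneg fun y _ => ?_
  split_ifs
  · exact h.nonneg y
  · exact le_rfl

lemma m1_nonneg (h : IsProb μ) (i : ι) (a : V i) : 0 ≤ m1 μ i a := by
  unfold m1
  refine sum_nonneg fun y _ => ?_
  split_ifs
  · exact h.nonneg y
  · exact le_rfl

lemma m1_sum (h : IsProb μ) (i : ι) : ∑ a, m1 μ i a = 1 := by
  unfold m1
  rw [sum_comm]
  simp [h.sum_eq]

lemma marg_empty (h : IsProb μ) (x : ∀ i, V i) : marg μ ∅ x = 1 := by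
  simp [marg, h.sum_eq]

lemma marg_congr (R : Finset ι) {x y : ∀ i, V i} (hxy : ∀ i ∈ R, x i = y i) :
    marg μ R x = marg μ R y := by
  unfold marg
  refine sum_congr rfl fun z _ => ?_
  have : (∀ i ∈ R, z i = x i) ↔ (∀ i ∈ R, z i = y i) := by
    constructor
    · intro h i hi; rw [h i hi, hxy i hi]
    · intro h i hi; rw [h i hi, hxy i hi]
  simp only [this]

lemma marg_update (R : Finset ι) {i : ι} (hi : i ∉ R) (x : ∀ i, V i) (a : V i) :
    marg μ R (Function.update x i a) = marg μ R x := by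
  refine marg_congr R fun j hj => ?_
  have : j ≠ i := fun h => hi (h ▸ hj)
  simp [this]

lemma marg_insert_sum (R : Finset ι) {i : ι} (hi : i ∉ R) (x : ∀ i, V i) :
    ∑ a, marg μ (insert i R) (Function.update x i a) = marg μ R x := by
  unfold marg
  rw [sum_comm]
  refine sum_congr rfl fun y _ => ?_
  have key : ∀ a : V i, (∀ j ∈ insert i R, y j = Function.update x i a j) ↔
      (y i = a ∧ ∀ j ∈ R, y j = x j) := by
    intro a
    constructor
    · intro h
      refine ⟨by simpa using h i (mem_insert_self i R), fun j hj => ?_⟩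
      have hji : j ≠ i := fun h => hi (h ▸ hj)
      have := h j (mem_insert_of_mem hj)
      simpa [hji] using this
    · rintro ⟨h1, h2⟩ j hj
      rcases mem_insert.mp hj with rfl | hj
      · simpa using h1
      · have hji : j ≠ i := fun h => hi (h ▸ hj)
        simpa [hji] using h2 j hj
  have key2 : ∀ a : V i, (if ∀ j ∈ insert i R, y j = Function.update x i a j then μ y else 0)
      = if y i = a then (if ∀ j ∈ R, y j = x j then μ y else 0) else 0 := by
    intro a
    by_cases h1 : y i = a <;> by_cases h2 : ∀ j ∈ R, y j = x j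
    · rw [if_pos ((key a).mpr ⟨h1, h2⟩), if_pos h1, if_pos h2]
    · rw [if_neg (fun hc => h2 ((key a).mp hc).2), if_pos h1, if_neg h2]
    · rw [if_neg (fun hc => h1 ((key a).mp hc).1), if_neg h1]
    · rw [if_neg (fun hc => h1 ((key a).mp hc).1), if_neg h1]
  rw [sum_congr rfl fun a _ => key2 a, sum_ite_eq, if_pos (mem_univ _)]

lemma marg_le_m1 (h : IsProb μ) {R : Finset ι} {i : ι} (hi : i ∈ R) (x : ∀ i, V i) :
    marg μ R x ≤ m1 μ i (x i) := by
  unfold marg m1
  refine sum_le_sum fun y _ => ?_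
  by_cases h1 : ∀ j ∈ R, y j = x j
  · rw [if_pos h1, if_pos (h1 i hi)]
  · rw [if_neg h1]
    split_ifs
    · exact h.nonneg y
    · exact le_rfl

lemma marg_anti (h : IsProb μ) {R S : Finset ι} (hRS : R ⊆ S) (x : ∀ i, V i) :
    marg μ S x ≤ marg μ R x := by
  unfold marg
  refine sum_le_sum fun y _ => ?_
  by_cases h1 : ∀ j ∈ S, y j = x j
  · have h2 : ∀ j ∈ R, y j = x j := fun j hj => h1 j (hRS hj)
    rw [if_pos h1, if_pos h2]
  · rw [if_neg h1]
    split_ifs
    · exact h.nonneg y
    · exact le_rfl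

lemma gd_nonneg (h : IsProb μ) (R : Finset ι) (x : ∀ i, V i) : 0 ≤ gd μ R x :=
  div_nonneg (marg_nonneg h R x) (prod_nonneg fun i _ => m1_nonneg h i _)

lemma gd_empty (h : IsProb μ) (x : ∀ i, V i) : gd μ ∅ x = 1 := by
  simp [gd, marg_empty h]

lemma gd_update (R : Finset ι) {i : ι} (hi : i ∉ R) (x : ∀ i, V i) (a : V i) :
    gd μ R (Function.update x i a) = gd μ R x := by
  unfold gd
  rw [marg_update R hi]
  congr 1
  refine prod_congr rfl fun j hj => ?_
  have : j ≠ i := fun h => hi (h ▸ hj)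
  simp [this]

lemma m1_mul_gd_insert (h : IsProb μ) (R : Finset ι) {i : ι} (hi : i ∉ R) (x : ∀ i, V i) :
    m1 μ i (x i) * gd μ (insert i R) x = marg μ (insert i R) x / ∏ j ∈ R, m1 μ j (x j) := by
  unfold gd
  rw [prod_insert hi]
  by_cases h0 : m1 μ i (x i) = 0
  · have : marg μ (insert i R) x = 0 := le_antisymm
      (h0 ▸ marg_le_m1 h (mem_insert_self i R) x) (marg_nonneg h _ _)
    simp [h0, this]
  · rw [mul_div_assoc', mul_div_mul_left _ _ h0]

/-- The martingale property of the relative densities. -/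
lemma gd_avg (h : IsProb μ) (R : Finset ι) {i : ι} (hi : i ∉ R) (x : ∀ i, V i) :
    ∑ a, m1 μ i a * gd μ (insert i R) (Function.update x i a) = gd μ R x := by
  have h1 : ∀ a, m1 μ i a * gd μ (insert i R) (Function.update x i a)
      = marg μ (insert i R) (Function.update x i a) / ∏ j ∈ R, m1 μ j (x j) := by
    intro a
    have h2 := m1_mul_gd_insert h R hi (Function.update x i a)
    have h3 : ∏ j ∈ R, m1 μ j (Function.update x i a j) = ∏ j ∈ R, m1 μ j (x j) := by
      refine prod_congr rfl fun j hj => ?_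
      have : j ≠ i := fun h => hi (h ▸ hj)
      simp [this]
    rw [h3] at h2
    simpa using h2
  simp only [h1]
  rw [← sum_div, marg_insert_sum R hi]
  rfl

lemma gd_pos_of_marg (h : IsProb μ) {R : Finset ι} {x : ∀ i, V i} (hx : 0 < marg μ R x) :
    0 < gd μ R x := by
  refine div_pos hx (prod_pos fun i hi => ?_)
  exact lt_of_lt_of_le hx (marg_le_m1 h hi x)

lemma marg_pos_of_gd (h : IsProb μ) {R : Finset ι} {x : ∀ i, V i} (hx : 0 < gd μ R x) :
    0 < marg μ R x := by
  rcases (marg_nonneg h R x).lt_or_eq with h1 | h1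
  · exact h1
  · exfalso
    unfold gd at hx
    rw [← h1] at hx
    simp at hx

lemma gd_pos_mono (h : IsProb μ) {R S : Finset ι} (hRS : R ⊆ S) {x : ∀ i, V i}
    (hx : 0 < gd μ S x) : 0 < gd μ R x :=
  gd_pos_of_marg h (lt_of_lt_of_le (marg_pos_of_gd h hx) (marg_anti h hRS x))

lemma m1_pos_of_gd (h : IsProb μ) {R : Finset ι} {i : ι} (hi : i ∈ R) {x : ∀ i, V i}
    (hx : 0 < gd μ R x) : 0 < m1 μ i (x i) :=
  lt_of_lt_of_le (marg_pos_of_gd h hx) (marg_le_m1 h hi x)

/-- The ratio of consecutive densities is at most the inverse atom. -/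
lemma m1_mul_gd_insert_le (h : IsProb μ) (R : Finset ι) {i : ι} (hi : i ∉ R) (x : ∀ i, V i) :
    m1 μ i (x i) * gd μ (insert i R) x ≤ gd μ R x := by
  rw [m1_mul_gd_insert h R hi]
  unfold gd
  exact div_le_div_of_nonneg_right (marg_anti h (subset_insert i R) x)
    (prod_nonneg fun j _ => m1_nonneg h j _)

/-! Sums against the product law. -/

lemma pw_nonneg (h : IsProb μ) (x : ∀ i, V i) : 0 ≤ pw μ x :=
  prod_nonneg fun i _ => m1_nonneg h i _

lemma pw_sum (h : IsProb μ) : ∑ x, pw μ x = 1 := by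
  unfold pw
  rw [← Fintype.piFinset_univ, ← Finset.prod_univ_sum]
  simp [m1_sum h]

/-- Averaging over one coordinate leaves product sums unchanged. -/
lemma pw_avg (h : IsProb μ) (i : ι) (H : (∀ i, V i) → ℝ) :
    ∑ x, pw μ x * H x = ∑ x, pw μ x * ∑ a, m1 μ i a * H (Function.update x i a) := by
  have hR : ∑ x, pw μ x * ∑ a, m1 μ i a * H (Function.update x i a)
      = ∑ p : (∀ i, V i) × V i, pw μ p.1 * (m1 μ i p.2 * H (Function.update p.1 i p.2)) := by
    rw [Fintype.sum_prod_type]
    refine sum_congr rfl fun x _ => ?_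
    rw [mul_sum]
  have hL : ∑ x, pw μ x * H x = ∑ p : (∀ i, V i) × V i, m1 μ i p.2 * (pw μ p.1 * H p.1) := by
    rw [Fintype.sum_prod_type]
    refine sum_congr rfl fun x _ => ?_
    have : ∑ y, m1 μ i y * (pw μ x * H x) = pw μ x * H x := by
      rw [← sum_mul, m1_sum h, one_mul]
    exact this.symm
  rw [hL, hR]
  -- swap the value at `i` with the extra coordinate
  let e : (∀ i, V i) × V i ≃ (∀ i, V i) × V i :=
    { toFun := fun p => (Function.update p.1 i p.2, p.1 i)
      invFun := fun p => (Function.update p.1 i p.2, p.1 i)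
      left_inv := by
        intro p; ext j
        · by_cases hj : j = i
          · subst hj; simp
          · simp [hj]
        · simp
      right_inv := by
        intro p; ext j
        · by_cases hj : j = i
          · subst hj; simp
          · simp [hj]
        · simp }
  refine (Fintype.sum_equiv e _ _ fun p => ?_).symm
  obtain ⟨x, a⟩ := p
  simp only [e, Equiv.coe_fn_mk]
  have hp : ∀ y : ∀ i, V i, pw μ y = m1 μ i (y i) * ∏ j ∈ univ.erase i, m1 μ j (y j) := by
    intro y
    unfold pw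
    rw [mul_prod_erase univ (fun j => m1 μ j (y j)) (mem_univ i)]
  have hq : ∏ j ∈ univ.erase i, m1 μ j (Function.update x i a j)
      = ∏ j ∈ univ.erase i, m1 μ j (x j) := by
    refine prod_congr rfl fun j hj => ?_
    have : j ≠ i := (mem_erase.mp hj).1
    simp [this]
  rw [hp x, hp (Function.update x i a), hq]
  simp only [Function.update_self]
  ring

/-- `h` does not depend on coordinate `i`. -/
def Indep (i : ι) (H : (∀ i, V i) → ℝ) : Prop := ∀ x a, H (Function.update x i a) = H x

lemma indep_gd (R : Finset ι) {i : ι} (hi : i ∉ R) : Indep i (gd μ R) :=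
  fun x a => gd_update R hi x a

/-- Peeling one coordinate of a density. -/
lemma pw_gd_insert (h : IsProb μ) (R : Finset ι) {i : ι} (hi : i ∉ R) (H : (∀ i, V i) → ℝ)
    (hH : Indep i H) : ∑ x, pw μ x * (H x * gd μ (insert i R) x) = ∑ x, pw μ x * (H x * gd μ R x) := by
  rw [pw_avg h i]
  refine sum_congr rfl fun x _ => ?_
  congr 1
  have : ∀ a, m1 μ i a * (H (Function.update x i a) * gd μ (insert i R) (Function.update x i a))
      = H x * (m1 μ i a * gd μ (insert i R) (Function.update x i a)) := by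
    intro a; rw [hH x a]; ring
  simp only [this]
  rw [← mul_sum, gd_avg h R hi]

/-- Peeling all coordinates of `R` outside `A`. -/
lemma pw_gd_subset (h : IsProb μ) {A R : Finset ι} (hAR : A ⊆ R) (H : (∀ i, V i) → ℝ)
    (hH : ∀ i, i ∈ R → i ∉ A → Indep i H) :
    ∑ x, pw μ x * (H x * gd μ R x) = ∑ x, pw μ x * (H x * gd μ A x) := by
  obtain ⟨D, hD⟩ : ∃ D, D = R \ A := ⟨_, rfl⟩
  have hR : R = A ∪ D := by rw [hD, union_sdiff_of_subset hAR]
  have hdis : Disjoint A D := by rw [hD]; exact disjoint_sdiff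
  clear hD
  induction D using Finset.induction_on generalizing R with
  | empty => simp [hR]
  | insert i D hi ih =>
    have hiA : i ∉ A := fun hc => (disjoint_left.mp hdis hc) (mem_insert_self i D)
    have hR' : R = insert i (A ∪ D) := by rw [hR]; ext j; simp
    have hiR : i ∉ A ∪ D := by simp [hiA, hi]
    have hiR2 : i ∈ R := by rw [hR']; exact mem_insert_self _ _
    rw [hR', pw_gd_insert h (A ∪ D) hiR H (hH i hiR2 hiA)]
    refine ih subset_union_left ?_ rfl ?_
    · intro j hj hjA
      exact hH j (by rw [hR']; exact mem_insert_of_mem hj) hjA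
    · exact disjoint_of_subset_right (subset_insert i D) hdis

lemma pw_gd_sum (h : IsProb μ) (R : Finset ι) : ∑ x, pw μ x * gd μ R x = 1 := by
  have := pw_gd_subset h (A := ∅) (R := R) (empty_subset R) (fun _ => 1)
    (fun _ _ _ => fun _ _ => rfl)
  simpa [gd_empty h, pw_sum h] using this

end

end Vale.Agent.P042.H779
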