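import Vale.Agent.P042.H779.MuMain

/-! The insertion functional: pins as exponential moments (helper482's form (Pe)). -/

namespace Vale.Agent.P042.H779.Ab

open Finset

set_option linter.unusedSectionVars false

section
variable {ι : Type*} [Fintype ι] [DecidableEq ι] {V : ι → Type*} [∀ i, Fintype (V i)]
  [∀ i, DecidableEq (V i)] {w : ∀ i, V i → ℝ} {μ : (∀ i, V i) → ℝ} {β β' : Finset ι → ℝ}

/-- The hypotheses on the law: atoms, and pins in exponential form. -/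
structure PinsE (w : ∀ i, V i → ℝ) (μ : (∀ i, V i) → ℝ) (sc : ι → ℕ) (ok' : Finset ι → Prop)
    (L : ℝ) (lam a : ℕ → ℝ) (c : ℕ → ι → ℝ) : Prop where
  L1 : 1 ≤ L
  lam0 : ∀ s, 0 < lam s
  a0 : ∀ s, 0 ≤ a s
  c0 : ∀ s i, 0 ≤ c s i
  c1 : ∀ s i, c s i ≤ 1
  atoms : ∀ i b, w i b = 0 ∨ Real.exp (-L) ≤ w i b
  down : ∀ P Q : Finset ι, P ⊆ Q → ok' Q → ok' P
  pe : ∀ s, ∀ P, P ⊆ Lo sc (s + 1) → ok' P →
    ∑ x, μ x * Real.exp (lam s * ∑ j ∈ At sc s \ P, Di w (gdw w μ) j P x)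
      ≤ Real.exp (∑ i ∈ P, c s i + a s)

/-- the bound for one scale -/
noncomputable def BsE (w : ∀ i, V i → ℝ) (μ : (∀ i, V i) → ℝ) (β : Finset ι → ℝ) (τ : ℝ)
    (t u : ι → ℝ) (sc : ι → ℕ) (ε : ℝ) (lam a : ℕ → ℝ) (c : ℕ → ι → ℝ) (s : ℕ) : ℝ :=
  (2 * KK w μ β τ + (2 * ε + 2 * ∑ i ∈ Lo sc (s + 1), (t i + u i) * c s i + a s)
      * Gm w (gdw w μ) β τ) / lam s

variable {t u : ι → ℝ} {sc : ι → ℕ} {ns : ℕ} {K : ℝ} {qb : ℕ → ℝ} {ok' : Finset ι → Prop}
  {D : ℕ} {L gH ε τ : ℝ} {lam a : ℕ → ℝ} {c : ℕ → ι → ℝ}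

/-- one scale -/
lemma scale_boundE (H : Ref w μ) (A : Rates t u sc ns K qb)
    (P : PinsE w μ sc ok' L lam a c) (B : Wts β β' t u ok' ε) (h0 : 0 < τ) (h1 : τ < 1)
    (hG0 : 0 < Gm w (gdw w μ) β τ) (s : ℕ) (T : Finset ι) (hT : T ⊆ Lo sc (s + 1)) :
    ∑ j ∈ At sc s \ T, JP w μ β τ β' (fun S _ R x => Di w (gdw w μ) j ((R ∪ S) ∩ T) x)
      ≤ BsE w μ β τ t u sc ε lam a c s := by
  have hK0 := KK_nonneg H B.b0 B.sum1 h0 h1 hG0
  have hl := P.lam0 s
  unfold BsE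
  rw [← JP_sum, le_div_iff₀ hl, mul_comm, ← JP_smul]
  have hZ : ∑ S ∈ (univ : Finset ι).powerset, β' S * ∑ R ∈ (univ : Finset ι).powerset,
      β R * ∑ x, μ x * Real.exp (lam s * ∑ j ∈ At sc s \ T, Di w (gdw w μ) j ((R ∪ S) ∩ T) x
        - (∑ i ∈ (R ∪ S) ∩ T, c s i + a s)) ≤ 1 := by
    refine le_trans ?_ B.sum1'
    refine sum_le_sum fun S _ => ?_
    by_cases hS : β' S = 0
    · rw [hS]; simp
    refine mul_le_of_le_one_right (B.b0' S) (le_trans ?_ B.sum1)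
    refine sum_le_sum fun R _ => ?_
    by_cases hR : β R = 0
    · rw [hR]; simp
    refine mul_le_of_le_one_right (B.b0 R) ?_
    have hokP : ok' ((R ∪ S) ∩ T) := P.down _ _ inter_subset_left (B.hok R hR S hS)
    have hsub : (R ∪ S) ∩ T ⊆ Lo sc (s + 1) := inter_subset_right.trans hT
    have h2 := P.pe s _ hsub hokP
    have h3 : ∑ x, μ x * Real.exp (lam s * ∑ j ∈ At sc s \ T,
        Di w (gdw w μ) j ((R ∪ S) ∩ T) x - (∑ i ∈ (R ∪ S) ∩ T, c s i + a s))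
        ≤ (∑ x, μ x * Real.exp (lam s * ∑ j ∈ At sc s \ ((R ∪ S) ∩ T),
          Di w (gdw w μ) j ((R ∪ S) ∩ T) x)) * Real.exp (-(∑ i ∈ (R ∪ S) ∩ T, c s i + a s)) := by
      rw [sum_mul]
      refine sum_le_sum fun x _ => ?_
      rw [mul_assoc]
      refine mul_le_mul_of_nonneg_left ?_ (H.prob.nonneg x)
      rw [sub_eq_add_neg, Real.exp_add]
      refine mul_le_mul_of_nonneg_right (Real.exp_le_exp.mpr ?_) (Real.exp_nonneg _)
      exact mul_le_mul_of_nonneg_left (sum_le_sum_of_subset_of_nonneg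
        (sdiff_subset_sdiff (Subset.refl _) inter_subset_right)
          fun j _ _ => Di_nonneg H.famT _ _ _) hl.le
    refine h3.trans ((mul_le_mul_of_nonneg_right h2 (Real.exp_nonneg _)).trans ?_)
    rw [← Real.exp_add, add_neg_cancel, Real.exp_zero]
  have hdv := JP_dv H B.b0 B.b0' h0 h1 hG0 hK0 B.sum1' B.mass
    (fun S R x => Real.exp (lam s * ∑ j ∈ At sc s \ T, Di w (gdw w μ) j ((R ∪ S) ∩ T) x
        - (∑ i ∈ (R ∪ S) ∩ T, c s i + a s))) (fun _ _ _ _ => Real.exp_pos _) hZ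
  simp only [Real.log_exp] at hdv
  rw [JP_sub (f := fun S _ R x => lam s * ∑ j ∈ At sc s \ T, Di w (gdw w μ) j ((R ∪ S) ∩ T) x)
    (f' := fun S _ R _ => ∑ i ∈ (R ∪ S) ∩ T, c s i + a s),
    JP_add (f := fun S _ R _ => ∑ i ∈ (R ∪ S) ∩ T, c s i) (f' := fun _ _ _ _ => a s),
    JP_const H] at hdv
  have hc1 := JP_card_le H A.t0 (fun i => (A.t1 i).trans (by norm_num)) A.u0
    (fun i => (A.u1 i).trans (by norm_num)) B.b0 B.b1 B.b0' B.b1' h0 h1 hG0 hK0 B.sum1' B.mass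
    (P.c0 s) (P.c1 s) T
  have hc2 : a s * Gm w (gdw w μ) β τ * ∑ S ∈ (univ : Finset ι).powerset, β' S
      ≤ a s * Gm w (gdw w μ) β τ * 1 :=
    mul_le_mul_of_nonneg_left B.sum1' (mul_nonneg (P.a0 s) hG0.le)
  have hc3 : (∑ i ∈ T, (t i + u i) * c s i) ≤ ∑ i ∈ Lo sc (s + 1), (t i + u i) * c s i :=
    sum_le_sum_of_subset_of_nonneg hT fun i _ _ =>
      mul_nonneg (add_nonneg (A.t0 i) (A.u0 i)) (P.c0 s i)
  have hc4 := mul_le_mul_of_nonneg_right hc3 hG0.le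
  linarith

/-- revealing all coordinates -/
lemma reveal_allE (H : Ref w μ) (A : Rates t u sc ns K qb)
    (P : PinsE w μ sc ok' L lam a c) (B : Wts β β' t u ok' ε) (h0 : 0 < τ) (h1 : τ < 1)
    (hG : 0 < Gm w (gdw w μ) β τ) {l : List ι} (hnd : l.Nodup) (hl : l.toFinset = univ) :
    JP w μ β τ β' (fun S _ R x => Real.log (gdw w μ (R ∪ S) x))
      ≤ L * (KK w μ β τ + ε * Gm w (gdw w μ) β τ)
        + 65 * gc (fun i => t i + u i - t i * u i) (fun T j => JP w μ β τ β'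
          (fun S _ R x => Di w (gdw w μ) j ((R ∪ S) ∩ T) x)) ∅ l := by
  obtain ⟨q, hq⟩ : ∃ q : ι → ℝ, q = fun i => t i + u i - t i * u i := ⟨_, rfl⟩
  have hK0 := KK_nonneg H B.b0 B.sum1 h0 h1 hG
  have hL0 : 0 ≤ L := by linarith [P.L1]
  have hq0 : ∀ i, 0 ≤ q i := fun i => by
    rw [hq]
    have := A.t0 i; have := A.t1 i; have := A.u0 i; have := A.u1 i
    nlinarith
  have hq1 : ∀ i, q i < 1 := fun i => by
    rw [hq]
    have := A.t0 i; have := A.t1 i; have := A.u0 i; have := A.u1 i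
    nlinarith
  rw [← hq, ← JP_CDl]
  have hZ : ∑ S ∈ (univ : Finset ι).powerset, β' S * ∑ R ∈ (univ : Finset ι).powerset,
      β R * ∑ x, μ x * Zl w μ q L ∅ ∅ l (R ∪ S) x ≤ 1 := by
    have h2 := joint_le (F := fun Q => ∑ x, μ x * Zl w μ q L ∅ ∅ l Q x) H B.b0 B.b1 B.b0' B.b1'
      (fun Q => sum_nonneg fun x _ => by
        rcases (H.prob.nonneg x).eq_or_lt with hx | hx
        · rw [← hx]; simp
        · exact mul_nonneg hx.le (Zl_pos H hq0 hq1 L ∅ l ∅ Q x hx).le)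
    refine h2.trans (le_of_eq ?_)
    rw [← hq]
    have hm := mart H hq0 hq1 L ∅ l ∅ hnd (by simp) (by simp) (fun _ _ => 1)
      (fun _ _ _ _ => rfl) (fun _ _ _ => rfl)
    simp only [one_mul, mul_one] at hm
    rw [hm, H.prob.sum_eq]
    simp only [mul_one]
    exact bt_sum q
  -- `Zl` is positive on the support
  have hdv : JP w μ β τ β' (fun S _ R x => Real.log (Zl w μ q L ∅ ∅ l (R ∪ S) x))
      ≤ KK w μ β τ + ε * Gm w (gdw w μ) β τ :=
    JP_dv H B.b0 B.b0' h0 h1 hG hK0 B.sum1' B.mass (fun S R x => Zl w μ q L ∅ ∅ l (R ∪ S) x)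
      (fun S R x hx => Zl_pos H hq0 hq1 L ∅ l ∅ (R ∪ S) x hx) hZ
  have h2 := mul_le_mul_of_nonneg_left hdv hL0
  rw [← JP_smul] at h2
  have h3 : JP w μ β τ β' (fun S _ R x => Real.log (gdw w μ (R ∪ S) x)
        - 65 * CDl w μ q ∅ ∅ l (R ∪ S) x)
      ≤ JP w μ β τ β' (fun S _ R x => L * Real.log (Zl w μ q L ∅ ∅ l (R ∪ S) x)) := by
    refine JP_mono H B.b0 B.b0' h0 h1 fun S _ R _ A' _ x hx => ?_
    have h4 := log_Zl_ge H hq0 hq1 P.L1 P.atoms ∅ l ∅ hnd (by simp) (by simp) (R ∪ S) x hx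
    rw [LR_eq H ∅ l ∅ (R ∪ S) x hx, hl] at h4
    simp only [empty_union, inter_univ, inter_empty, H.famT.g_empty, Real.log_one, sub_zero] at h4
    exact h4
  rw [JP_sub (f := fun S _ R x => Real.log (gdw w μ (R ∪ S) x)), JP_smul] at h3
  linarith

/-- **The insertion functional.** -/
theorem insertionE (H : Ref w μ) (A : Rates t u sc ns K qb)
    (P : PinsE w μ sc ok' L lam a c) (B : Wts β β' t u ok' ε) (hε : 0 ≤ ε)
    (h0 : 0 < τ) (h1 : τ < 1) (hG : 1 ≤ Gm w (gdw w μ) β τ) :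
    ∑ i, t i * Vi w μ β τ i
      ≤ 2 / K * (KK w μ β τ + L * (KK w μ β τ + ε * Gm w (gdw w μ) β τ)
        + 65 * ∑ s ∈ range ns, qb s * BsE w μ β τ t u sc ε lam a c s *
          Hn (At sc s).card) := by
  have hG0 : 0 < Gm w (gdw w μ) β τ := by linarith
  have hK0 := KK_nonneg H B.b0 B.sum1 h0 h1 hG0
  have hL0 : 0 ≤ L := by linarith [P.L1]
  have hBs0 : ∀ s, 0 ≤ BsE w μ β τ t u sc ε lam a c s := by
    intro s
    unfold BsE
    refine div_nonneg (add_nonneg (by linarith) (mul_nonneg ?_ hG0.le)) (P.lam0 s).le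
    refine add_nonneg (add_nonneg (by linarith) ?_) (P.a0 s)
    refine mul_nonneg (by norm_num) (sum_nonneg fun i _ => mul_nonneg ?_ (P.c0 s i))
    exact add_nonneg (A.t0 i) (A.u0 i)
  obtain ⟨l, hl1, hl2, hl3⟩ := scales (fun i => t i + u i - t i * u i)
    (fun T j => JP w μ β τ β' (fun S _ R x => Di w (gdw w μ) j ((R ∪ S) ∩ T) x)) sc qb
    (fun s => BsE w μ β τ t u sc ε lam a c s)
    (fun i => by
      have := A.t0 i; have := A.t1 i; have := A.u0 i; have := A.u1 i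
      nlinarith)
    (fun i => by
      have := A.qb1 i; have := mul_nonneg (A.t0 i) (A.u0 i)
      linarith)
    A.qb0 hBs0
    (fun T j => JP_nonneg H B.b0 B.b0' h0 h1 fun _ _ _ _ _ _ _ _ => Di_nonneg H.famT _ _ _)
    (fun s T _ hT => scale_boundE H A P B h0 h1 hG0 s T hT) ns
  have hu : Lo sc ns = univ := by
    ext i; simp [Lo, A.scn i]
  rw [hu] at hl2
  have hrev := reveal_allE H A P B h0 h1 hG0 hl1 hl2
  have hins : K / 2 * ∑ i, t i * Vi w μ β τ i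
      ≤ JP w μ β τ β' (fun S _ R x => Real.log (gdw w μ (R ∪ S) x)
        - Real.log (gdw w μ R x)) := by
    have e1 : ∑ S ∈ (univ : Finset ι).powerset, β' S *
        ∑ i, (if i ∈ S then 1 else 0) * Vi w μ β τ i
        ≤ JP w μ β τ β' (fun S _ R x => Real.log (gdw w μ (R ∪ S) x)
        - Real.log (gdw w μ R x)) :=
      sum_le_sum fun S _ => mul_le_mul_of_nonneg_left (insert_le H B.b0 h0 h1 S) (B.b0' S)
    refine le_trans ?_ e1
    have e2 : ∑ S ∈ (univ : Finset ι).powerset, β' S *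
        ∑ i, (if i ∈ S then 1 else 0) * Vi w μ β τ i
        = ∑ i, (∑ S ∈ (univ : Finset ι).powerset, β' S * (if i ∈ S then 1 else 0)) *
          Vi w μ β τ i := by
      simp only [mul_sum, sum_mul]
      rw [sum_comm]
      exact sum_congr rfl fun i _ => sum_congr rfl fun S _ => by ring
    rw [e2, mul_sum]
    refine sum_le_sum fun i _ => ?_
    have h3 := B.pt i
    have h4 := A.Kt i
    have h5 := mul_le_mul_of_nonneg_right (show K / 2 * t i ≤
      ∑ S ∈ (univ : Finset ι).powerset, β' S * (if i ∈ S then 1 else 0) by linarith)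
      (Vi_nonneg H B.b0 h0 h1 i)
    linarith
  rw [JP_sub (f := fun S _ R x => Real.log (gdw w μ (R ∪ S) x))
    (f' := fun _ _ R x => Real.log (gdw w μ R x))] at hins
  have hR : - JP w μ β τ β' (fun _ _ R x => Real.log (gdw w μ R x)) ≤ KK w μ β τ := by
    have e1 := neg_log_le H B.b0 B.sum1 h0 h1 hG0 (fun R => R)
    have e2 : JJ w μ β τ (fun _ R x => -Real.log (gdw w μ R x))
        = - JJ w μ β τ (fun _ R x => Real.log (gdw w μ R x)) := by
      have := JJ_smul w μ β τ (-1) (fun _ R x => Real.log (gdw w μ R x))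
      simpa using this
    rw [e2] at e1
    unfold JP
    rw [← sum_mul]
    have e3 := B.sum1'
    have e4 : 0 ≤ ∑ S ∈ (univ : Finset ι).powerset, β' S := sum_nonneg fun S _ => B.b0' S
    have e5 := mul_le_mul_of_nonneg_left e1 e4
    have e6 := mul_le_mul_of_nonneg_right e3 hK0
    linarith
  have hfin : K / 2 * ∑ i, t i * Vi w μ β τ i
      ≤ KK w μ β τ + L * (KK w μ β τ + ε * Gm w (gdw w μ) β τ)
        + 65 * ∑ s ∈ range ns, qb s * BsE w μ β τ t u sc ε lam a c s *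
          Hn (At sc s).card := by linarith
  have hKp := A.K0
  have h5 := mul_le_mul_of_nonneg_left hfin (show 0 ≤ 2 / K by positivity)
  have h6 : 2 / K * (K / 2 * ∑ i, t i * Vi w μ β τ i) = ∑ i, t i * Vi w μ β τ i := by
    field_simp
  linarith

end

end Vale.Agent.P042.H779.Ab
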