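import Vale.Agent.P042.H779.Star4

/-! The replica bound in expectation, final statement. -/

namespace Vale.Agent.P042.H779

open Finset

section
variable {𝒜 : Type*} [DecidableEq 𝒜] {m : ℕ} {τ L : ℝ} (s : Finset 𝒜) (p r : 𝒜 → ℝ)

lemma star_small {sR : ℝ} (hm : 1 ≤ m) (hL : 1 ≤ L) (hτ : 0 < τ) (hmτ : 16 * m * τ ≤ 1)
    (hp : ∀ A ∈ s, 0 ≤ p A) (hsum : ∑ A ∈ s, p A = 1) (hr0 : ∀ A ∈ s, 0 ≤ r A)
    (hrL : ∀ A ∈ s, r A ≤ Real.exp L) (hs0 : 0 ≤ sR) (hs : sR ≤ 8) (hsL : sR ≤ Real.exp L) :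
    ∑ A ∈ s, p A * ∑ α ∈ reps m s, (∏ j, p (α j)) *
        phi (sR * r A * PiQ τ (∑ A ∈ s, p A * r A) (fun j => r (α j)))
      ≤ 16384 * phi sR + (83 * (m ^ 2 * L / τ)) * ∑ A ∈ s, p A * phi (r A)
        + 4 * ((15 * τ) ^ m) ^ 2 := by
  have hm' : (1 : ℝ) ≤ m := by exact_mod_cast hm
  have hτ16 : 16 * τ ≤ 1 := by nlinarith
  have hb0 : 0 ≤ ∑ A ∈ s, p A * r A := sum_nonneg fun A hA => mul_nonneg (hp A hA) (hr0 A hA)
  obtain ⟨E8, hE8⟩ : ∃ E8, E8 = ∑ A ∈ s, p A * (bad (r A) * r A) := ⟨_, rfl⟩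
  have hE0 : 0 ≤ E8 := by
    rw [hE8]
    exact sum_nonneg fun A hA => mul_nonneg (hp A hA) (mul_nonneg (bad_nonneg _) (hr0 A hA))
  have hE : 16 < ∑ A ∈ s, p A * r A → 8 ≤ E8 := by
    intro h
    have h1 : ∑ A ∈ s, p A * r A ≤ 8 + E8 := by
      have h2 : ∑ A ∈ s, p A * r A ≤ ∑ A ∈ s, (8 * p A + p A * (bad (r A) * r A)) := by
        refine sum_le_sum fun A hA => ?_
        have hpA := hp A hA
        unfold bad
        split_ifs with h8
        · nlinarith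
        · have : r A ≤ 8 := not_lt.mp h8
          nlinarith [mul_le_mul_of_nonneg_left this hpA]
      rw [sum_add_distrib, ← mul_sum, hsum, ← hE8] at h2
      linarith
    linarith
  have hEφ : E8 ≤ ∑ A ∈ s, p A * phi (r A) := by
    rw [hE8]
    exact sum_le_sum fun A hA => mul_le_mul_of_nonneg_left (bad_mul_le (hr0 A hA)) (hp A hA)
  obtain ⟨rb, hrb⟩ : ∃ rb, rb = ∑ A ∈ s, p A * r A := ⟨_, rfl⟩
  obtain ⟨EΦ, hEΦ⟩ : ∃ EΦ, EΦ = ∑ A ∈ s, p A * phi (r A) := ⟨_, rfl⟩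
  have hA1 := exp_badA (m := m) (L := L) s p r hm hL hτ hmτ hp hsum hr0 hs0 hs
  have hj1 := fun j0 => exp_badj (m := m) (L := L) s p r hm hL hτ hmτ hp hsum hr0 hs0 hs j0
  have hJ : phi rb ≤ EΦ := by rw [hrb, hEΦ]; exact phi_jensen s p r hp hsum hr0
  rw [← hrb] at hb0 hE hA1 ⊢
  simp only [← hrb] at hj1
  rw [← hEΦ] at hEφ hA1 ⊢
  simp only [← hEΦ] at hj1
  have hEΦ0 : 0 ≤ EΦ := by
    rw [hEΦ]; exact sum_nonneg fun A hA => mul_nonneg (hp A hA) (phi_nonneg (hr0 A hA))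
  -- pointwise
  have hpt : ∀ A ∈ s, ∀ α ∈ reps m s, phi (sR * r A * PiQ τ rb (fun j => r (α j))) ≤
      bad (r A) * (1 + ((2 * m + 2) * L) * (sR * r A * PiQ τ rb (fun j => r (α j))))
      + ∑ j, bad (r (α j)) * (1 + ((2 * m + 2) * L) * (sR * r A * PiQ τ rb (fun j => r (α j))))
      + (16384 * phi sR + 256 * phi (r A)
      + 4 * (16 * m * τ ^ 2 * ∑ j, (16 * phi (r (α j)) + 32 * phi rb)) + 4 * ((15 * τ) ^ m) ^ 2
      + 500 * E8) := by
    intro A hA α hα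
    rw [mem_reps] at hα
    exact point_small (fun j => r (α j)) hm hL hτ hmτ hs0 hs hsL (hr0 A hA) (hrL A hA)
      (fun j => hr0 _ (hα j)) (fun j => hrL _ (hα j)) hb0 hE0 hE
  have hprod0 : ∀ α ∈ reps m s, 0 ≤ ∏ j, p (α j) := by
    intro α hα
    rw [mem_reps] at hα
    exact prod_nonneg fun j _ => hp _ (hα j)
  have h2 : ∑ A ∈ s, p A * ∑ α ∈ reps m s, (∏ j, p (α j)) *
        phi (sR * r A * PiQ τ rb (fun j => r (α j)))
      ≤ ∑ A ∈ s, p A * ∑ α ∈ reps m s, (∏ j, p (α j)) *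
      (bad (r A) * (1 + ((2 * m + 2) * L) * (sR * r A * PiQ τ rb (fun j => r (α j))))
      + ∑ j, bad (r (α j)) * (1 + ((2 * m + 2) * L) * (sR * r A * PiQ τ rb (fun j => r (α j))))
      + (16384 * phi sR + 256 * phi (r A)
      + 4 * (16 * m * τ ^ 2 * ∑ j, (16 * phi (r (α j)) + 32 * phi rb)) + 4 * ((15 * τ) ^ m) ^ 2
      + 500 * E8)) := by
    refine sum_le_sum fun A hA => mul_le_mul_of_nonneg_left ?_ (hp A hA)
    exact sum_le_sum fun α hα => mul_le_mul_of_nonneg_left (hpt A hA α hα) (hprod0 α hα)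
  refine h2.trans ?_
  -- split the right side
  have h3 : ∑ A ∈ s, p A * ∑ α ∈ reps m s, (∏ j, p (α j)) *
      (bad (r A) * (1 + ((2 * m + 2) * L) * (sR * r A * PiQ τ rb (fun j => r (α j))))
      + ∑ j, bad (r (α j)) * (1 + ((2 * m + 2) * L) * (sR * r A * PiQ τ rb (fun j => r (α j))))
      + (16384 * phi sR + 256 * phi (r A)
      + 4 * (16 * m * τ ^ 2 * ∑ j, (16 * phi (r (α j)) + 32 * phi rb)) + 4 * ((15 * τ) ^ m) ^ 2
      + 500 * E8))
      = (∑ A ∈ s, p A * ∑ α ∈ reps m s, (∏ j, p (α j)) *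
      (bad (r A) * (1 + ((2 * m + 2) * L) * (sR * r A * PiQ τ rb (fun j => r (α j))))))
      + (∑ j0, ∑ A ∈ s, p A * ∑ α ∈ reps m s, (∏ j, p (α j)) *
      (bad (r (α j0)) * (1 + ((2 * m + 2) * L) * (sR * r A * PiQ τ rb (fun j => r (α j))))))
      + (16384 * phi sR + 256 * EΦ
      + 4 * (16 * m * τ ^ 2 * (m * (16 * EΦ + 32 * phi rb))) + 4 * ((15 * τ) ^ m) ^ 2
      + 500 * E8) := by
    have hone := pi_sum_one (m := m) s p hsum
    have hsing : ∑ α ∈ reps m s, (∏ j, p (α j)) * ∑ j, (16 * phi (r (α j)) + 32 * phi rb)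
        = m * (16 * EΦ + 32 * phi rb) := by
      have h4 : ∀ α ∈ reps m s, (∏ j, p (α j)) * ∑ j, (16 * phi (r (α j)) + 32 * phi rb)
          = ∑ j0, (16 * ((∏ j, p (α j)) * phi (r (α j0))) + 32 * phi rb * (∏ j, p (α j))) := by
        intro α _
        rw [mul_sum]
        exact sum_congr rfl fun j _ => by ring
      rw [sum_congr rfl h4, sum_comm]
      have h5 : ∀ j0 : Fin m, ∑ α ∈ reps m s,
          (16 * ((∏ j, p (α j)) * phi (r (α j0))) + 32 * phi rb * (∏ j, p (α j)))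
          = 16 * EΦ + 32 * phi rb := by
        intro j0
        rw [sum_add_distrib, ← mul_sum, ← mul_sum, hone,
          pi_sum_single s p hsum j0 (fun A => phi (r A)), ← hEΦ]
        ring
      rw [sum_congr rfl fun j0 _ => h5 j0]
      simp only [sum_const, card_univ, Fintype.card_fin, nsmul_eq_mul]
    have h6 : ∀ A ∈ s, p A * ∑ α ∈ reps m s, (∏ j, p (α j)) *
      (bad (r A) * (1 + ((2 * m + 2) * L) * (sR * r A * PiQ τ rb (fun j => r (α j))))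
      + ∑ j, bad (r (α j)) * (1 + ((2 * m + 2) * L) * (sR * r A * PiQ τ rb (fun j => r (α j))))
      + (16384 * phi sR + 256 * phi (r A)
      + 4 * (16 * m * τ ^ 2 * ∑ j, (16 * phi (r (α j)) + 32 * phi rb)) + 4 * ((15 * τ) ^ m) ^ 2
      + 500 * E8))
      = p A * ∑ α ∈ reps m s, (∏ j, p (α j)) *
      (bad (r A) * (1 + ((2 * m + 2) * L) * (sR * r A * PiQ τ rb (fun j => r (α j)))))
      + ∑ j0, p A * ∑ α ∈ reps m s, (∏ j, p (α j)) *
      (bad (r (α j0)) * (1 + ((2 * m + 2) * L) * (sR * r A * PiQ τ rb (fun j => r (α j)))))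
      + ((16384 * phi sR + 4 * (16 * m * τ ^ 2 * (m * (16 * EΦ + 32 * phi rb)))
        + 4 * ((15 * τ) ^ m) ^ 2 + 500 * E8) * p A + 256 * (p A * phi (r A))) := by
      intro A _
      have h7 : ∀ α ∈ reps m s, (∏ j, p (α j)) *
        (bad (r A) * (1 + ((2 * m + 2) * L) * (sR * r A * PiQ τ rb (fun j => r (α j))))
        + ∑ j, bad (r (α j)) * (1 + ((2 * m + 2) * L) * (sR * r A * PiQ τ rb (fun j => r (α j))))
        + (16384 * phi sR + 256 * phi (r A)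
        + 4 * (16 * m * τ ^ 2 * ∑ j, (16 * phi (r (α j)) + 32 * phi rb)) + 4 * ((15 * τ) ^ m) ^ 2
        + 500 * E8))
        = (∏ j, p (α j)) *
        (bad (r A) * (1 + ((2 * m + 2) * L) * (sR * r A * PiQ τ rb (fun j => r (α j)))))
        + ∑ j0, (∏ j, p (α j)) *
        (bad (r (α j0)) * (1 + ((2 * m + 2) * L) * (sR * r A * PiQ τ rb (fun j => r (α j)))))
        + ((16384 * phi sR + 256 * phi (r A) + 4 * ((15 * τ) ^ m) ^ 2 + 500 * E8) *
            (∏ j, p (α j))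
          + (4 * (16 * m * τ ^ 2)) *
            ((∏ j, p (α j)) * ∑ j, (16 * phi (r (α j)) + 32 * phi rb))) := by
        intro α _
        rw [← mul_sum]
        ring
      rw [sum_congr rfl h7, sum_add_distrib, sum_add_distrib, sum_add_distrib, ← mul_sum,
        ← mul_sum, hone, hsing, sum_comm, ← mul_sum]
      ring
    rw [sum_congr rfl h6, sum_add_distrib, sum_add_distrib, sum_add_distrib, ← mul_sum, ← mul_sum,
      hsum, ← hEΦ, sum_comm]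
    ring
  rw [h3]
  have hjs : (∑ j0 : Fin m, ∑ A ∈ s, p A * ∑ α ∈ reps m s, (∏ j, p (α j)) *
      (bad (r (α j0)) * (1 + ((2 * m + 2) * L) * (sR * r A * PiQ τ rb (fun j => r (α j))))))
      ≤ m * ((1 + 8 * ((2 * m + 2) * L) / τ) * EΦ) := by
    have := sum_le_sum (s := (univ : Finset (Fin m))) fun j0 _ => hj1 j0
    simpa using this
  obtain ⟨X, hX⟩ : ∃ X, X = (m : ℝ) ^ 2 * L / τ := ⟨_, rfl⟩
  have hX16 : 16 * (m * L) ≤ X := by
    rw [hX, le_div_iff₀ hτ]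
    have := mul_le_mul_of_nonneg_left (show 16 * τ ≤ (m : ℝ) by linarith)
      (by positivity : (0 : ℝ) ≤ m * L)
    linarith
  have hmL : (m : ℝ) ≤ m * L := by nlinarith
  have hX1 : 16 ≤ X := by linarith
  have hq : (16 * m * τ ^ 2 * (m * (16 * EΦ + 32 * phi rb))) ≤ 3 * EΦ := by
    have h8 : (m * τ) ^ 2 ≤ (1 / 16) ^ 2 :=
      pow_le_pow_left₀ (by positivity) (by linarith) 2
    have h9 : 16 * EΦ + 32 * phi rb ≤ 48 * EΦ := by linarith
    have h10 : 0 ≤ 16 * EΦ + 32 * phi rb := by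
      have := phi_nonneg hb0; positivity
    calc (16 * m * τ ^ 2 * (m * (16 * EΦ + 32 * phi rb)))
        = 16 * ((m * τ) ^ 2 * (16 * EΦ + 32 * phi rb)) := by ring
      _ ≤ 16 * ((1 / 16) ^ 2 * (48 * EΦ)) := by
          have := mul_le_mul h8 h9 h10 (by norm_num); linarith
      _ = 3 * EΦ := by ring
  have h11 : 8 * ((2 * (m : ℝ) + 2) * L) ≤ 2 * X := by nlinarith
  have h12 : m * (1 + 8 * ((2 * (m : ℝ) + 2) * L) / τ) ≤ m + 32 * X := by
    have : m * (1 + 8 * ((2 * (m : ℝ) + 2) * L) / τ) = m + 8 * (m * (2 * m + 2)) * (L / τ) := by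
      ring
    rw [this]
    have h13 : (m : ℝ) * (2 * m + 2) ≤ 4 * m ^ 2 := by nlinarith
    have h14 : 0 ≤ L / τ := by positivity
    have h15 : 32 * X = 8 * (4 * m ^ 2) * (L / τ) := by rw [hX]; ring
    rw [h15]
    have := mul_le_mul_of_nonneg_right h13 h14
    linarith
  rw [← hX]
  have hA2 : (1 + 8 * ((2 * (m : ℝ) + 2) * L)) * EΦ ≤ (1 + 2 * X) * EΦ :=
    mul_le_mul_of_nonneg_right (by linarith) hEΦ0
  have hj2 : m * ((1 + 8 * ((2 * (m : ℝ) + 2) * L) / τ) * EΦ) ≤ (m + 32 * X) * EΦ := by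
    rw [← mul_assoc]; exact mul_le_mul_of_nonneg_right h12 hEΦ0
  have hfin : (1 + 2 * X) * EΦ + (m + 32 * X) * EΦ + (256 * EΦ + 4 * (3 * EΦ) + 500 * EΦ)
      ≤ 83 * X * EΦ := by
    have : (1 + 2 * X) + (m + 32 * X) + (256 + 12 + 500) ≤ 83 * X := by linarith
    nlinarith [mul_le_mul_of_nonneg_right this hEΦ0]
  linarith

/-- The replica bound. -/
theorem star {sR : ℝ} (hm : 1 ≤ m) (hL : 1 ≤ L) (hτ : 0 < τ) (hmτ : 16 * m * τ ≤ 1)
    (hp : ∀ A ∈ s, 0 ≤ p A) (hsum : ∑ A ∈ s, p A = 1) (hr0 : ∀ A ∈ s, 0 ≤ r A)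
    (hrL : ∀ A ∈ s, r A ≤ Real.exp L) (hs0 : 0 ≤ sR) (hsL : sR ≤ Real.exp L) :
    ∑ A ∈ s, p A * ∑ α ∈ reps m s, (∏ j, p (α j)) *
        phi (sR * r A * PiQ τ (∑ A ∈ s, p A * r A) (fun j => r (α j)))
      ≤ (1100 * (m ^ 2 * L / τ)) * (phi sR + ∑ A ∈ s, p A * phi (r A))
        + 4 * ((15 * τ) ^ m) ^ 2 := by
  have hm' : (1 : ℝ) ≤ m := by exact_mod_cast hm
  have hEΦ0 : 0 ≤ ∑ A ∈ s, p A * phi (r A) :=
    sum_nonneg fun A hA => mul_nonneg (hp A hA) (phi_nonneg (hr0 A hA))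
  have hφs : 0 ≤ phi sR := phi_nonneg hs0
  have hX16 : 16 ≤ (m : ℝ) ^ 2 * L / τ := by
    rw [le_div_iff₀ hτ]
    have h1 : 16 * τ ≤ 1 := by nlinarith
    have h2 : (1 : ℝ) ≤ m ^ 2 * L := by nlinarith
    linarith
  have hT : 0 ≤ 4 * ((15 * τ) ^ m) ^ 2 := by positivity
  obtain ⟨X, hX⟩ : ∃ X, X = (m : ℝ) ^ 2 * L / τ := ⟨_, rfl⟩
  rcases lt_or_ge 8 sR with h | h
  · refine (star_large s p r hm hL hτ hmτ hp hsum hr0 hrL h hsL).trans ?_
    rw [← hX] at hX16 ⊢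
    nlinarith [mul_nonneg (by linarith : (0 : ℝ) ≤ X) hφs,
      mul_nonneg (by linarith : (0 : ℝ) ≤ X) hEΦ0]
  · refine (star_small s p r hm hL hτ hmτ hp hsum hr0 hrL hs0 h hsL).trans ?_
    rw [← hX] at hX16 ⊢
    nlinarith [mul_nonneg (by linarith : (0 : ℝ) ≤ X - 16) hφs,
      mul_nonneg (by linarith : (0 : ℝ) ≤ X) hEΦ0]

end

end Vale.Agent.P042.H779
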