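import Vale.Agent.P042.H779.AbAsm2

/-! The core inequality for an abstract family, in functional form. -/

namespace Vale.Agent.P042.H779.Ab

open Finset

set_option linter.unusedSectionVars false

section
variable {ι : Type*} [Fintype ι] [DecidableEq ι] {V : ι → Type*} [∀ i, Fintype (V i)]
  {w : ∀ i, V i → ℝ} {g : Finset ι → (∀ i, V i) → ℝ} {ok : Finset ι → Prop} {β : Finset ι → ℝ}

/-- `D(mu_i^{x_Q} || w_i)` -/
noncomputable def Di (w : ∀ i, V i → ℝ) (g : Finset ι → (∀ i, V i) → ℝ) (i : ι) (Q : Finset ι)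
    (x : ∀ i, V i) : ℝ := ∑ a, w i a * phi (rt g i (Function.update x i a) Q)

lemma Di_nonneg (F : Fam w g ok) (i : ι) (Q : Finset ι) (x : ∀ i, V i) : 0 ≤ Di w g i Q x :=
  sum_nonneg fun a _ => mul_nonneg (F.w_nonneg i a) (phi_nonneg (rt_nonneg F _ _ _))

/-- sum over the new coordinate against an independent weight -/
lemma sum_phi_rt (F : Fam w g ok) (i : ι) (Q : Finset ι)
    (h : (∀ i, V i) → ℝ) (hi : Indep i h) :
    ∑ x, pw w x * (h x * phi (rt g i x Q)) = ∑ x, pw w x * (h x * Di w g i Q x) := by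
  rw [pw_avg F i]
  refine sum_congr rfl fun x _ => ?_
  congr 1
  unfold Di
  rw [mul_sum]
  refine sum_congr rfl fun a _ => ?_
  rw [hi x a]; ring

/-- The functional of the freshly inserted coordinates. -/
noncomputable def DD (w : ∀ i, V i → ℝ) (g : Finset ι → (∀ i, V i) → ℝ) (β : Finset ι → ℝ)
    (τ : ℝ) : ℝ :=
  ∑ R ∈ (univ : Finset ι).powerset, ∑ i ∈ univ \ R, β (insert i R) *
    ∑ A ∈ R.powerset, bw τ R A *
      ∑ x, pw w x * (g A x * g R x * (Di w g i R x + Di w g i A x))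

/-- The total insertion rate. -/
noncomputable def SS (w : ∀ i, V i → ℝ) (g : Finset ι → (∀ i, V i) → ℝ) (β : Finset ι → ℝ)
    (τ : ℝ) : ℝ :=
  ∑ R ∈ (univ : Finset ι).powerset, ∑ i ∈ univ \ R, β (insert i R) *
    ∑ A ∈ R.powerset, bw τ R A * Wq w g A

/-- Steps 3, 4, 5: the separation functional is bounded by the insertion functional. -/
theorem kappa_le (F : Fam w g ok) (B : Wt ok β) {τ L : ℝ} (h0 : 0 < τ) {m : ℕ} (hm : 1 ≤ m)
    (hmτ : 16 * m * τ ≤ 1) (hL : 1 ≤ L) (hat : ∀ i a, w i a = 0 ∨ Real.exp (-L) ≤ w i a) :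
    ∑ R ∈ (univ : Finset ι).powerset, ∑ A ∈ R.powerset, ∑ M ∈ A.powerset,
        β R * bw τ R A * Th w g τ m M A R
      ≤ 1100 * m ^ 2 * L * DD w g β τ + 4 * τ * ((15 * τ) ^ m) ^ 2 * SS w g β τ := by
  have hm' : (1 : ℝ) ≤ m := by exact_mod_cast hm
  have h1 : τ < 1 := by nlinarith
  refine (sep_sum F B h0 h1 hm).trans ((step45 F B h0 hm hmτ hL hat).trans (le_of_eq ?_))
  unfold DD SS
  rw [mul_sum, mul_sum, ← sum_add_distrib]
  refine sum_congr rfl fun R _ => ?_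
  rw [mul_sum, mul_sum, ← sum_add_distrib]
  refine sum_congr rfl fun i hi => ?_
  rw [mem_sdiff] at hi
  by_cases hR : β (insert i R) = 0
  · rw [hR]; simp
  have hok := B.okb _ hR
  have hokR : ok R := F.ok_down _ _ (subset_insert _ _) hok
  have e1 : ∑ x, pw w x *
        (g R x * (Tg g τ R x * ((1100 * (m ^ 2 * L / τ)) * (phi (rt g i x R) +
        ∑ A ∈ R.powerset, post g τ R x A * phi (rt g i x A)) + 4 * ((15 * τ) ^ m) ^ 2)))
      = (1100 * (m ^ 2 * L / τ)) * (∑ A ∈ R.powerset, bw τ R A *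
        ∑ x, pw w x * (g A x * g R x * (Di w g i R x + Di w g i A x)))
        + 4 * ((15 * τ) ^ m) ^ 2 * ∑ A ∈ R.powerset, bw τ R A * Wq w g A := by
    have e2 : ∀ x, pw w x *
        (g R x * (Tg g τ R x * ((1100 * (m ^ 2 * L / τ)) * (phi (rt g i x R) +
        ∑ A ∈ R.powerset, post g τ R x A * phi (rt g i x A)) + 4 * ((15 * τ) ^ m) ^ 2)))
        = (1100 * (m ^ 2 * L / τ)) * (pw w x * (g R x * (Tg g τ R x * phi (rt g i x R)))
          + pw w x * (g R x * (Tg g τ R x *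
            ∑ A ∈ R.powerset, post g τ R x A * phi (rt g i x A))))
          + 4 * ((15 * τ) ^ m) ^ 2 * (pw w x * (g R x * Tg g τ R x)) := fun x => by ring
    rw [sum_congr rfl fun x _ => e2 x, sum_add_distrib, ← mul_sum, ← mul_sum, sum_add_distrib,
      sum_g_Tg_f F h0 h1 R (fun A x => phi (rt g i x A)),
      sum_g_Tg_h R τ (fun x => phi (rt g i x R)), sum_g_Tg F τ hokR, ← sum_add_distrib]
    congr 2
    refine sum_congr rfl fun A hA => ?_
    have hAR := mem_powerset.mp hA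
    have hiA : i ∉ A := fun hc => hi.2 (hAR hc)
    have hind : Indep i (fun x => g A x * g R x) := by
      intro x a
      beta_reduce
      rw [g_update F A hiA, g_update F R hi.2]
    rw [sum_phi_rt F i R (fun x => g A x * g R x) hind,
      sum_phi_rt F i A (fun x => g A x * g R x) hind, ← mul_add, ← sum_add_distrib]
    congr 1
    exact sum_congr rfl fun x _ => by ring
  rw [e1]
  field_simp

/-- **Abstract core inequality, functional form.**  `J` is the (unnormalised) planted law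
`β(R) bw τ R A · pw · g_A · g_R` of mass `G`; `Hs` is the posterior mass of the likely elements. -/
theorem abs_core (F : Fam w g ok) (B : Wt ok β) {τ θ gL L : ℝ} (h0 : 0 < τ) {m : ℕ} (hm : 1 ≤ m)
    (hmτ : 16 * m * τ ≤ 1) (hL : 1 ≤ L) (hat : ∀ i a, w i a = 0 ∨ Real.exp (-L) ≤ w i a)
    (hθ : 0 < θ) (hgL : 0 ≤ gL)
    (hlog : ∀ M, ok M → ∀ x, 0 < g M x → Real.log (g M x) ≤ gL * M.card)
    (hG0 : 0 < Gm w g β τ) :
    (Gm w g β τ * Real.log (Gm w g β τ)
      ≤ EJ w g β τ (fun A _ x => Real.log (g A x))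
        - (Real.log (θ / τ) - 1) * EJ w g β τ (fun _ R x => Hs g τ θ R x)) ∧
    (EJ w g β τ (fun A _ x => Real.log (g A x))
      ≤ gL * (EJ w g β τ (fun _ R x => Hs g τ θ R x)
        + θ ^ m * EJ w g β τ (fun _ R _ => (R.card : ℝ)))
        + 1100 * m ^ 2 * L * DD w g β τ + 4 * τ * ((15 * τ) ^ m) ^ 2 * SS w g β τ) := by
  have hm' : (1 : ℝ) ≤ m := by exact_mod_cast hm
  have h1 : τ < 1 := by nlinarith
  refine ⟨gibbs F B h0 h1 hθ hG0, ?_⟩
  have h2 := step2 F B h0 h1 hθ hgL hlog m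
  have h3 := kappa_le F B h0 hm hmτ hL hat
  linarith

lemma EJ_Hs_nonneg (F : Fam w g ok) (B : Wt ok β) {τ : ℝ} (h0 : 0 < τ) (h1 : τ < 1) (θ : ℝ) :
    0 ≤ EJ w g β τ (fun _ R x => Hs g τ θ R x) := by
  unfold EJ
  exact sum_nonneg fun R _ => mul_nonneg (B.nonneg R) (sum_nonneg fun A _ =>
    mul_nonneg (bw_pos h0 h1 R A).le (sum_nonneg fun x _ => mul_nonneg (pw_nonneg F x)
      (mul_nonneg (mul_nonneg (F.g_nonneg _ _) (F.g_nonneg _ _)) (Hs_nonneg F h0 h1 θ R x))))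

/-- The two inequalities combined: `v ≤ e ≤ 2 κ` when `log (θ/τ) - 1 ≥ 2 gL`. -/
theorem abs_core' (F : Fam w g ok) (B : Wt ok β) {τ θ gL L : ℝ} (h0 : 0 < τ) {m : ℕ} (hm : 1 ≤ m)
    (hmτ : 16 * m * τ ≤ 1) (hL : 1 ≤ L) (hat : ∀ i a, w i a = 0 ∨ Real.exp (-L) ≤ w i a)
    (hθ : 0 < θ) (hgL : 0 ≤ gL) (hbig : 2 * gL + 1 ≤ Real.log (θ / τ))
    (hlog : ∀ M, ok M → ∀ x, 0 < g M x → Real.log (g M x) ≤ gL * M.card)
    (hG1 : 1 ≤ Gm w g β τ) :
    Gm w g β τ * Real.log (Gm w g β τ) + (Real.log (θ / τ) - 1) *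
        EJ w g β τ (fun _ R x => Hs g τ θ R x)
      ≤ EJ w g β τ (fun A _ x => Real.log (g A x)) ∧
    EJ w g β τ (fun A _ x => Real.log (g A x))
      ≤ 2 * (gL * θ ^ m * EJ w g β τ (fun _ R _ => (R.card : ℝ))
        + 1100 * m ^ 2 * L * DD w g β τ + 4 * τ * ((15 * τ) ^ m) ^ 2 * SS w g β τ) := by
  have hm' : (1 : ℝ) ≤ m := by exact_mod_cast hm
  have h1 : τ < 1 := by nlinarith
  obtain ⟨h2, h3⟩ := abs_core F B h0 hm hmτ hL hat hθ hgL hlog (by linarith)
  have hH := EJ_Hs_nonneg F B h0 h1 θ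
  have hlG : 0 ≤ Real.log (Gm w g β τ) := Real.log_nonneg hG1
  have hGG : 0 ≤ Gm w g β τ * Real.log (Gm w g β τ) := mul_nonneg (by linarith) hlG
  constructor
  · linarith
  · have h4 : 2 * gL * EJ w g β τ (fun _ R x => Hs g τ θ R x)
        ≤ (Real.log (θ / τ) - 1) * EJ w g β τ (fun _ R x => Hs g τ θ R x) :=
      mul_le_mul_of_nonneg_right (by linarith) hH
    linarith

end

end Vale.Agent.P042.H779.Ab
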