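import Vale.Agent.P042.H779.MuRev

/-! Inserting an additional random set of coordinates into the planted law. -/

namespace Vale.Agent.P042.H779.Ab

open Finset

set_option linter.unusedSectionVars false

/-! Union of two Bernoulli sets -/

section
variable {ι : Type*} [Fintype ι] [DecidableEq ι]

/-- Bernoulli weights on the subsets of `U` -/
noncomputable def btS (U : Finset ι) (t : ι → ℝ) (R : Finset ι) : ℝ :=
  (∏ i ∈ R, t i) * ∏ i ∈ U \ R, (1 - t i)

lemma btS_ins_not (t : ι → ℝ) {j : ι} {U R : Finset ι} (hj : j ∉ U) (hR : R ⊆ U) :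
    btS (insert j U) t R = (1 - t j) * btS U t R := by
  have hjR : j ∉ R := fun h => hj (hR h)
  unfold btS
  rw [insert_sdiff_of_notMem U hjR, prod_insert (by simp [hj])]
  ring

lemma btS_ins_mem (t : ι → ℝ) {j : ι} {U R : Finset ι} (hj : j ∉ U) (hR : R ⊆ U) :
    btS (insert j U) t (insert j R) = t j * btS U t R := by
  have hjR : j ∉ R := fun h => hj (hR h)
  unfold btS
  have h1 : insert j U \ insert j R = U \ R := by
    ext k
    simp only [mem_sdiff, mem_insert, not_or]
    constructor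
    · rintro ⟨rfl | h1, h2, h3⟩
      · exact absurd rfl h2
      · exact ⟨h1, h3⟩
    · rintro ⟨h1, h2⟩
      exact ⟨Or.inr h1, fun h => hj (h ▸ h1), h2⟩
  rw [h1, prod_insert hjR]
  ring

lemma union_sum_aux (t s : ι → ℝ) (U : Finset ι) : ∀ F : Finset ι → ℝ,
    ∑ R ∈ U.powerset, ∑ S ∈ U.powerset, btS U t R * btS U s S * F (R ∪ S)
      = ∑ Q ∈ U.powerset, btS U (fun i => t i + s i - t i * s i) Q * F Q := by
  induction U using Finset.induction_on with
  | empty => intro F; simp [btS]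
  | insert j U hj ih =>
    intro F
    obtain ⟨q, hq⟩ : ∃ q : ι → ℝ, q = fun i => t i + s i - t i * s i := ⟨_, rfl⟩
    rw [← hq] at ih ⊢
    have hqj : q j = t j + s j - t j * s j := by rw [hq]
    have hR1 : ∑ Q ∈ (insert j U).powerset, btS (insert j U) q Q * F Q
        = (1 - q j) * ∑ Q ∈ U.powerset, btS U q Q * F Q
          + q j * ∑ Q ∈ U.powerset, btS U q Q * F (insert j Q) := by
      rw [sum_powerset_insert hj, mul_sum, mul_sum]
      congr 1
      · exact sum_congr rfl fun Q hQ => by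
          rw [btS_ins_not q hj (mem_powerset.mp hQ)]; ring
      · exact sum_congr rfl fun Q hQ => by
          rw [btS_ins_mem q hj (mem_powerset.mp hQ)]; ring
    rw [hR1, ← ih F, ← ih (fun Q => F (insert j Q)), sum_powerset_insert hj]
    have e1 : ∀ R ∈ U.powerset, ∑ S ∈ (insert j U).powerset,
        btS (insert j U) t R * btS (insert j U) s S * F (R ∪ S)
        = (1 - t j) * (1 - s j) * ∑ S ∈ U.powerset, btS U t R * btS U s S * F (R ∪ S)
          + (1 - t j) * s j * ∑ S ∈ U.powerset, btS U t R * btS U s S * F (insert j (R ∪ S)) := by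
      intro R hR
      rw [sum_powerset_insert hj, mul_sum, mul_sum]
      congr 1
      · exact sum_congr rfl fun S hS => by
          rw [btS_ins_not t hj (mem_powerset.mp hR), btS_ins_not s hj (mem_powerset.mp hS)]; ring
      · exact sum_congr rfl fun S hS => by
          rw [btS_ins_not t hj (mem_powerset.mp hR), btS_ins_mem s hj (mem_powerset.mp hS),
            union_insert]; ring
    have e2 : ∀ R ∈ U.powerset, ∑ S ∈ (insert j U).powerset,
        btS (insert j U) t (insert j R) * btS (insert j U) s S * F (insert j R ∪ S)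
        = t j * ∑ S ∈ U.powerset, btS U t R * btS U s S * F (insert j (R ∪ S)) := by
      intro R hR
      rw [sum_powerset_insert hj, mul_sum, ← sum_add_distrib]
      refine sum_congr rfl fun S hS => ?_
      rw [btS_ins_mem t hj (mem_powerset.mp hR), btS_ins_not s hj (mem_powerset.mp hS),
        btS_ins_mem s hj (mem_powerset.mp hS), insert_union, insert_union, union_insert,
        insert_idem]
      ring
    rw [sum_congr rfl e1, sum_congr rfl e2, sum_add_distrib, ← mul_sum, ← mul_sum, ← mul_sum]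
    rw [hqj]
    ring

/-- the union of two independent Bernoulli sets is a Bernoulli set -/
lemma union_sum (t s : ι → ℝ) (F : Finset ι → ℝ) :
    ∑ S ∈ (univ : Finset ι).powerset, bt s S * ∑ R ∈ (univ : Finset ι).powerset,
      bt t R * F (R ∪ S)
      = ∑ Q ∈ (univ : Finset ι).powerset, bt (fun i => t i + s i - t i * s i) Q * F Q := by
  have h := union_sum_aux t s univ F
  have e : ∀ (t : ι → ℝ) R, btS univ t R = bt t R := fun _ _ => rfl
  simp only [e] at h
  rw [← h, sum_comm]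
  refine sum_congr rfl fun S _ => ?_
  rw [mul_sum]
  exact sum_congr rfl fun R _ => by ring

/-- exponential moments of the number of points in a set -/
lemma bt_exp_card {t : ι → ℝ} (h0 : ∀ i, 0 ≤ t i) (h1 : ∀ i, t i ≤ 1) (S : Finset ι) :
    ∑ R ∈ (univ : Finset ι).powerset, bt t R * Real.exp ((R ∩ S).card)
      ≤ Real.exp (2 * ∑ i ∈ S, t i) := by
  have e1 : ∀ R ∈ (univ : Finset ι).powerset, bt t R * Real.exp ((R ∩ S).card)
      = (∏ i ∈ R, (if i ∈ S then t i * Real.exp 1 else t i)) * ∏ i ∈ univ \ R, (1 - t i) := by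
    intro R _
    have : Real.exp ((R ∩ S).card) = ∏ i ∈ R, (if i ∈ S then Real.exp 1 else 1) := by
      rw [prod_ite, prod_const_one, mul_one, prod_const, ← Real.exp_nat_mul, mul_one]
      congr 3
    rw [this]
    unfold bt
    have e2 : ∏ i ∈ R, (if i ∈ S then t i * Real.exp 1 else t i)
        = (∏ i ∈ R, t i) * ∏ i ∈ R, (if i ∈ S then Real.exp 1 else 1) := by
      rw [← prod_mul_distrib]
      refine prod_congr rfl fun i _ => ?_
      split_ifs <;> ring
    rw [e2]; ring
  rw [sum_congr rfl e1, ← Finset.prod_add]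
  have e3 : Real.exp (2 * ∑ i ∈ S, t i)
      = ∏ i, (if i ∈ S then Real.exp (2 * t i) else 1) := by
    rw [prod_ite_mem, univ_inter, mul_sum, Real.exp_sum]
  rw [e3]
  refine prod_le_prod (fun i _ => ?_) fun i _ => ?_
  · have hh := h1 i
    have hh0 := h0 i
    split_ifs
    · have := Real.exp_pos (1 : ℝ)
      nlinarith [mul_nonneg hh0 this.le]
    · linarith
  · split_ifs
    · have he : Real.exp 1 ≤ 3 := by
        have := Real.exp_one_lt_d9; linarith
      have h5 := Real.add_one_le_exp (2 * t i)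
      have := mul_le_mul_of_nonneg_left he (h0 i)
      linarith
    · linarith

end

section
variable {ι : Type*} [Fintype ι] [DecidableEq ι] {V : ι → Type*} [∀ i, Fintype (V i)]
  [∀ i, DecidableEq (V i)] {w : ∀ i, V i → ℝ} {μ : (∀ i, V i) → ℝ} {β β' : Finset ι → ℝ}

/-- **Donsker-Varadhan transfer**, general mass. -/
theorem dv_gen (H : Ref w μ) (hβ : ∀ R, 0 ≤ β R) {τ : ℝ} (h0 : 0 < τ) (h1 : τ < 1)
    (hG : 0 < Gm w (gdw w μ) β τ) (Z : Finset ι → (∀ i, V i) → ℝ)
    (hZ0 : ∀ R x, β R ≠ 0 → 0 < μ x → 0 < Z R x) :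
    JJ w μ β τ (fun _ R x => Real.log (Z R x)) ≤ KK w μ β τ
      + Gm w (gdw w μ) β τ *
        (∑ R ∈ (univ : Finset ι).powerset, β R * ∑ x, μ x * Z R x - 1) := by
  obtain ⟨G, hGd⟩ : ∃ G, G = Gm w (gdw w μ) β τ := ⟨_, rfl⟩
  unfold KK
  rw [← hGd] at hG ⊢
  have key : ∀ R ∈ (univ : Finset ι).powerset, ∀ A ∈ R.powerset, ∀ x : ∀ i, V i,
      β R * (bw τ R A * (μ x * (gdw w μ A x * Real.log (Z R x))))
      ≤ β R * (bw τ R A * (μ x * (gdw w μ A x * Real.log (gdw w μ A x))))
        - Real.log G * (β R * (bw τ R A * (μ x * (gdw w μ A x * 1))))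
        + (G * (β R * (bw τ R A * (μ x * Z R x)))
        - β R * (bw τ R A * (μ x * (gdw w μ A x * 1)))) := by
    intro R _ A _ x
    rcases (hβ R).eq_or_lt with hR | hR
    · rw [← hR]; simp
    rcases (H.prob.nonneg x).eq_or_lt with hx | hx
    · rw [← hx]; simp
    have hb := bw_pos h0 h1 R A
    have hg := H.g_pos hx A
    have hz := hZ0 R x hR.ne' hx
    have h2 := Real.log_le_sub_one_of_pos (show 0 < Z R x * G / gdw w μ A x by positivity)
    rw [Real.log_div (by positivity) hg.ne', Real.log_mul hz.ne' hG.ne'] at h2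
    have h3 := mul_le_mul_of_nonneg_left h2 hg.le
    have h4 : gdw w μ A x * (Z R x * G / gdw w μ A x - 1) = Z R x * G - gdw w μ A x := by
      field_simp
    rw [h4] at h3
    have h5 : gdw w μ A x * Real.log (Z R x) ≤ gdw w μ A x * Real.log (gdw w μ A x)
        - Real.log G * (gdw w μ A x * 1) + (G * Z R x - gdw w μ A x * 1) := by linarith
    have h6 := mul_le_mul_of_nonneg_left h5 (mul_nonneg hR.le (mul_nonneg hb.le hx.le))
    linarith
  have hsum : JJ w μ β τ (fun _ R x => Real.log (Z R x))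
      ≤ JJ w μ β τ (fun A _ x => Real.log (gdw w μ A x)) - Real.log G * JJ w μ β τ (fun _ _ _ => 1)
        + (G * ET μ β τ (fun _ R x => Z R x) - JJ w μ β τ (fun _ _ _ => 1)) := by
    unfold JJ ET
    simp only [mul_sum]
    rw [← sum_sub_distrib, ← sum_sub_distrib, ← sum_add_distrib]
    refine sum_le_sum fun R hR => ?_
    rw [← sum_sub_distrib, ← sum_sub_distrib, ← sum_add_distrib]
    refine sum_le_sum fun A hA => ?_
    rw [← sum_sub_distrib, ← sum_sub_distrib, ← sum_add_distrib]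
    exact sum_le_sum fun x _ => key R hR A hA x
  have hET : ET μ β τ (fun _ R x => Z R x)
      = ∑ R ∈ (univ : Finset ι).powerset, β R * ∑ x, μ x * Z R x := by
    unfold ET
    refine sum_congr rfl fun R _ => ?_
    rw [← sum_mul, bw_sum, one_mul]
  rw [JJ_one H β τ, ← hGd, hET] at hsum
  linarith

/-- the planted law with an additional inserted set -/
noncomputable def JP (w : ∀ i, V i → ℝ) (μ : (∀ i, V i) → ℝ) (β : Finset ι → ℝ) (τ : ℝ)
    (β' : Finset ι → ℝ) (f : Finset ι → Finset ι → Finset ι → (∀ i, V i) → ℝ) : ℝ :=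
  ∑ S ∈ (univ : Finset ι).powerset, β' S * JJ w μ β τ (f S)

lemma JP_mono (H : Ref w μ) (hβ : ∀ R, 0 ≤ β R) (hβ' : ∀ S, 0 ≤ β' S) {τ : ℝ} (h0 : 0 < τ)
    (h1 : τ < 1) {f f' : Finset ι → Finset ι → Finset ι → (∀ i, V i) → ℝ}
    (hff : ∀ S, β' S ≠ 0 → ∀ R, β R ≠ 0 → ∀ A ⊆ R, ∀ x, 0 < μ x → f S A R x ≤ f' S A R x) :
    JP w μ β τ β' f ≤ JP w μ β τ β' f' := by
  refine sum_le_sum fun S _ => ?_
  by_cases hS : β' S = 0
  · rw [hS]; simp
  exact mul_le_mul_of_nonneg_left (JJ_mono H hβ h0 h1 (hff S hS)) (hβ' S)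

lemma JP_nonneg (H : Ref w μ) (hβ : ∀ R, 0 ≤ β R) (hβ' : ∀ S, 0 ≤ β' S) {τ : ℝ} (h0 : 0 < τ)
    (h1 : τ < 1) {f : Finset ι → Finset ι → Finset ι → (∀ i, V i) → ℝ}
    (hf : ∀ S, β' S ≠ 0 → ∀ R, β R ≠ 0 → ∀ A ⊆ R, ∀ x, 0 < μ x → 0 ≤ f S A R x) :
    0 ≤ JP w μ β τ β' f := by
  refine sum_nonneg fun S _ => ?_
  by_cases hS : β' S = 0
  · rw [hS]; simp
  exact mul_nonneg (hβ' S) (JJ_nonneg H hβ h0 h1 (hf S hS))

lemma JP_add (w : ∀ i, V i → ℝ) (μ : (∀ i, V i) → ℝ) (β : Finset ι → ℝ) (τ : ℝ)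
    (β' : Finset ι → ℝ) (f f' : Finset ι → Finset ι → Finset ι → (∀ i, V i) → ℝ) :
    JP w μ β τ β' (fun S A R x => f S A R x + f' S A R x)
      = JP w μ β τ β' f + JP w μ β τ β' f' := by
  unfold JP
  rw [← sum_add_distrib]
  refine sum_congr rfl fun S _ => ?_
  rw [JJ_add]; ring

lemma JP_sub (w : ∀ i, V i → ℝ) (μ : (∀ i, V i) → ℝ) (β : Finset ι → ℝ) (τ : ℝ)
    (β' : Finset ι → ℝ) (f f' : Finset ι → Finset ι → Finset ι → (∀ i, V i) → ℝ) :
    JP w μ β τ β' (fun S A R x => f S A R x - f' S A R x)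
      = JP w μ β τ β' f - JP w μ β τ β' f' := by
  unfold JP
  rw [← sum_sub_distrib]
  refine sum_congr rfl fun S _ => ?_
  rw [JJ_sub]; ring

lemma JP_smul (w : ∀ i, V i → ℝ) (μ : (∀ i, V i) → ℝ) (β : Finset ι → ℝ) (τ c : ℝ)
    (β' : Finset ι → ℝ) (f : Finset ι → Finset ι → Finset ι → (∀ i, V i) → ℝ) :
    JP w μ β τ β' (fun S A R x => c * f S A R x) = c * JP w μ β τ β' f := by
  unfold JP
  rw [mul_sum]
  refine sum_congr rfl fun S _ => ?_
  rw [JJ_smul]; ring

lemma JP_sum {κ : Type*} (w : ∀ i, V i → ℝ) (μ : (∀ i, V i) → ℝ) (β : Finset ι → ℝ) (τ : ℝ)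
    (β' : Finset ι → ℝ) (s : Finset κ)
    (f : κ → Finset ι → Finset ι → Finset ι → (∀ i, V i) → ℝ) :
    JP w μ β τ β' (fun S A R x => ∑ k ∈ s, f k S A R x) = ∑ k ∈ s, JP w μ β τ β' (f k) := by
  unfold JP
  rw [sum_comm]
  refine sum_congr rfl fun S _ => ?_
  rw [JJ_sum, mul_sum]

lemma JP_const (H : Ref w μ) (β : Finset ι → ℝ) (τ c : ℝ) (β' : Finset ι → ℝ) :
    JP w μ β τ β' (fun _ _ _ _ => c)
      = c * Gm w (gdw w μ) β τ * ∑ S ∈ (univ : Finset ι).powerset, β' S := by
  unfold JP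
  rw [mul_sum]
  refine sum_congr rfl fun S _ => ?_
  rw [JJ_const H]; ring

/-- transfer for the extended law -/
theorem JP_dv (H : Ref w μ) (hβ : ∀ R, 0 ≤ β R) (hβ' : ∀ S, 0 ≤ β' S) {τ : ℝ} (h0 : 0 < τ)
    (h1 : τ < 1) (hG : 0 < Gm w (gdw w μ) β τ) (hK : 0 ≤ KK w μ β τ)
    (hc1 : ∑ S ∈ (univ : Finset ι).powerset, β' S ≤ 1) {ε : ℝ}
    (hc2 : 1 - ε ≤ ∑ S ∈ (univ : Finset ι).powerset, β' S)
    (Z : Finset ι → Finset ι → (∀ i, V i) → ℝ)
    (hZ0 : ∀ S R x, 0 < μ x → 0 < Z S R x)
    (hZ : ∑ S ∈ (univ : Finset ι).powerset, β' S * ∑ R ∈ (univ : Finset ι).powerset,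
      β R * ∑ x, μ x * Z S R x ≤ 1) :
    JP w μ β τ β' (fun S _ R x => Real.log (Z S R x))
      ≤ KK w μ β τ + ε * Gm w (gdw w μ) β τ := by
  have h2 : JP w μ β τ β' (fun S _ R x => Real.log (Z S R x))
      ≤ ∑ S ∈ (univ : Finset ι).powerset, β' S * (KK w μ β τ
      + Gm w (gdw w μ) β τ *
        (∑ R ∈ (univ : Finset ι).powerset, β R * ∑ x, μ x * Z S R x - 1)) :=
    sum_le_sum fun S _ => mul_le_mul_of_nonneg_left
      (dv_gen H hβ h0 h1 hG (Z S) fun R x _ hx => hZ0 S R x hx) (hβ' S)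
  have h3 : ∑ S ∈ (univ : Finset ι).powerset, β' S * (KK w μ β τ
      + Gm w (gdw w μ) β τ *
        (∑ R ∈ (univ : Finset ι).powerset, β R * ∑ x, μ x * Z S R x - 1))
      = KK w μ β τ * ∑ S ∈ (univ : Finset ι).powerset, β' S
        + Gm w (gdw w μ) β τ * (∑ S ∈ (univ : Finset ι).powerset, β' S *
          ∑ R ∈ (univ : Finset ι).powerset, β R * ∑ x, μ x * Z S R x
          - ∑ S ∈ (univ : Finset ι).powerset, β' S) := by
    rw [← sum_sub_distrib, mul_sum, mul_sum, ← sum_add_distrib]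
    exact sum_congr rfl fun S _ => by ring
  rw [h3] at h2
  have h4 := mul_le_mul_of_nonneg_left hc1 hK
  have h5 : Gm w (gdw w μ) β τ * (∑ S ∈ (univ : Finset ι).powerset, β' S *
          ∑ R ∈ (univ : Finset ι).powerset, β R * ∑ x, μ x * Z S R x
          - ∑ S ∈ (univ : Finset ι).powerset, β' S) ≤ Gm w (gdw w μ) β τ * ε :=
    mul_le_mul_of_nonneg_left (by linarith) hG.le
  linarith

/-- the entropy of the planted law is nonnegative -/
lemma KK_nonneg (H : Ref w μ) (hβ : ∀ R, 0 ≤ β R)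
    (hβ1 : ∑ R ∈ (univ : Finset ι).powerset, β R ≤ 1) {τ : ℝ} (h0 : 0 < τ) (h1 : τ < 1)
    (hG : 0 < Gm w (gdw w μ) β τ) : 0 ≤ KK w μ β τ := by
  have h := dv_transfer H hβ h0 h1 hG (fun _ _ => 1) (fun _ _ _ _ => one_pos)
    (by simpa [H.prob.sum_eq] using hβ1)
  have h2 : JJ w μ β τ (fun _ _ _ => Real.log 1) = 0 := by
    rw [Real.log_one]; unfold JJ ET; simp
  linarith

/-! Superadditivity -/

/-- one more pinned coordinate increases the averaged divergence -/
lemma Di_insert (H : Ref w μ) {i j : ι} {P : Finset ι} (hi : i ∉ P) (hj : j ∉ P) (hij : i ≠ j)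
    {K : (∀ i, V i) → ℝ} (hK : Loc P K) (hK0 : ∀ x, 0 ≤ K x) :
    ∑ x, μ x * (K x * Di w (gdw w μ) i P x)
      ≤ ∑ x, μ x * (K x * Di w (gdw w μ) i (insert j P) x) := by
  rw [H.mu_sum (hK.mul (loc_Di i P)),
    H.mu_sum ((hK.mono (subset_insert j P)).mul (loc_Di i (insert j P))), pw_avg H.famT j
      (fun x => K x * Di w (gdw w μ) i (insert j P) x * gdw w μ (insert j P) x)]
  refine sum_le_sum fun x _ => mul_le_mul_of_nonneg_left ?_ (pw_nonneg H.famT x)
  have hKj : ∀ b, K (Function.update x j b) = K x := fun b => (hK.indep hj) x b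
  have e1 : ∑ b, w j b * (K (Function.update x j b) *
      Di w (gdw w μ) i (insert j P) (Function.update x j b) *
        gdw w μ (insert j P) (Function.update x j b))
      = K x * ∑ a, w i a * ∑ b, w j b * gdw w μ (insert j P) (Function.update x j b) *
        phi (rt (gdw w μ) i (Function.update (Function.update x j b) i a) (insert j P)) := by
    simp only [mul_sum]
    rw [sum_comm]
    refine sum_congr rfl fun b _ => ?_
    rw [hKj b]
    unfold Di
    rw [mul_sum, sum_mul, mul_sum]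
    exact sum_congr rfl fun a _ => by ring
  rw [e1, mul_assoc]
  refine mul_le_mul_of_nonneg_left ?_ (hK0 x)
  unfold Di
  rw [sum_mul]
  refine sum_le_sum fun a _ => ?_
  rw [mul_assoc]
  refine mul_le_mul_of_nonneg_left ?_ (H.w_nonneg i a)
  have hW : ∑ b, w j b * gdw w μ (insert j P) (Function.update x j b) = gdw w μ P x :=
    H.famT.g_avg P j hj trivial x
  rcases (H.famT.g_nonneg P x).eq_or_lt with h0 | h0
  · rw [← h0, mul_zero]
    refine sum_nonneg fun b _ => mul_nonneg (mul_nonneg (H.w_nonneg j b) (H.famT.g_nonneg _ _)) ?_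
    exact phi_nonneg (rt_nonneg H.famT _ _ _)
  have hJ := phi_jensen_div (univ : Finset (V j))
    (fun b => w j b * gdw w μ (insert j P) (Function.update x j b))
    (fun b => rt (gdw w μ) i (Function.update (Function.update x j b) i a) (insert j P))
    (fun b _ => mul_nonneg (H.w_nonneg j b) (H.famT.g_nonneg _ _))
    (fun b _ => rt_nonneg H.famT _ _ _) (by rw [hW]; exact h0)
  rw [hW] at hJ
  have hiP : i ∉ insert j P := by simp [hij, hi]
  have hjP : j ∉ insert i P := by simp [hij.symm, hj]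
  have e2 : ∑ b, w j b * gdw w μ (insert j P) (Function.update x j b) *
      rt (gdw w μ) i (Function.update (Function.update x j b) i a) (insert j P)
      = gdw w μ (insert i P) (Function.update x i a) := by
    rw [← H.famT.g_avg (insert i P) j hjP trivial (Function.update x i a)]
    refine sum_congr rfl fun b _ => ?_
    rw [mul_assoc, mul_comm (gdw w μ (insert j P) (Function.update x j b)),
      ← gdw_insert_eq H hiP, Function.update_comm hij, Finset.insert_comm]
  rw [e2, gdw_insert_eq H hi, mul_div_assoc, div_self h0.ne', mul_one] at hJ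
  linarith

lemma Di_mono (H : Ref w μ) {i : ι} {P : Finset ι} (S : Finset ι) :
    Disjoint S P → i ∉ P ∪ S →
    ∀ {K : (∀ i, V i) → ℝ}, Loc P K → (∀ x, 0 ≤ K x) →
    ∑ x, μ x * (K x * Di w (gdw w μ) i P x)
      ≤ ∑ x, μ x * (K x * Di w (gdw w μ) i (P ∪ S) x) := by
  induction S using Finset.induction_on with
  | empty => intro _ _ K _ _; simp
  | insert j S hj ih =>
    intro hd hi K hK hK0
    rw [disjoint_insert_left] at hd
    have hi' : i ∉ P ∪ S := fun h => hi (by
      rw [union_insert]; exact mem_insert_of_mem h)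
    have hij : i ≠ j := fun h => hi (by rw [h]; simp)
    refine (ih hd.2 hi' hK hK0).trans ?_
    rw [union_insert]
    exact Di_insert H hi' (by simp [hd.1, hj]) hij (hK.mono subset_union_left) hK0

/-- superadditivity -/
lemma superadd (H : Ref w μ) {R : Finset ι} {K : (∀ i, V i) → ℝ} (hK : Loc R K)
    (hK0 : ∀ x, 0 ≤ K x) (S : Finset ι) : Disjoint S R →
    ∑ i ∈ S, ∑ x, μ x * (K x * Di w (gdw w μ) i R x)
      ≤ ∑ x, μ x * (K x * (Real.log (gdw w μ (R ∪ S) x) - Real.log (gdw w μ R x))) := by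
  induction S using Finset.induction_on with
  | empty => intro _; simp
  | insert j S hj ih =>
    intro hd
    rw [disjoint_insert_left] at hd
    rw [sum_insert hj]
    have hjP : j ∉ R ∪ S := by simp [hd.1, hj]
    have h1 := Di_mono H S (P := R) (i := j) hd.2 hjP hK hK0
    have h2 := one_step H hjP (hK.mono subset_union_left) Real.log (K := K)
    have h3 : ∑ x, μ x * (K x * avr w μ Real.log j (R ∪ S) x)
        = ∑ x, μ x * (K x * Di w (gdw w μ) j (R ∪ S) x) := by
      refine sum_congr rfl fun x _ => ?_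
      rcases (H.prob.nonneg x).eq_or_lt with hx | hx
      · rw [← hx]; simp
      congr 2
      unfold avr Di phi
      have e1 := sum_w_rt H hjP (H.g_pos hx (R ∪ S))
      have e2 : ∑ a, w j a * (rt (gdw w μ) j (Function.update x j a) (R ∪ S) *
          Real.log (rt (gdw w μ) j (Function.update x j a) (R ∪ S))
          - rt (gdw w μ) j (Function.update x j a) (R ∪ S) + 1)
          = ∑ a, w j a * (rt (gdw w μ) j (Function.update x j a) (R ∪ S) *
          Real.log (rt (gdw w μ) j (Function.update x j a) (R ∪ S)))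
          - ∑ a, w j a * rt (gdw w μ) j (Function.update x j a) (R ∪ S) + ∑ a, w j a := by
        rw [← sum_sub_distrib, ← sum_add_distrib]
        exact sum_congr rfl fun a _ => by ring
      rw [e2, e1, H.w_sum]; ring
    have h4 : ∑ x, μ x * (K x * (Real.log (gdw w μ (R ∪ insert j S) x)
        - Real.log (gdw w μ R x)))
        = ∑ x, μ x * (K x * Real.log (rt (gdw w μ) j x (R ∪ S)))
          + ∑ x, μ x * (K x * (Real.log (gdw w μ (R ∪ S) x) - Real.log (gdw w μ R x))) := by
      rw [← sum_add_distrib]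
      refine sum_congr rfl fun x _ => ?_
      rcases (H.prob.nonneg x).eq_or_lt with hx | hx
      · rw [← hx]; simp
      rw [union_insert]
      unfold rt
      rw [Real.log_div (H.g_pos hx _).ne' (H.g_pos hx _).ne']
      ring
    rw [h4, h2, h3]
    have := ih hd.2
    linarith

end

end Vale.Agent.P042.H779.Ab
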