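import Vale.Agent.P042.H779.MuScale

/-! The insertion functional of the planted law: several scales. -/

namespace Vale.Agent.P042.H779.Ab

open Finset

set_option linter.unusedSectionVars false

section
variable {ι : Type*} [Fintype ι] [DecidableEq ι] {V : ι → Type*} [∀ i, Fintype (V i)]
  [∀ i, DecidableEq (V i)] {w : ∀ i, V i → ℝ} {μ : (∀ i, V i) → ℝ} {β β' : Finset ι → ℝ}

/-- Rates `t` of the background, rates `u` of the inserted set, scales `sc`. -/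
structure Rates (t u : ι → ℝ) (sc : ι → ℕ) (ns : ℕ) (K : ℝ) (qb : ℕ → ℝ) : Prop where
  t0 : ∀ i, 0 ≤ t i
  t1 : ∀ i, t i ≤ 1 / 2
  u0 : ∀ i, 0 ≤ u i
  u1 : ∀ i, u i ≤ 1 / 2
  K0 : 0 < K
  Kt : ∀ i, K * t i ≤ u i
  scn : ∀ i, sc i < ns
  qb1 : ∀ i, t i + u i ≤ qb (sc i)
  qb0 : ∀ s, 0 ≤ qb s

/-- The hypotheses on the law: densities and pins. -/
structure Pins (w : ∀ i, V i → ℝ) (μ : (∀ i, V i) → ℝ) (sc : ι → ℕ) (ok' : Finset ι → Prop)
    (D : ℕ) (L gH δ : ℝ) (lam a : ℕ → ℝ) (c : ℕ → ι → ℝ) : Prop where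
  L1 : 1 ≤ L
  gH0 : 0 ≤ gH
  δ0 : 0 ≤ δ
  lam0 : ∀ s, 0 < lam s
  a0 : ∀ s, 0 ≤ a s
  c0 : ∀ s i, 0 ≤ c s i
  c1 : ∀ s i, c s i ≤ 1
  atoms : ∀ i b, w i b = 0 ∨ Real.exp (-L) ≤ w i b
  down : ∀ P Q : Finset ι, P ⊆ Q → ok' Q → ok' P
  card : ∀ M, ok' M → M.card ≤ D
  hlog : ∀ M, ok' M → ∀ x, 0 < gdw w μ M x → Real.log (gdw w μ M x) ≤ gH * M.card
  pins : ∀ s, ∀ P, P ⊆ Lo sc (s + 1) → ok' P → ∀ x, 0 < μ x → δ ≤ marg μ P x →
    lam s * ∑ j ∈ At sc s \ P, Di w (gdw w μ) j P x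
      ≤ ∑ i ∈ P, c s i + a s - Real.log (gdw w μ P x)

/-- Weights of the background and of the inserted set. -/
structure Wts (β β' : Finset ι → ℝ) (t u : ι → ℝ) (ok' : Finset ι → Prop) (ε : ℝ) : Prop where
  b0 : ∀ R, 0 ≤ β R
  b1 : ∀ R, β R ≤ bt t R
  b0' : ∀ S, 0 ≤ β' S
  b1' : ∀ S, β' S ≤ bt u S
  hok : ∀ R, β R ≠ 0 → ∀ S, β' S ≠ 0 → ok' (R ∪ S)
  mass : 1 - ε ≤ ∑ S ∈ (univ : Finset ι).powerset, β' S
  pt : ∀ i, u i / 2 ≤ ∑ S ∈ (univ : Finset ι).powerset, β' S * (if i ∈ S then 1 else 0)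

/-- the bound for one scale -/
noncomputable def Bs (w : ∀ i, V i → ℝ) (μ : (∀ i, V i) → ℝ) (β : Finset ι → ℝ) (τ : ℝ)
    (t u : ι → ℝ) (sc : ι → ℕ) (D : ℕ) (L gH δ ε : ℝ) (lam a : ℕ → ℝ) (c : ℕ → ι → ℝ) (s : ℕ) : ℝ :=
  (2 * KK w μ β τ + (ε + 2 * ∑ i ∈ Lo sc (s + 1), (t i + u i) * c s i + a s
    + Fintype.card ι * (lam s * (1 + L) + gH) * (Real.exp (gH * D + L * D) * δ))
      * Gm w (gdw w μ) β τ) / lam s

variable {t u : ι → ℝ} {sc : ι → ℕ} {ns : ℕ} {K : ℝ} {qb : ℕ → ℝ} {ok' : Finset ι → Prop}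
  {D : ℕ} {L gH δ ε τ : ℝ} {lam a : ℕ → ℝ} {c : ℕ → ι → ℝ}

lemma Wts.sum1 (B : Wts β β' t u ok' ε) : ∑ R ∈ (univ : Finset ι).powerset, β R ≤ 1 := by
  rw [← bt_sum t]; exact sum_le_sum fun R _ => B.b1 R

lemma Wts.sum1' (B : Wts β β' t u ok' ε) : ∑ R ∈ (univ : Finset ι).powerset, β' R ≤ 1 := by
  rw [← bt_sum u]; exact sum_le_sum fun R _ => B.b1' R

/-- one scale -/
lemma scale_bound (H : Ref w μ) (A : Rates t u sc ns K qb)
    (P : Pins w μ sc ok' D L gH δ lam a c) (B : Wts β β' t u ok' ε) (h0 : 0 < τ) (h1 : τ < 1)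
    (hG : 1 ≤ Gm w (gdw w μ) β τ) (s : ℕ) (T : Finset ι) (hT : T ⊆ Lo sc (s + 1)) :
    ∑ j ∈ At sc s \ T, JP w μ β τ β' (fun S _ R x => Di w (gdw w μ) j ((R ∪ S) ∩ T) x)
      ≤ Bs w μ β τ t u sc D L gH δ ε lam a c s := by
  have hG0 : 0 < Gm w (gdw w μ) β τ := by linarith
  have hK0 := KK_nonneg H B.b0 B.sum1 h0 h1 hG0
  have hL0 : 0 ≤ L := by linarith [P.L1]
  have hN : (0 : ℝ) ≤ Fintype.card ι := by positivity
  have hl := P.lam0 s
  unfold Bs
  rw [← JP_sum, le_div_iff₀ hl, mul_comm, ← JP_smul]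
  -- pointwise bound
  have hpt : JP w μ β τ β' (fun S _ R x => lam s * ∑ j ∈ At sc s \ T,
        Di w (gdw w μ) j ((R ∪ S) ∩ T) x)
      ≤ JP w μ β τ β' (fun S _ R x => ((∑ i ∈ (R ∪ S) ∩ Lo sc (s + 1), c s i) + a s)
        + (- Real.log (gdw w μ ((R ∪ S) ∩ T) x)
        + Fintype.card ι * (lam s * (1 + L) + gH) *
          (if marg μ ((R ∪ S) ∩ T) x < δ then 1 else 0))) := by
    refine JP_mono H B.b0 B.b0' h0 h1 fun S hS R hR A' _ x hx => ?_
    have hokP : ok' ((R ∪ S) ∩ T) := P.down _ _ inter_subset_left (B.hok R hR S hS)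
    have hsub : (R ∪ S) ∩ T ⊆ Lo sc (s + 1) := inter_subset_right.trans hT
    have hc : ∑ i ∈ (R ∪ S) ∩ T, c s i ≤ ∑ i ∈ (R ∪ S) ∩ Lo sc (s + 1), c s i :=
      sum_le_sum_of_subset_of_nonneg (inter_subset_inter_left hT) fun i _ _ => P.c0 s i
    by_cases hm : marg μ ((R ∪ S) ∩ T) x < δ
    · rw [if_pos hm]
      have hD : ∑ j ∈ At sc s \ T, Di w (gdw w μ) j ((R ∪ S) ∩ T) x
          ≤ Fintype.card ι * (1 + L) := by
        have e1 : ∑ j ∈ At sc s \ T, Di w (gdw w μ) j ((R ∪ S) ∩ T) x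
            ≤ ∑ _j ∈ At sc s \ T, (1 + L) := sum_le_sum fun j hj =>
          Di_le H hL0 P.atoms (fun hc => (mem_sdiff.mp hj).2 (mem_inter.mp hc).2) (H.g_pos hx _)
        refine e1.trans ?_
        rw [sum_const, nsmul_eq_mul]
        refine mul_le_mul_of_nonneg_right ?_ (by linarith)
        exact_mod_cast card_le_univ _
      have hlogb := P.hlog _ hokP x (H.g_pos hx _)
      have hcard : ((((R ∪ S) ∩ T).card : ℕ) : ℝ) ≤ Fintype.card ι := by
        exact_mod_cast card_le_univ _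
      have e2 := mul_le_mul_of_nonneg_left hcard P.gH0
      have e3 := mul_le_mul_of_nonneg_left hD hl.le
      have e4 : 0 ≤ ∑ i ∈ (R ∪ S) ∩ Lo sc (s + 1), c s i := sum_nonneg fun i _ => P.c0 s i
      have e5 := P.a0 s
      have e6 : (Fintype.card ι : ℝ) * (lam s * (1 + L) + gH) * 1
          = lam s * (Fintype.card ι * (1 + L)) + gH * Fintype.card ι := by ring
      rw [e6]
      linarith
    · rw [if_neg hm]
      have h2 := P.pins s _ hsub hokP x hx (not_lt.mp hm)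
      have h3 : ∑ j ∈ At sc s \ T, Di w (gdw w μ) j ((R ∪ S) ∩ T) x
          ≤ ∑ j ∈ At sc s \ ((R ∪ S) ∩ T), Di w (gdw w μ) j ((R ∪ S) ∩ T) x :=
        sum_le_sum_of_subset_of_nonneg (sdiff_subset_sdiff (Subset.refl _) inter_subset_right)
          fun j _ _ => Di_nonneg H.famT _ _ _
      have h4 := mul_le_mul_of_nonneg_left h3 hl.le
      linarith
  refine hpt.trans ?_
  rw [JP_add (f := fun S _ R _ => (∑ i ∈ (R ∪ S) ∩ Lo sc (s + 1), c s i) + a s),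
    JP_add (f := fun S _ R _ => (∑ i ∈ (R ∪ S) ∩ Lo sc (s + 1), c s i))
      (f' := fun _ _ _ _ => a s),
    JP_add (f := fun S _ R x => - Real.log (gdw w μ ((R ∪ S) ∩ T) x)), JP_smul, JP_const H]
  have hc1 := JP_card_le H A.t0 (fun i => (A.t1 i).trans (by norm_num)) A.u0
    (fun i => (A.u1 i).trans (by norm_num)) B.b0 B.b1 B.b0' B.b1' h0 h1 hG0 hK0 B.sum1' B.mass
    (P.c0 s) (P.c1 s) (Lo sc (s + 1))
  have hc2 : a s * Gm w (gdw w μ) β τ * ∑ S ∈ (univ : Finset ι).powerset, β' S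
      ≤ a s * Gm w (gdw w μ) β τ * 1 :=
    mul_le_mul_of_nonneg_left B.sum1' (mul_nonneg (P.a0 s) hG0.le)
  have hc3 : JP w μ β τ β' (fun S _ R x => - Real.log (gdw w μ ((R ∪ S) ∩ T) x))
      ≤ KK w μ β τ := by
    have e1 : JP w μ β τ β' (fun S _ R x => - Real.log (gdw w μ ((R ∪ S) ∩ T) x))
        ≤ ∑ S ∈ (univ : Finset ι).powerset, β' S * KK w μ β τ :=
      sum_le_sum fun S _ => mul_le_mul_of_nonneg_left
        (neg_log_le H B.b0 B.sum1 h0 h1 hG0 fun R => (R ∪ S) ∩ T) (B.b0' S)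
    rw [← sum_mul] at e1
    exact e1.trans (mul_le_of_le_one_left hK0 B.sum1')
  have hc4 : JP w μ β τ β' (fun S _ R x => if marg μ ((R ∪ S) ∩ T) x < δ then 1 else 0)
      ≤ Real.exp (gH * D + L * D) * δ := by
    have hbad : 0 ≤ Real.exp (gH * D + L * D) * δ := mul_nonneg (Real.exp_nonneg _) P.δ0
    have e1 : JP w μ β τ β' (fun S _ R x => if marg μ ((R ∪ S) ∩ T) x < δ then 1 else 0)
        ≤ ∑ S ∈ (univ : Finset ι).powerset, β' S * (Real.exp (gH * D + L * D) * δ) := by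
      refine sum_le_sum fun S _ => ?_
      by_cases hS : β' S = 0
      · rw [hS]; simp
      refine mul_le_mul_of_nonneg_left ?_ (B.b0' S)
      refine JJ_small H B.b0 B.sum1 h0 h1 hL0 P.atoms P.δ0 P.gH0
        (fun R hR A' hA' x hx => ?_) (fun R => (R ∪ S) ∩ T) (fun R hR => ?_)
      · have hok := P.down A' _ (hA'.trans subset_union_left) (B.hok R hR S hS)
        refine (P.hlog A' hok x hx).trans (mul_le_mul_of_nonneg_left ?_ P.gH0)
        exact_mod_cast P.card _ hok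
      · exact P.card _ (P.down _ _ inter_subset_left (B.hok R hR S hS))
    rw [← sum_mul] at e1
    exact e1.trans (mul_le_of_le_one_left hbad B.sum1')
  have hE : 0 ≤ (Fintype.card ι : ℝ) * (lam s * (1 + L) + gH) :=
    mul_nonneg hN (add_nonneg (mul_nonneg hl.le (by linarith)) P.gH0)
  have hc5 := mul_le_mul_of_nonneg_left hc4 hE
  have hc6 : (Fintype.card ι : ℝ) * (lam s * (1 + L) + gH) * (Real.exp (gH * D + L * D) * δ)
      ≤ (Fintype.card ι : ℝ) * (lam s * (1 + L) + gH) * (Real.exp (gH * D + L * D) * δ)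
        * Gm w (gdw w μ) β τ :=
    le_mul_of_one_le_right (mul_nonneg hE (mul_nonneg (Real.exp_nonneg _) P.δ0)) hG
  linarith

/-- revealing all coordinates -/
lemma reveal_all (H : Ref w μ) (A : Rates t u sc ns K qb)
    (P : Pins w μ sc ok' D L gH δ lam a c) (B : Wts β β' t u ok' ε) (h0 : 0 < τ) (h1 : τ < 1)
    (hG : 0 < Gm w (gdw w μ) β τ) {l : List ι} (hnd : l.Nodup) (hl : l.toFinset = univ) :
    JP w μ β τ β' (fun S _ R x => Real.log (gdw w μ (R ∪ S) x))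
      ≤ L * (KK w μ β τ + ε * Gm w (gdw w μ) β τ)
        + 65 * gc (fun i => t i + u i - t i * u i) (fun T j => JP w μ β τ β'
          (fun S _ R x => Di w (gdw w μ) j ((R ∪ S) ∩ T) x)) ∅ l := by
  obtain ⟨q, hq⟩ : ∃ q : ι → ℝ, q = fun i => t i + u i - t i * u i := ⟨_, rfl⟩
  have hK0 := KK_nonneg H B.b0 B.sum1 h0 h1 hG
  have hL0 : 0 ≤ L := by linarith [P.L1]
  have hq0 : ∀ i, 0 ≤ q i := fun i => by
    rw [hq]
    have := A.t0 i; have := A.t1 i; have := A.u0 i; have := A.u1 i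
    nlinarith
  have hq1 : ∀ i, q i < 1 := fun i => by
    rw [hq]
    have := A.t0 i; have := A.t1 i; have := A.u0 i; have := A.u1 i
    nlinarith
  rw [← hq, ← JP_CDl]
  have hZ : ∑ S ∈ (univ : Finset ι).powerset, β' S * ∑ R ∈ (univ : Finset ι).powerset,
      β R * ∑ x, μ x * Zl w μ q L ∅ ∅ l (R ∪ S) x ≤ 1 := by
    have h2 := joint_le (F := fun Q => ∑ x, μ x * Zl w μ q L ∅ ∅ l Q x) H B.b0 B.b1 B.b0' B.b1'
      (fun Q => sum_nonneg fun x _ => by
        rcases (H.prob.nonneg x).eq_or_lt with hx | hx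
        · rw [← hx]; simp
        · exact mul_nonneg hx.le (Zl_pos H hq0 hq1 L ∅ l ∅ Q x hx).le)
    refine h2.trans (le_of_eq ?_)
    rw [← hq]
    have hm := mart H hq0 hq1 L ∅ l ∅ hnd (by simp) (by simp) (fun _ _ => 1)
      (fun _ _ _ _ => rfl) (fun _ _ _ => rfl)
    simp only [one_mul, mul_one] at hm
    rw [hm, H.prob.sum_eq]
    simp only [mul_one]
    exact bt_sum q
  -- `Zl` is positive on the support
  have hdv : JP w μ β τ β' (fun S _ R x => Real.log (Zl w μ q L ∅ ∅ l (R ∪ S) x))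
      ≤ KK w μ β τ + ε * Gm w (gdw w μ) β τ :=
    JP_dv H B.b0 B.b0' h0 h1 hG hK0 B.sum1' B.mass (fun S R x => Zl w μ q L ∅ ∅ l (R ∪ S) x)
      (fun S R x hx => Zl_pos H hq0 hq1 L ∅ l ∅ (R ∪ S) x hx) hZ
  have h2 := mul_le_mul_of_nonneg_left hdv hL0
  rw [← JP_smul] at h2
  have h3 : JP w μ β τ β' (fun S _ R x => Real.log (gdw w μ (R ∪ S) x)
        - 65 * CDl w μ q ∅ ∅ l (R ∪ S) x)
      ≤ JP w μ β τ β' (fun S _ R x => L * Real.log (Zl w μ q L ∅ ∅ l (R ∪ S) x)) := by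
    refine JP_mono H B.b0 B.b0' h0 h1 fun S _ R _ A' _ x hx => ?_
    have h4 := log_Zl_ge H hq0 hq1 P.L1 P.atoms ∅ l ∅ hnd (by simp) (by simp) (R ∪ S) x hx
    rw [LR_eq H ∅ l ∅ (R ∪ S) x hx, hl] at h4
    simp only [empty_union, inter_univ, inter_empty, H.famT.g_empty, Real.log_one, sub_zero] at h4
    exact h4
  rw [JP_sub (f := fun S _ R x => Real.log (gdw w μ (R ∪ S) x)), JP_smul] at h3
  linarith

/-- the divergence functional of one coordinate -/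
noncomputable def Vi (w : ∀ i, V i → ℝ) (μ : (∀ i, V i) → ℝ) (β : Finset ι → ℝ) (τ : ℝ)
    (i : ι) : ℝ := JJ w μ β τ (fun _ R x => if i ∈ R then 0 else Di w (gdw w μ) i R x)

lemma Vi_nonneg (H : Ref w μ) (hβ : ∀ R, 0 ≤ β R) (h0 : 0 < τ) (h1 : τ < 1) (i : ι) :
    0 ≤ Vi w μ β τ i := by
  refine JJ_nonneg H hβ h0 h1 fun R _ A _ x _ => ?_
  split_ifs
  · exact le_rfl
  · exact Di_nonneg H.famT _ _ _

/-- insertion -/
lemma insert_le (H : Ref w μ) (hβ : ∀ R, 0 ≤ β R) (h0 : 0 < τ) (h1 : τ < 1) (S : Finset ι) :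
    ∑ i, (if i ∈ S then 1 else 0) * Vi w μ β τ i
      ≤ JJ w μ β τ (fun _ R x => Real.log (gdw w μ (R ∪ S) x) - Real.log (gdw w μ R x)) := by
  have e1 : ∀ i, (if i ∈ S then (1 : ℝ) else 0) * Vi w μ β τ i
      = JJ w μ β τ (fun _ R x => (if i ∈ S then 1 else 0) *
        (if i ∈ R then 0 else Di w (gdw w μ) i R x)) := fun i => by
    unfold Vi; rw [JJ_smul]
  rw [sum_congr rfl fun i _ => e1 i, ← JJ_sum]
  unfold JJ ET
  refine sum_le_sum fun R _ => mul_le_mul_of_nonneg_left ?_ (hβ R)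
  refine sum_le_sum fun A hA => mul_le_mul_of_nonneg_left ?_ (bw_pos h0 h1 R A).le
  have hAR := mem_powerset.mp hA
  have h2 := superadd H (R := R) (K := gdw w μ A) ((loc_gdw A).mono hAR)
    (fun x => H.famT.g_nonneg A x) (S \ R) sdiff_disjoint
  rw [union_sdiff_self_eq_union] at h2
  refine le_trans (le_of_eq ?_) h2
  rw [sum_comm]
  refine sum_congr rfl fun x _ => ?_
  beta_reduce
  rw [mul_sum, mul_sum]
  have h3 : ∀ i, μ x * (gdw w μ A x * ((if i ∈ S then 1 else 0) *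
      (if i ∈ R then 0 else Di w (gdw w μ) i R x)))
      = if i ∈ S \ R then μ x * (gdw w μ A x * Di w (gdw w μ) i R x) else 0 := by
    intro i
    by_cases hS : i ∈ S <;> by_cases hR : i ∈ R <;> simp [hS, hR]
  rw [sum_congr rfl fun i _ => h3 i, sum_ite_mem, univ_inter]

/-- **The insertion functional.** -/
theorem insertion (H : Ref w μ) (A : Rates t u sc ns K qb)
    (P : Pins w μ sc ok' D L gH δ lam a c) (B : Wts β β' t u ok' ε) (hε : 0 ≤ ε)
    (h0 : 0 < τ) (h1 : τ < 1) (hG : 1 ≤ Gm w (gdw w μ) β τ) :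
    ∑ i, t i * Vi w μ β τ i
      ≤ 2 / K * (KK w μ β τ + L * (KK w μ β τ + ε * Gm w (gdw w μ) β τ)
        + 65 * ∑ s ∈ range ns, qb s * Bs w μ β τ t u sc D L gH δ ε lam a c s *
          Hn (At sc s).card) := by
  have hG0 : 0 < Gm w (gdw w μ) β τ := by linarith
  have hK0 := KK_nonneg H B.b0 B.sum1 h0 h1 hG0
  have hL0 : 0 ≤ L := by linarith [P.L1]
  have hBs0 : ∀ s, 0 ≤ Bs w μ β τ t u sc D L gH δ ε lam a c s := by
    intro s
    unfold Bs
    refine div_nonneg (add_nonneg (by linarith) (mul_nonneg ?_ hG0.le)) (P.lam0 s).le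
    refine add_nonneg (add_nonneg (add_nonneg hε ?_) (P.a0 s)) ?_
    · refine mul_nonneg (by norm_num) (sum_nonneg fun i _ => mul_nonneg ?_ (P.c0 s i))
      exact add_nonneg (A.t0 i) (A.u0 i)
    · refine mul_nonneg (mul_nonneg (by positivity) ?_)
        (mul_nonneg (Real.exp_nonneg _) P.δ0)
      exact add_nonneg (mul_nonneg (P.lam0 s).le (by linarith)) P.gH0
  obtain ⟨l, hl1, hl2, hl3⟩ := scales (fun i => t i + u i - t i * u i)
    (fun T j => JP w μ β τ β' (fun S _ R x => Di w (gdw w μ) j ((R ∪ S) ∩ T) x)) sc qb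
    (fun s => Bs w μ β τ t u sc D L gH δ ε lam a c s)
    (fun i => by
      have := A.t0 i; have := A.t1 i; have := A.u0 i; have := A.u1 i
      nlinarith)
    (fun i => by
      have := A.qb1 i; have := mul_nonneg (A.t0 i) (A.u0 i)
      linarith)
    A.qb0 hBs0
    (fun T j => JP_nonneg H B.b0 B.b0' h0 h1 fun _ _ _ _ _ _ _ _ => Di_nonneg H.famT _ _ _)
    (fun s T _ hT => scale_bound H A P B h0 h1 hG s T hT) ns
  have hu : Lo sc ns = univ := by
    ext i; simp [Lo, A.scn i]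
  rw [hu] at hl2
  have hrev := reveal_all H A P B h0 h1 hG0 hl1 hl2
  have hins : K / 2 * ∑ i, t i * Vi w μ β τ i
      ≤ JP w μ β τ β' (fun S _ R x => Real.log (gdw w μ (R ∪ S) x)
        - Real.log (gdw w μ R x)) := by
    have e1 : ∑ S ∈ (univ : Finset ι).powerset, β' S *
        ∑ i, (if i ∈ S then 1 else 0) * Vi w μ β τ i
        ≤ JP w μ β τ β' (fun S _ R x => Real.log (gdw w μ (R ∪ S) x)
        - Real.log (gdw w μ R x)) :=
      sum_le_sum fun S _ => mul_le_mul_of_nonneg_left (insert_le H B.b0 h0 h1 S) (B.b0' S)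
    refine le_trans ?_ e1
    have e2 : ∑ S ∈ (univ : Finset ι).powerset, β' S *
        ∑ i, (if i ∈ S then 1 else 0) * Vi w μ β τ i
        = ∑ i, (∑ S ∈ (univ : Finset ι).powerset, β' S * (if i ∈ S then 1 else 0)) *
          Vi w μ β τ i := by
      simp only [mul_sum, sum_mul]
      rw [sum_comm]
      exact sum_congr rfl fun i _ => sum_congr rfl fun S _ => by ring
    rw [e2, mul_sum]
    refine sum_le_sum fun i _ => ?_
    have h3 := B.pt i
    have h4 := A.Kt i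
    have h5 := mul_le_mul_of_nonneg_right (show K / 2 * t i ≤
      ∑ S ∈ (univ : Finset ι).powerset, β' S * (if i ∈ S then 1 else 0) by linarith)
      (Vi_nonneg H B.b0 h0 h1 i)
    linarith
  rw [JP_sub (f := fun S _ R x => Real.log (gdw w μ (R ∪ S) x))
    (f' := fun _ _ R x => Real.log (gdw w μ R x))] at hins
  have hR : - JP w μ β τ β' (fun _ _ R x => Real.log (gdw w μ R x)) ≤ KK w μ β τ := by
    have e1 := neg_log_le H B.b0 B.sum1 h0 h1 hG0 (fun R => R)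
    have e2 : JJ w μ β τ (fun _ R x => -Real.log (gdw w μ R x))
        = - JJ w μ β τ (fun _ R x => Real.log (gdw w μ R x)) := by
      have := JJ_smul w μ β τ (-1) (fun _ R x => Real.log (gdw w μ R x))
      simpa using this
    rw [e2] at e1
    unfold JP
    rw [← sum_mul]
    have e3 := B.sum1'
    have e4 : 0 ≤ ∑ S ∈ (univ : Finset ι).powerset, β' S := sum_nonneg fun S _ => B.b0' S
    have e5 := mul_le_mul_of_nonneg_left e1 e4
    have e6 := mul_le_mul_of_nonneg_right e3 hK0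
    linarith
  have hfin : K / 2 * ∑ i, t i * Vi w μ β τ i
      ≤ KK w μ β τ + L * (KK w μ β τ + ε * Gm w (gdw w μ) β τ)
        + 65 * ∑ s ∈ range ns, qb s * Bs w μ β τ t u sc D L gH δ ε lam a c s *
          Hn (At sc s).card := by linarith
  have hKp := A.K0
  have h5 := mul_le_mul_of_nonneg_left hfin (show 0 ≤ 2 / K by positivity)
  have h6 : 2 / K * (K / 2 * ∑ i, t i * Vi w μ β τ i) = ∑ i, t i * Vi w μ β τ i := by
    field_simp
  linarith

end

end Vale.Agent.P042.H779.Ab
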