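import Vale.Agent.P042.H779.MuJP

/-! Greedy revealing, scale by scale. -/

namespace Vale.Agent.P042.H779.Ab

open Finset

set_option linter.unusedSectionVars false

section
variable {ι : Type*} [Fintype ι] [DecidableEq ι]

/-- cost of a revealing list -/
noncomputable def gc (q : ι → ℝ) (D : Finset ι → ι → ℝ) : Finset ι → List ι → ℝ
  | _, [] => 0
  | T, j :: l => q j * D T j + gc q D (insert j T) l

lemma gc_append (q : ι → ℝ) (D : Finset ι → ι → ℝ) (l l' : List ι) : ∀ T : Finset ι,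
    gc q D T (l ++ l') = gc q D T l + gc q D (T ∪ l.toFinset) l' := by
  induction l with
  | nil => intro T; simp [gc]
  | cons j l ih =>
    intro T
    simp only [List.cons_append, gc]
    rw [ih (insert j T)]
    have : insert j T ∪ l.toFinset = T ∪ (j :: l).toFinset := by
      ext k; simp only [mem_union, mem_insert, List.toFinset_cons]; tauto
    rw [this]; ring

/-- harmonic sums -/
noncomputable def Hn (n : ℕ) : ℝ := ∑ i ∈ range n, 1 / ((i : ℝ) + 1)

lemma Hn_nonneg (n : ℕ) : 0 ≤ Hn n := sum_nonneg fun i _ => by positivity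

lemma Hn_le (n : ℕ) : Hn n ≤ 1 + Real.log n := by
  have h := harmonic_le_one_add_log n
  unfold harmonic at h
  push_cast at h
  unfold Hn
  refine le_trans (le_of_eq ?_) h
  exact sum_congr rfl fun i _ => by rw [one_div]

lemma greedy (q : ι → ℝ) (D : Finset ι → ι → ℝ) {Y T₀ : Finset ι} {qb B : ℝ}
    (hq0 : ∀ j ∈ Y, 0 ≤ q j) (hq1 : ∀ j ∈ Y, q j ≤ qb) (hqb : 0 ≤ qb) (hB : 0 ≤ B)
    (hD : ∀ T j, 0 ≤ D T j)
    (hsum : ∀ T, T₀ ⊆ T → T ⊆ T₀ ∪ Y → ∑ j ∈ Y \ T, D T j ≤ B) :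
    ∀ (n : ℕ) (T : Finset ι), T₀ ⊆ T → T ⊆ T₀ ∪ Y → (Y \ T).card = n →
    ∃ l : List ι, l.Nodup ∧ l.toFinset = Y \ T ∧ gc q D T l ≤ qb * B * Hn n := by
  intro n
  induction n with
  | zero =>
    intro T _ _ hc
    rw [card_eq_zero] at hc
    exact ⟨[], by simp, by simp [hc], by simp [gc, Hn]⟩
  | succ n ih =>
    intro T h1 h2 hc
    have hne : (Y \ T).Nonempty := by rw [← card_pos, hc]; omega
    obtain ⟨j, hj, hjD⟩ : ∃ j ∈ Y \ T, D T j ≤ B / ((n : ℝ) + 1) := by
      refine exists_le_of_sum_le hne ?_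
      rw [sum_const, hc, nsmul_eq_mul]
      push_cast
      rw [mul_div_cancel₀ _ (by positivity)]
      exact hsum T h1 h2
    rw [mem_sdiff] at hj
    have hset : Y \ insert j T = (Y \ T).erase j := by
      ext k; simp only [mem_sdiff, mem_insert, mem_erase, not_or]; tauto
    obtain ⟨l, hl1, hl2, hl3⟩ := ih (insert j T) (h1.trans (subset_insert _ _))
      (insert_subset (mem_union_right _ hj.1) h2)
      (by rw [hset, card_erase_of_mem (mem_sdiff.mpr hj), hc]; omega)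
    refine ⟨j :: l, ?_, ?_, ?_⟩
    · rw [List.nodup_cons]
      refine ⟨fun hc => ?_, hl1⟩
      rw [← List.mem_toFinset, hl2] at hc
      simp at hc
    · rw [List.toFinset_cons, hl2, hset, insert_erase (mem_sdiff.mpr hj)]
    · simp only [gc]
      have e1 : Hn (n + 1) = Hn n + 1 / ((n : ℝ) + 1) := by
        unfold Hn; rw [sum_range_succ]
      have e2 : q j * D T j ≤ qb * (B / ((n : ℝ) + 1)) :=
        mul_le_mul (hq1 j hj.1) hjD (hD T j) hqb
      rw [e1]
      have e3 : qb * (B / ((n : ℝ) + 1)) = qb * B * (1 / ((n : ℝ) + 1)) := by ring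
      linarith

/-- indices of scale `< s` -/
def Lo (sc : ι → ℕ) (s : ℕ) : Finset ι := univ.filter fun i => sc i < s

/-- indices of scale `s` -/
def At (sc : ι → ℕ) (s : ℕ) : Finset ι := univ.filter fun i => sc i = s

lemma Lo_succ (sc : ι → ℕ) (s : ℕ) : Lo sc (s + 1) = Lo sc s ∪ At sc s := by
  ext i
  simp only [Lo, At, mem_union, mem_filter, mem_univ, true_and]
  omega

lemma At_disj (sc : ι → ℕ) (s : ℕ) : At sc s \ Lo sc s = At sc s := by
  ext i
  simp only [Lo, At, mem_sdiff, mem_filter, mem_univ, true_and]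
  omega

lemma scales (q : ι → ℝ) (D : Finset ι → ι → ℝ) (sc : ι → ℕ) (qb B : ℕ → ℝ)
    (hq0 : ∀ j, 0 ≤ q j) (hq1 : ∀ j, q j ≤ qb (sc j)) (hqb : ∀ s, 0 ≤ qb s) (hB : ∀ s, 0 ≤ B s)
    (hD : ∀ T j, 0 ≤ D T j)
    (hsum : ∀ s T, Lo sc s ⊆ T → T ⊆ Lo sc (s + 1) → ∑ j ∈ At sc s \ T, D T j ≤ B s) :
    ∀ n : ℕ, ∃ l : List ι, l.Nodup ∧ l.toFinset = Lo sc n ∧
      gc q D ∅ l ≤ ∑ s ∈ range n, qb s * B s * Hn (At sc s).card := by
  intro n
  induction n with
  | zero => exact ⟨[], by simp, by simp [Lo], by simp [gc]⟩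
  | succ n ih =>
    obtain ⟨l, h1, h2, h3⟩ := ih
    obtain ⟨l', h4, h5, h6⟩ := greedy q D (Y := At sc n) (T₀ := Lo sc n) (qb := qb n) (B := B n)
      (fun j _ => hq0 j)
      (fun j hj => by
        have : sc j = n := (mem_filter.mp hj).2
        rw [← this]; exact hq1 j)
      (hqb n) (hB n) hD
      (fun T hT1 hT2 => hsum n T hT1 (by rw [Lo_succ]; exact hT2))
      (At sc n \ Lo sc n).card (Lo sc n) (Subset.refl _) subset_union_left rfl
    rw [At_disj] at h5 h6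
    refine ⟨l ++ l', ?_, ?_, ?_⟩
    · rw [List.nodup_append']
      refine ⟨h1, h4, ?_⟩
      intro a ha ha'
      rw [← List.mem_toFinset, h2] at ha
      rw [← List.mem_toFinset, h5] at ha'
      simp only [Lo, At, mem_filter, mem_univ, true_and] at ha ha'
      omega
    · rw [List.toFinset_append, h2, h5, Lo_succ]
    · rw [gc_append, sum_range_succ, empty_union, h2]
      linarith

end

section
variable {ι : Type*} [Fintype ι] [DecidableEq ι] {V : ι → Type*} [∀ i, Fintype (V i)]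
  [∀ i, DecidableEq (V i)] {w : ∀ i, V i → ℝ} {μ : (∀ i, V i) → ℝ} {β β' : Finset ι → ℝ}

lemma JP_CDl (w : ∀ i, V i → ℝ) (μ : (∀ i, V i) → ℝ) (β : Finset ι → ℝ) (τ : ℝ)
    (β' : Finset ι → ℝ) (q : ι → ℝ) (l : List ι) : ∀ T : Finset ι,
    JP w μ β τ β' (fun S _ R x => CDl w μ q ∅ T l (R ∪ S) x)
      = gc q (fun T j => JP w μ β τ β' (fun S _ R x => Di w (gdw w μ) j ((R ∪ S) ∩ T) x)) T l := by
  induction l with
  | nil =>
    intro T
    simp only [CDl, gc]
    unfold JP JJ ET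
    simp
  | cons j l ih =>
    intro T
    simp only [CDl, gc, empty_union]
    rw [← ih (insert j T), ← JP_smul, ← JP_add]

/-- exponential moment bound for a weighted count in `R ∪ S` -/
lemma bt_exp_wt {q : ι → ℝ} (h0 : ∀ i, 0 ≤ q i) (h1 : ∀ i, q i ≤ 1) {c : ι → ℝ}
    (hc0 : ∀ i, 0 ≤ c i) (hc1 : ∀ i, c i ≤ 1) (S : Finset ι) :
    ∑ R ∈ (univ : Finset ι).powerset, bt q R * Real.exp (∑ i ∈ R ∩ S, c i)
      ≤ Real.exp (2 * ∑ i ∈ S, q i * c i) := by
  have e1 : ∀ R ∈ (univ : Finset ι).powerset, bt q R * Real.exp (∑ i ∈ R ∩ S, c i)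
      = (∏ i ∈ R, (if i ∈ S then q i * Real.exp (c i) else q i)) *
        ∏ i ∈ univ \ R, (1 - q i) := by
    intro R _
    have : Real.exp (∑ i ∈ R ∩ S, c i) = ∏ i ∈ R, (if i ∈ S then Real.exp (c i) else 1) := by
      rw [Real.exp_sum, prod_ite, prod_const_one, mul_one]
      refine prod_congr ?_ fun _ _ => rfl
      ext k; simp
    rw [this]
    unfold bt
    have e2 : ∏ i ∈ R, (if i ∈ S then q i * Real.exp (c i) else q i)
        = (∏ i ∈ R, q i) * ∏ i ∈ R, (if i ∈ S then Real.exp (c i) else 1) := by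
      rw [← prod_mul_distrib]
      refine prod_congr rfl fun i _ => ?_
      split_ifs <;> ring
    rw [e2]; ring
  rw [sum_congr rfl e1, ← Finset.prod_add]
  have e3 : Real.exp (2 * ∑ i ∈ S, q i * c i)
      = ∏ i, (if i ∈ S then Real.exp (2 * (q i * c i)) else 1) := by
    rw [prod_ite_mem, univ_inter, mul_sum, Real.exp_sum]
  rw [e3]
  refine prod_le_prod (fun i _ => ?_) fun i _ => ?_
  · have hh := h1 i
    have hh0 := h0 i
    split_ifs
    · have := mul_nonneg hh0 (Real.exp_nonneg (c i))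
      linarith
    · linarith
  · split_ifs
    · have h2 := Real.abs_exp_sub_one_sub_id_le (x := c i)
        (abs_le.mpr ⟨by linarith [hc0 i], hc1 i⟩)
      have h3 := (abs_le.mp h2).2
      have h4 : c i ^ 2 ≤ c i := by nlinarith [hc0 i, hc1 i]
      have h5 : Real.exp (c i) ≤ 1 + 2 * c i := by linarith
      have h6 := Real.add_one_le_exp (2 * (q i * c i))
      have := mul_le_mul_of_nonneg_left h5 (h0 i)
      linarith
    · linarith

/-- monotonicity in the weights and union of Bernoulli sets, for functions of the union -/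
lemma joint_le (H : Ref w μ) {t u : ι → ℝ} (hβ0 : ∀ R, 0 ≤ β R) (hβ : ∀ R, β R ≤ bt t R)
    (hβ'0 : ∀ R, 0 ≤ β' R) (hβ' : ∀ R, β' R ≤ bt u R) {F : Finset ι → ℝ} (hF : ∀ Q, 0 ≤ F Q) :
    ∑ S ∈ (univ : Finset ι).powerset, β' S * ∑ R ∈ (univ : Finset ι).powerset, β R * F (R ∪ S)
      ≤ ∑ Q ∈ (univ : Finset ι).powerset, bt (fun i => t i + u i - t i * u i) Q * F Q := by
  rw [← union_sum]
  refine sum_le_sum fun S _ => ?_
  have h1 : ∑ R ∈ (univ : Finset ι).powerset, β R * F (R ∪ S)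
      ≤ ∑ R ∈ (univ : Finset ι).powerset, bt t R * F (R ∪ S) :=
    sum_le_sum fun R _ => mul_le_mul_of_nonneg_right (hβ R) (hF _)
  have h2 : 0 ≤ ∑ R ∈ (univ : Finset ι).powerset, β R * F (R ∪ S) :=
    sum_nonneg fun R _ => mul_nonneg (hβ0 R) (hF _)
  exact mul_le_mul (hβ' S) h1 h2 ((hβ'0 S).trans (hβ' S))

/-- number of points of the union in a set of coordinates -/
lemma JP_card_le (H : Ref w μ) {t u : ι → ℝ} (ht0 : ∀ i, 0 ≤ t i) (ht1 : ∀ i, t i ≤ 1)
    (hu0 : ∀ i, 0 ≤ u i) (hu1 : ∀ i, u i ≤ 1)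
    (hβ0 : ∀ R, 0 ≤ β R) (hβ : ∀ R, β R ≤ bt t R)
    (hβ'0 : ∀ R, 0 ≤ β' R) (hβ' : ∀ R, β' R ≤ bt u R) {τ : ℝ} (h0 : 0 < τ)
    (h1 : τ < 1) (hG : 0 < Gm w (gdw w μ) β τ) (hK : 0 ≤ KK w μ β τ)
    (hc1 : ∑ S ∈ (univ : Finset ι).powerset, β' S ≤ 1) {ε : ℝ}
    (hc2 : 1 - ε ≤ ∑ S ∈ (univ : Finset ι).powerset, β' S) {c : ι → ℝ}
    (hc0 : ∀ i, 0 ≤ c i) (hcc : ∀ i, c i ≤ 1) (U : Finset ι) :
    JP w μ β τ β' (fun S _ R _ => ∑ i ∈ (R ∪ S) ∩ U, c i)
      ≤ KK w μ β τ + (ε + 2 * ∑ i ∈ U, (t i + u i) * c i) * Gm w (gdw w μ) β τ := by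
  obtain ⟨q, hq⟩ : ∃ q : ι → ℝ, q = fun i => t i + u i - t i * u i := ⟨_, rfl⟩
  have hq0 : ∀ i, 0 ≤ q i := fun i => by
    rw [hq]; have := mul_nonneg (hu0 i) (sub_nonneg.mpr (ht1 i)); have := ht0 i; beta_reduce; nlinarith
  have hq1 : ∀ i, q i ≤ 1 := fun i => by
    rw [hq]
    have := mul_nonneg (sub_nonneg.mpr (ht1 i)) (sub_nonneg.mpr (hu1 i)); beta_reduce; nlinarith
  obtain ⟨C, hC⟩ : ∃ C, C = 2 * ∑ i ∈ U, q i * c i := ⟨_, rfl⟩
  have hZ : ∑ S ∈ (univ : Finset ι).powerset, β' S * ∑ R ∈ (univ : Finset ι).powerset,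
      β R * ∑ x, μ x * Real.exp (∑ i ∈ (R ∪ S) ∩ U, c i - C) ≤ 1 := by
    have h2 := joint_le (F := fun Q => ∑ x, μ x * Real.exp (∑ i ∈ Q ∩ U, c i - C)) H hβ0 hβ hβ'0 hβ'
      (fun Q => sum_nonneg fun x _ => mul_nonneg (H.prob.nonneg x) (Real.exp_nonneg _))
    refine h2.trans ?_
    rw [← hq]
    have e1 : ∀ Q ∈ (univ : Finset ι).powerset, bt q Q * ∑ x, μ x *
        Real.exp (∑ i ∈ Q ∩ U, c i - C) = (bt q Q * Real.exp (∑ i ∈ Q ∩ U, c i)) *
          Real.exp (-C) := by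
      intro Q _
      rw [← sum_mul, H.prob.sum_eq, one_mul, sub_eq_add_neg, Real.exp_add]; ring
    rw [sum_congr rfl e1, ← sum_mul]
    have h3 := mul_le_mul_of_nonneg_right (bt_exp_wt hq0 hq1 hc0 hcc U) (Real.exp_nonneg (-C))
    rwa [← hC, ← Real.exp_add, add_neg_cancel, Real.exp_zero] at h3
  have hdv := JP_dv H hβ0 hβ'0 h0 h1 hG hK hc1 hc2
    (fun S R _ => Real.exp (∑ i ∈ (R ∪ S) ∩ U, c i - C)) (fun _ _ _ _ => Real.exp_pos _) hZ
  simp only [Real.log_exp] at hdv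
  rw [JP_sub (f := fun S _ R _ => ∑ i ∈ (R ∪ S) ∩ U, c i) (f' := fun _ _ _ _ => C),
    JP_const H] at hdv
  have hC2 : C ≤ 2 * ∑ i ∈ U, (t i + u i) * c i := by
    rw [hC]
    refine mul_le_mul_of_nonneg_left (sum_le_sum fun i _ => ?_) (by norm_num)
    refine mul_le_mul_of_nonneg_right ?_ (hc0 i)
    rw [hq]; have := mul_nonneg (ht0 i) (hu0 i); beta_reduce; linarith
  have hC0 : 0 ≤ C := by
    rw [hC]
    exact mul_nonneg (by norm_num) (sum_nonneg fun i _ => mul_nonneg (hq0 i) (hc0 i))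
  have h4 : C * Gm w (gdw w μ) β τ * ∑ S ∈ (univ : Finset ι).powerset, β' S
      ≤ C * Gm w (gdw w μ) β τ * 1 := mul_le_mul_of_nonneg_left hc1 (mul_nonneg hC0 hG.le)
  have h5 := mul_le_mul_of_nonneg_right hC2 hG.le
  nlinarith

/-- crude bound for the divergences -/
lemma Di_le (H : Ref w μ) {L : ℝ} (hL : 0 ≤ L)
    (hat : ∀ i a, w i a = 0 ∨ Real.exp (-L) ≤ w i a) {j : ι} {P : Finset ι} (hj : j ∉ P)
    {x : ∀ i, V i} (hx : 0 < gdw w μ P x) : Di w (gdw w μ) j P x ≤ 1 + L := by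
  have h1 : Di w (gdw w μ) j P x
      ≤ ∑ a, w j a * (1 + L * rt (gdw w μ) j (Function.update x j a) P) := by
    unfold Di
    exact sum_le_sum fun a _ => mul_le_mul_of_nonneg_left
      (phi_le_of_le_exp (rt_nonneg H.famT _ _ _) (rt_le H hat hj x a)) (H.w_nonneg j a)
  have h2 : ∑ a, w j a * (1 + L * rt (gdw w μ) j (Function.update x j a) P)
      = (∑ a, w j a) + L * ∑ a, w j a * rt (gdw w μ) j (Function.update x j a) P := by
    rw [mul_sum, ← sum_add_distrib]
    exact sum_congr rfl fun a _ => by ring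
  rw [h2, H.w_sum, sum_w_rt H hj hx, mul_one] at h1
  exact h1

/-- the planted law does not see small cells -/
lemma JJ_small (H : Ref w μ) (hβ0 : ∀ R, 0 ≤ β R)
    (hβ1 : ∑ R ∈ (univ : Finset ι).powerset, β R ≤ 1) {τ : ℝ} (h0 : 0 < τ) (h1 : τ < 1)
    {L gH δ : ℝ} (hL : 0 ≤ L) (hat : ∀ i a, w i a = 0 ∨ Real.exp (-L) ≤ w i a) (hδ : 0 ≤ δ)
    {d D : ℕ} (hgH : 0 ≤ gH) (hA : ∀ R, β R ≠ 0 → ∀ A ⊆ R, ∀ x, 0 < gdw w μ A x →
      Real.log (gdw w μ A x) ≤ gH * d)
    (P : Finset ι → Finset ι) (hP : ∀ R, β R ≠ 0 → (P R).card ≤ D) :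
    JJ w μ β τ (fun _ R x => if marg μ (P R) x < δ then 1 else 0)
      ≤ Real.exp (gH * d + L * D) * δ := by
  have h2 : JJ w μ β τ (fun _ R x => if marg μ (P R) x < δ then 1 else 0)
      ≤ ∑ R ∈ (univ : Finset ι).powerset, β R * (Real.exp (gH * d + L * D) * δ) := by
    unfold JJ ET
    refine sum_le_sum fun R _ => ?_
    by_cases hR : β R = 0
    · rw [hR]; simp
    refine mul_le_mul_of_nonneg_left ?_ (hβ0 R)
    have h3 : ∀ A ∈ R.powerset, bw τ R A * ∑ x, μ x * (gdw w μ A x *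
        (if marg μ (P R) x < δ then 1 else 0)) ≤ bw τ R A * (Real.exp (gH * d + L * D) * δ) := by
      intro A hA'
      refine mul_le_mul_of_nonneg_left ?_ (bw_pos h0 h1 R A).le
      have h4 : ∑ x, μ x * (gdw w μ A x * (if marg μ (P R) x < δ then 1 else 0))
          ≤ ∑ x, μ x * (Real.exp (gH * d) * (if marg μ (P R) x < δ then 1 else 0)) := by
        refine sum_le_sum fun x _ => ?_
        rcases (H.prob.nonneg x).eq_or_lt with hx | hx
        · rw [← hx]; simp
        refine mul_le_mul_of_nonneg_left (mul_le_mul_of_nonneg_right ?_ (by split_ifs <;> simp))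
          hx.le
        have hg := H.g_pos hx A
        rw [← Real.exp_log hg]
        exact Real.exp_le_exp.mpr (hA R hR A (mem_powerset.mp hA') x hg)
      refine h4.trans ?_
      have hloc : Loc (P R) (fun x => Real.exp (gH * d) *
          (if marg μ (P R) x < δ then (1 : ℝ) else 0)) := by
        intro x y hxy
        beta_reduce
        rw [marg_congr (P R) hxy]
      rw [H.mu_sum hloc]
      have h5 : ∀ x, pw w x * (Real.exp (gH * d) * (if marg μ (P R) x < δ then (1 : ℝ) else 0) *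
          gdw w μ (P R) x) ≤ pw w x * (Real.exp (gH * d + L * D) * δ) := by
        intro x
        refine mul_le_mul_of_nonneg_left ?_ (pw_nonneg H.famT x)
        have hpos : 0 ≤ Real.exp (gH * d + L * D) * δ := mul_nonneg (Real.exp_nonneg _) hδ
        split_ifs with hm
        · rw [mul_one, Real.exp_add, mul_assoc]
          refine mul_le_mul_of_nonneg_left ?_ (Real.exp_nonneg _)
          rcases (H.famT.g_nonneg (P R) x).eq_or_lt with hg | hg
          · rw [← hg]; positivity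
          have hg' := hg
          rw [gdw_pos_iff H.prob H.w_nonneg H.ac] at hg'
          have hw : ∀ i ∈ P R, Real.exp (-L) ≤ w i (x i) := by
            intro i hi
            rcases hat i (x i) with h | h
            · exact absurd (marg_eq_zero_of_w H.prob H.ac hi h) hg'.ne'
            · exact h
          have hprod : Real.exp (-(L * D)) ≤ ∏ i ∈ P R, w i (x i) := by
            have h6 : ∏ _i ∈ P R, Real.exp (-L) ≤ ∏ i ∈ P R, w i (x i) :=
              prod_le_prod (fun _ _ => Real.exp_nonneg _) hw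
            refine le_trans ?_ h6
            rw [prod_const, ← Real.exp_nat_mul]
            refine Real.exp_le_exp.mpr ?_
            have : ((P R).card : ℝ) ≤ D := by exact_mod_cast hP R hR
            nlinarith
          unfold gdw
          rw [div_le_iff₀ (lt_of_lt_of_le (Real.exp_pos _) hprod)]
          have h7 : δ = Real.exp (L * D) * δ * Real.exp (-(L * D)) := by
            rw [mul_comm (Real.exp (L * D)) δ, mul_assoc, ← Real.exp_add, add_neg_cancel,
              Real.exp_zero, mul_one]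
          calc marg μ (P R) x ≤ δ := hm.le
            _ = Real.exp (L * D) * δ * Real.exp (-(L * D)) := h7
            _ ≤ _ := mul_le_mul_of_nonneg_left hprod (mul_nonneg (Real.exp_nonneg _) hδ)
        · simpa using hpos
      refine (sum_le_sum fun x _ => h5 x).trans ?_
      rw [← sum_mul, pw_sum H.famT, one_mul]
    refine (sum_le_sum h3).trans ?_
    rw [← sum_mul, bw_sum, one_mul]
  refine h2.trans ?_
  rw [← sum_mul]
  exact mul_le_of_le_one_left (mul_nonneg (Real.exp_nonneg _) hδ) hβ1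

end

end Vale.Agent.P042.H779.Ab
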