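import Mathlib

/-! Scalar inequalities for the replica bound. -/

namespace Vale.Agent.P042.H779

open Finset

/-- `y log y - y + 1`. -/
noncomputable def phi (y : ℝ) : ℝ := y * Real.log y - y + 1

lemma phi_nonneg {y : ℝ} (hy : 0 ≤ y) : 0 ≤ phi y := by
  unfold phi
  rcases hy.eq_or_lt with rfl | hy
  · simp
  · have h := Real.one_sub_inv_le_log_of_pos hy
    have h2 : y * (1 - y⁻¹) = y - 1 := by field_simp
    nlinarith [mul_le_mul_of_nonneg_left h hy.le]

lemma phi_le_sq {y : ℝ} (hy : 0 ≤ y) : phi y ≤ (y - 1) ^ 2 := by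
  unfold phi
  rcases hy.eq_or_lt with rfl | hy
  · simp
  · have h := Real.log_le_sub_one_of_pos hy
    nlinarith [mul_le_mul_of_nonneg_left h hy.le]

lemma sq_le_phi {y B : ℝ} (hy : 0 ≤ y) (hB : 1 ≤ B) (hyB : y ≤ B) :
    (y - 1) ^ 2 ≤ 2 * B * phi y := by
  have hphi := phi_nonneg hy
  rcases le_total 1 y with h1 | h1
  · have h := Real.le_log_one_add_of_nonneg (sub_nonneg.mpr h1)
    have h2 : 1 + (y - 1) = y := by ring
    rw [h2] at h
    have h3 : (0 : ℝ) < y - 1 + 2 := by linarith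
    rw [div_le_iff₀ h3] at h
    -- phi y * (y+1) ≥ (y-1)^2
    have h4 : (y - 1) ^ 2 ≤ phi y * (y + 1) := by
      unfold phi
      nlinarith [mul_le_mul_of_nonneg_left h (by linarith : (0 : ℝ) ≤ y)]
    have h5 : phi y * (y + 1) ≤ phi y * (2 * B) :=
      mul_le_mul_of_nonneg_left (by linarith) hphi
    linarith
  · rcases hy.eq_or_lt with rfl | hy
    · simp [phi]; linarith
    · have hinv : 1 ≤ y⁻¹ := (one_le_inv₀ hy).mpr h1
      have h := Real.self_le_sinh_iff.mpr (Real.log_nonneg hinv)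
      rw [Real.sinh_log (by positivity), Real.log_inv, inv_inv] at h
      have h4 : (y - 1) ^ 2 ≤ 2 * phi y := by
        unfold phi
        have h5 := mul_le_mul_of_nonneg_left h hy.le
        have h6 : y * ((y⁻¹ - y) / 2) = (1 - y ^ 2) / 2 := by field_simp
        rw [h6] at h5
        nlinarith
      nlinarith

lemma self_le_phi {y : ℝ} (hy : 8 < y) : y ≤ phi y := by
  unfold phi
  have h2 : (0.6931 : ℝ) < Real.log 2 := by
    have := Real.log_two_gt_d9; linarith
  have h8 : Real.log 8 = 3 * Real.log 2 := by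
    rw [show (8 : ℝ) = 2 ^ 3 by norm_num, Real.log_pow]; norm_num
  have h3 : Real.log 8 ≤ Real.log y := Real.log_le_log (by norm_num) hy.le
  have h4 : 2 ≤ Real.log y := by linarith
  nlinarith [mul_le_mul_of_nonneg_left h4 (by linarith : (0 : ℝ) ≤ y)]

/-- crude upper bound of `phi` by an upper bound for the logarithm -/
lemma phi_le_of_le_exp {y c : ℝ} (hy : 0 ≤ y) (hyc : y ≤ Real.exp c) :
    phi y ≤ 1 + c * y := by
  unfold phi
  rcases hy.eq_or_lt with rfl | hy
  · simp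
  · have : Real.log y ≤ c := by
      have := Real.log_le_log hy hyc
      rwa [Real.log_exp] at this
    nlinarith [mul_le_mul_of_nonneg_left this hy.le]

/-! ### product expectations -/

section prodexp
variable {𝒜 : Type*} {m : ℕ} (s : Finset 𝒜) (p : 𝒜 → ℝ)

lemma pi_sum_prod [DecidableEq 𝒜] (f : Fin m → 𝒜 → ℝ) :
    ∑ α ∈ Fintype.piFinset (fun _ : Fin m => s), (∏ j, p (α j)) * ∏ j, f j (α j)
      = ∏ j, ∑ A ∈ s, p A * f j A := by
  rw [Finset.prod_univ_sum]
  refine sum_congr rfl fun α _ => ?_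
  rw [prod_mul_distrib]

lemma pi_sum_one [DecidableEq 𝒜] (hsum : ∑ A ∈ s, p A = 1) :
    ∑ α ∈ Fintype.piFinset (fun _ : Fin m => s), (∏ j, p (α j)) = 1 := by
  have := pi_sum_prod (m := m) s p (fun _ _ => 1)
  simpa [hsum] using this

lemma pi_sum_single [DecidableEq 𝒜] (hsum : ∑ A ∈ s, p A = 1) (j0 : Fin m) (h : 𝒜 → ℝ) :
    ∑ α ∈ Fintype.piFinset (fun _ : Fin m => s), (∏ j, p (α j)) * h (α j0)
      = ∑ A ∈ s, p A * h A := by
  have h1 := pi_sum_prod (m := m) s p (fun j A => if j = j0 then h A else 1)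
  have h2 : ∀ α : Fin m → 𝒜, (∏ j, if j = j0 then h (α j) else 1) = h (α j0) := by
    intro α; simp
  simp only [h2] at h1
  rw [h1, ← mul_prod_erase univ _ (mem_univ j0)]
  have h3 : ∏ j ∈ univ.erase j0, (∑ A ∈ s, p A * (if j = j0 then h A else 1)) = 1 := by
    refine prod_eq_one fun j hj => ?_
    have : j ≠ j0 := (mem_erase.mp hj).1
    simp [this, hsum]
  rw [h3]; simp

end prodexp

/-- telescoping bound for products close to one -/
lemma abs_prod_sub_one {m : ℕ} (x : Fin m → ℝ) {B : ℝ} (hx0 : ∀ j, 0 ≤ x j) (hxB : ∀ j, x j ≤ B)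
    (hB : 1 ≤ B) (hBm : B ^ m ≤ 2) (S : Finset (Fin m)) :
    |∏ j ∈ S, x j - 1| ≤ 2 * ∑ j ∈ S, |x j - 1| := by
  induction S using Finset.induction_on with
  | empty => simp
  | insert a S ha ih =>
    rw [prod_insert ha, sum_insert ha]
    have h1 : ∏ j ∈ S, x j ≤ 2 := by
      calc ∏ j ∈ S, x j ≤ ∏ _j ∈ S, B := prod_le_prod (fun j _ => hx0 j) (fun j _ => hxB j)
        _ = B ^ S.card := by simp
        _ ≤ B ^ m := pow_le_pow_right₀ hB (by simpa using card_le_univ S)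
        _ ≤ 2 := hBm
    have h0 : 0 ≤ ∏ j ∈ S, x j := prod_nonneg fun j _ => hx0 j
    have e : x a * ∏ j ∈ S, x j - 1 = (x a - 1) * ∏ j ∈ S, x j + (∏ j ∈ S, x j - 1) := by ring
    rw [e]
    calc |(x a - 1) * ∏ j ∈ S, x j + (∏ j ∈ S, x j - 1)|
        ≤ |(x a - 1) * ∏ j ∈ S, x j| + |∏ j ∈ S, x j - 1| := abs_add_le _ _
      _ ≤ 2 * |x a - 1| + 2 * ∑ j ∈ S, |x j - 1| := by
          rw [abs_mul, abs_of_nonneg h0]
          nlinarith [mul_le_mul_of_nonneg_left h1 (abs_nonneg (x a - 1))]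
      _ = 2 * (|x a - 1| + ∑ j ∈ S, |x j - 1|) := by ring

end Vale.Agent.P042.H779
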