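import Vale.Agent.P042.H779.Basic
import Vale.Agent.P042.H779.Scalar

/-! Donsker-Varadhan and tensorisation, coordinate by coordinate. -/

namespace Vale.Agent.P042.H779

open Finset

/-- the part of `U` below `i` in the order `ord` -/
def low {ι : Type*} (ord : ι → ℕ) (U : Finset ι) (i : ι) : Finset ι :=
  U.filter (fun j => ord j < ord i)

lemma low_erase {ι : Type*} [DecidableEq ι] (ord : ι → ℕ) (U : Finset ι) (i : ι) :
    low ord (insert i U) i = low ord U i := by
  ext j
  simp only [low, mem_filter, mem_insert]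
  constructor
  · rintro ⟨h | h, h2⟩
    · subst h; exact absurd h2 (lt_irrefl _)
    · exact ⟨h, h2⟩
  · rintro ⟨h, h2⟩; exact ⟨Or.inr h, h2⟩

lemma low_subset {ι : Type*} (ord : ι → ℕ) (U : Finset ι) (i : ι) : low ord U i ⊆ U :=
  filter_subset _ _

lemma not_mem_low {ι : Type*} (ord : ι → ℕ) (U : Finset ι) (i : ι) : i ∉ low ord U i := by
  simp [low]

lemma telescope {ι : Type*} [DecidableEq ι] (ord : ι → ℕ) (hord : Function.Injective ord)
    (f : Finset ι → ℝ) (U : Finset ι) :
    f U = f ∅ + ∑ i ∈ U, (f (insert i (low ord U i)) - f (low ord U i)) := by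
  induction U using Finset.induction_on_max_value ord with
  | empty => simp
  | insert a s ha hmax ih =>
    rw [sum_insert ha]
    have h1 : low ord (insert a s) a = s := by
      rw [low_erase]
      ext j
      simp only [low, mem_filter, and_iff_left_iff_imp]
      intro hj
      exact lt_of_le_of_ne (hmax j hj) fun h => ha (hord h ▸ hj)
    have h2 : ∀ i ∈ s, low ord (insert a s) i = low ord s i := by
      intro i hi
      ext j
      simp only [low, mem_filter, mem_insert]
      constructor
      · rintro ⟨h | h, h2⟩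
        · subst h; exact absurd (hmax i hi) (not_le.mpr h2)
        · exact ⟨h, h2⟩
      · rintro ⟨h, h2⟩; exact ⟨Or.inr h, h2⟩
    rw [h1, sum_congr rfl fun i hi => by rw [h2 i hi]]
    linarith

/-- The scalar inequality behind Donsker-Varadhan plus tensorisation. -/
lemma dv_scalar {f c y : ℝ} (hf : 0 ≤ f) (hc : 0 ≤ c) (hy : 0 ≤ y) (hcf : c = 0 → f = 0)
    (hyf : y = 0 → f = 0) :
    f * Real.log y ≤ c * phi (f / c) + c * (y - 1) := by
  rcases hf.eq_or_lt with h | hf
  · rw [← h]
    simp [phi]
    nlinarith [mul_nonneg hc hy]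
  · have hc' : 0 < c := lt_of_le_of_ne hc fun h => hf.ne' (hcf h.symm)
    have hy' : 0 < y := lt_of_le_of_ne hy fun h => hf.ne' (hyf h.symm)
    have h1 := Real.log_le_sub_one_of_pos (show 0 < y * c / f by positivity)
    have h2 : Real.log (y * c / f) = Real.log y - Real.log (f / c) := by
      rw [Real.log_div (by positivity) hf.ne', Real.log_mul hy'.ne' hc'.ne',
        Real.log_div hf.ne' hc'.ne']
      ring
    rw [h2] at h1
    have h3 := mul_le_mul_of_nonneg_left h1 hf.le
    have h4 : f * (y * c / f - 1) = y * c - f := by field_simp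
    rw [h4] at h3
    have h5 : c * phi (f / c) = f * Real.log (f / c) - f + c := by
      unfold phi; field_simp
    rw [h5]
    nlinarith

section
variable {ι : Type*} [Fintype ι] [DecidableEq ι] {V : ι → Type*} [∀ i, Fintype (V i)]
  [∀ i, DecidableEq (V i)] {μ : (∀ i, V i) → ℝ}

/-- The separation inequality (step 3) for a fixed core `M` and free set `S`. -/
theorem separation (h : IsProb μ) (ord : ι → ℕ) (hord : Function.Injective ord)
    {M S : Finset ι} (hMS : Disjoint M S) {a b : ℝ} (ha : 0 ≤ a) (hb : 0 < b)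
    (F : Finset ι → (∀ i, V i) → ℝ)
    (hF0 : ∀ U ⊆ S, ∀ x, 0 ≤ F U x)
    (hFi : ∀ U ⊆ S, ∀ i ∈ S, i ∉ U → Indep i (F U))
    (hFm : ∀ U ⊆ S, ∀ i ∈ S, i ∉ U → ∀ x, F U x = 0 → F (insert i U) x = 0)
    (hFg : ∀ U ⊆ S, ∀ x, 0 < F U x → 0 < gd μ (M ∪ U) x) :
    ∑ U ∈ S.powerset, a ^ U.card * b ^ (S \ U).card *
        ∑ x, pw μ x * (F U x * Real.log (gd μ (M ∪ U) x / gd μ M x))
      ≤ (a / b) * ∑ U ∈ S.powerset, a ^ U.card * b ^ (S \ U).card *
        ∑ i ∈ S \ U, ∑ x, pw μ x * (F U x * phi (F (insert i U) x / F U x)) := by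
  -- one increment
  have hinc : ∀ U ⊆ S, ∀ i ∈ S, i ∉ U →
      ∑ x, pw μ x * (F (insert i U) x * Real.log (gd μ (insert i (M ∪ low ord U i)) x /
        gd μ (M ∪ low ord U i) x))
      ≤ ∑ x, pw μ x * (F U x * phi (F (insert i U) x / F U x)) := by
    intro U hU i hi hiU
    have hiM : i ∉ M := fun hc => disjoint_left.mp hMS hc hi
    have hiUS : insert i U ⊆ S := insert_subset hi hU
    have hil : i ∉ M ∪ low ord U i := by
      simp only [mem_union, not_or]; exact ⟨hiM, not_mem_low ord U i⟩
    have hzero : ∑ x, pw μ x * (F U x * (gd μ (insert i (M ∪ low ord U i)) x /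
        gd μ (M ∪ low ord U i) x - 1)) = 0 := by
      rw [pw_avg h i]
      refine sum_eq_zero fun x _ => ?_
      have h1 : ∀ c, m1 μ i c * (F U (Function.update x i c) *
          (gd μ (insert i (M ∪ low ord U i)) (Function.update x i c) /
          gd μ (M ∪ low ord U i) (Function.update x i c) - 1))
          = F U x / gd μ (M ∪ low ord U i) x *
            (m1 μ i c * gd μ (insert i (M ∪ low ord U i)) (Function.update x i c))
            - F U x * m1 μ i c := by
        intro c
        rw [hFi U hU i hi hiU x c, gd_update _ hil]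
        ring
      rw [sum_congr rfl fun c _ => h1 c, sum_sub_distrib, ← mul_sum, ← mul_sum, gd_avg h _ hil,
        m1_sum h]
      rcases (hF0 U hU x).eq_or_lt with h2 | h2
      · rw [← h2]; simp
      · have h3 := hFg U hU x h2
        have h4 : 0 < gd μ (M ∪ low ord U i) x :=
          gd_pos_mono h (union_subset_union_right (low_subset ord U i)) h3
        rw [div_mul_cancel₀ _ h4.ne']; simp
    have hpt : ∀ x, pw μ x * (F (insert i U) x * Real.log (gd μ (insert i (M ∪ low ord U i)) x /
        gd μ (M ∪ low ord U i) x))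
        ≤ pw μ x * (F U x * phi (F (insert i U) x / F U x)) +
          pw μ x * (F U x * (gd μ (insert i (M ∪ low ord U i)) x /
          gd μ (M ∪ low ord U i) x - 1)) := by
      intro x
      rw [← mul_add]
      refine mul_le_mul_of_nonneg_left ?_ (pw_nonneg h x)
      refine dv_scalar (hF0 _ hiUS x) (hF0 U hU x) (div_nonneg (gd_nonneg h _ _) (gd_nonneg h _ _))
        (fun h0 => hFm U hU i hi hiU x h0) fun h0 => ?_
      by_contra hne
      have hpos : 0 < F (insert i U) x := lt_of_le_of_ne (hF0 _ hiUS x) (Ne.symm hne)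
      have h3 := hFg _ hiUS x hpos
      have h5 : 0 < gd μ (insert i (M ∪ low ord U i)) x := by
        refine gd_pos_mono h ?_ h3
        intro j hj
        simp only [mem_insert, mem_union] at hj ⊢
        rcases hj with hj | hj | hj
        · exact Or.inr (Or.inl hj)
        · exact Or.inl hj
        · exact Or.inr (Or.inr (low_subset ord U i hj))
      have h6 : 0 < gd μ (M ∪ low ord U i) x := gd_pos_mono h (subset_insert _ _) h5
      exact absurd h0 (div_pos h5 h6).ne'
    calc _ ≤ ∑ x, (pw μ x * (F U x * phi (F (insert i U) x / F U x)) +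
          pw μ x * (F U x * (gd μ (insert i (M ∪ low ord U i)) x /
          gd μ (M ∪ low ord U i) x - 1))) := sum_le_sum fun x _ => hpt x
      _ = _ := by rw [sum_add_distrib, hzero, add_zero]
  -- decomposition of the logarithm
  have hdec : ∀ U ∈ S.powerset, a ^ U.card * b ^ (S \ U).card *
        ∑ x, pw μ x * (F U x * Real.log (gd μ (M ∪ U) x / gd μ M x))
      = ∑ i ∈ U, a ^ U.card * b ^ (S \ U).card *
        ∑ x, pw μ x * (F U x * Real.log (gd μ (insert i (M ∪ low ord U i)) x /
        gd μ (M ∪ low ord U i) x)) := by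
    intro U hU
    rw [mem_powerset] at hU
    rw [← mul_sum, sum_comm]
    congr 1
    refine sum_congr rfl fun x _ => ?_
    rw [← mul_sum, ← mul_sum]
    rcases (hF0 U hU x).eq_or_lt with h2 | h2
    · rw [← h2]; simp
    congr 2
    have h3 := hFg U hU x h2
    have htel := telescope ord hord (fun W => Real.log (gd μ (M ∪ W) x)) U
    simp only [union_empty] at htel
    have hMpos : 0 < gd μ M x := gd_pos_mono h subset_union_left h3
    rw [Real.log_div h3.ne' hMpos.ne', htel]
    have : ∀ i ∈ U, Real.log (gd μ (insert i (M ∪ low ord U i)) x /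
        gd μ (M ∪ low ord U i) x) = Real.log (gd μ (M ∪ insert i (low ord U i)) x)
          - Real.log (gd μ (M ∪ low ord U i) x) := by
      intro i hi
      have h4 : 0 < gd μ (M ∪ insert i (low ord U i)) x := by
        refine gd_pos_mono h (union_subset_union_right ?_) h3
        exact insert_subset hi (low_subset ord U i)
      have h5 : 0 < gd μ (M ∪ low ord U i) x :=
        gd_pos_mono h (union_subset_union_right (low_subset ord U i)) h3
      rw [← union_insert, Real.log_div h4.ne' h5.ne']
    rw [sum_congr rfl this]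
    ring
  rw [sum_congr rfl hdec]
  -- reindex
  have hre : ∑ U ∈ S.powerset, ∑ i ∈ U, a ^ U.card * b ^ (S \ U).card *
        ∑ x, pw μ x * (F U x * Real.log (gd μ (insert i (M ∪ low ord U i)) x /
        gd μ (M ∪ low ord U i) x))
      = ∑ U ∈ S.powerset, ∑ i ∈ S \ U, a ^ (insert i U).card * b ^ (S \ insert i U).card *
        ∑ x, pw μ x * (F (insert i U) x * Real.log (gd μ (insert i (M ∪ low ord U i)) x /
        gd μ (M ∪ low ord U i) x)) := by
    rw [sum_sigma', sum_sigma']
    refine sum_bij' (fun p _ => (⟨p.1.erase p.2, p.2⟩ : (_ : Finset ι) × ι))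
      (fun p _ => (⟨insert p.2 p.1, p.2⟩ : (_ : Finset ι) × ι)) ?_ ?_ ?_ ?_ ?_
    · rintro ⟨U, i⟩ hp
      simp only [mem_sigma, mem_powerset, mem_sdiff] at hp ⊢
      exact ⟨(erase_subset _ _).trans hp.1, hp.1 hp.2, by simp⟩
    · rintro ⟨U, i⟩ hp
      simp only [mem_sigma, mem_powerset, mem_sdiff] at hp ⊢
      exact ⟨insert_subset hp.2.1 hp.1, mem_insert_self _ _⟩
    · rintro ⟨U, i⟩ hp
      simp only [mem_sigma, mem_powerset] at hp
      simp [insert_erase hp.2]
    · rintro ⟨U, i⟩ hp
      simp only [mem_sigma, mem_powerset, mem_sdiff] at hp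
      simp [erase_insert hp.2.2]
    · rintro ⟨U, i⟩ hp
      simp only [mem_sigma, mem_powerset] at hp
      simp only [insert_erase hp.2]
      have : low ord (U.erase i) i = low ord U i := by
        rw [← low_erase ord (U.erase i) i, insert_erase hp.2]
      rw [this]
  rw [hre, mul_sum]
  refine sum_le_sum fun U hU => ?_
  rw [mem_powerset] at hU
  rw [← mul_assoc, mul_sum]
  refine sum_le_sum fun i hi => ?_
  rw [mem_sdiff] at hi
  have hw : a ^ (insert i U).card * b ^ (S \ insert i U).card
      = a / b * (a ^ U.card * b ^ (S \ U).card) := by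
    rw [card_insert_of_notMem hi.2]
    have : (S \ U).card = (S \ insert i U).card + 1 := by
      rw [← card_insert_of_notMem (s := S \ insert i U) (a := i) (by simp)]
      congr 1
      ext j
      simp only [mem_sdiff, mem_insert, not_or]
      constructor
      · rintro ⟨h1, h2⟩
        by_cases hj : j = i
        · exact Or.inl hj
        · exact Or.inr ⟨h1, hj, h2⟩
      · rintro (h1 | ⟨h1, _, h3⟩)
        · rw [h1]; exact hi
        · exact ⟨h1, h3⟩
    rw [this, pow_succ, pow_succ]
    field_simp
  rw [hw]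
  exact mul_le_mul_of_nonneg_left (hinc U hU i hi.1 hi.2) (by positivity)

end

end Vale.Agent.P042.H779
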