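import Vale.Agent.P042.H779.AbBasic
import Vale.Agent.P042.H779.Tens

/-! Donsker-Varadhan and tensorisation, coordinate by coordinate, for an abstract family. -/

namespace Vale.Agent.P042.H779.Ab

open Finset

set_option linter.unusedSectionVars false

section
variable {ι : Type*} [Fintype ι] [DecidableEq ι] {V : ι → Type*} [∀ i, Fintype (V i)]
  {w : ∀ i, V i → ℝ} {g : Finset ι → (∀ i, V i) → ℝ} {ok : Finset ι → Prop}

/-- The separation inequality (step 3) for a fixed core `M` and free set `S`. -/
theorem separation (F : Fam w g ok) (ord : ι → ℕ) (hord : Function.Injective ord)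
    {M S : Finset ι} (hMS : Disjoint M S) (wt : Finset ι → ℝ) (hwt : ∀ U, 0 ≤ wt U)
    (okU : Finset ι → Prop) (hwok : ∀ U ⊆ S, wt U ≠ 0 → okU U)
    (hokd : ∀ U W : Finset ι, U ⊆ W → okU W → okU U) (hoko : ∀ U, okU U → ok (M ∪ U))
    (E : Finset ι → (∀ i, V i) → ℝ)
    (hF0 : ∀ U ⊆ S, ∀ x, 0 ≤ E U x)
    (hFi : ∀ U ⊆ S, ∀ i ∈ S, i ∉ U → Indep i (E U))
    (hFm : ∀ U ⊆ S, ∀ i ∈ S, i ∉ U → okU (insert i U) → ∀ x, E U x = 0 → E (insert i U) x = 0)
    (hFg : ∀ U ⊆ S, okU U → ∀ x, 0 < E U x → 0 < g (M ∪ U) x) :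
    ∑ U ∈ S.powerset, wt U *
        ∑ x, pw w x * (E U x * Real.log (g (M ∪ U) x / g M x))
      ≤ ∑ U ∈ S.powerset, ∑ i ∈ S \ U, wt (insert i U) *
        ∑ x, pw w x * (E U x * phi (E (insert i U) x / E U x)) := by
  -- one increment
  have hinc : ∀ U ⊆ S, ∀ i ∈ S, i ∉ U → okU (insert i U) →
      ∑ x, pw w x * (E (insert i U) x * Real.log (g (insert i (M ∪ low ord U i)) x /
        g (M ∪ low ord U i) x))
      ≤ ∑ x, pw w x * (E U x * phi (E (insert i U) x / E U x)) := by
    intro U hU i hi hiU hok
    have hokU : okU U := hokd _ _ (subset_insert _ _) hok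
    have hokMU : ok (M ∪ U) := hoko _ hokU
    have hokMiU : ok (M ∪ insert i U) := hoko _ hok
    have hiM : i ∉ M := fun hc => disjoint_left.mp hMS hc hi
    have hiUS : insert i U ⊆ S := insert_subset hi hU
    have hil : i ∉ M ∪ low ord U i := by
      simp only [mem_union, not_or]; exact ⟨hiM, not_mem_low ord U i⟩
    have hsub : insert i (M ∪ low ord U i) ⊆ M ∪ insert i U := by
      intro j hj
      simp only [mem_insert, mem_union] at hj ⊢
      rcases hj with hj | hj | hj
      · exact Or.inr (Or.inl hj)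
      · exact Or.inl hj
      · exact Or.inr (Or.inr (low_subset ord U i hj))
    have hokl : ok (insert i (M ∪ low ord U i)) := F.ok_down _ _ hsub hokMiU
    have hzero : ∑ x, pw w x * (E U x * (g (insert i (M ∪ low ord U i)) x /
        g (M ∪ low ord U i) x - 1)) = 0 := by
      rw [pw_avg F i]
      refine sum_eq_zero fun x _ => ?_
      have h1 : ∀ c, w i c * (E U (Function.update x i c) *
          (g (insert i (M ∪ low ord U i)) (Function.update x i c) /
          g (M ∪ low ord U i) (Function.update x i c) - 1))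
          = E U x / g (M ∪ low ord U i) x *
            (w i c * g (insert i (M ∪ low ord U i)) (Function.update x i c))
            - E U x * w i c := by
        intro c
        rw [hFi U hU i hi hiU x c, F.g_upd _ _ hil]
        ring
      rw [sum_congr rfl fun c _ => h1 c, sum_sub_distrib, ← mul_sum, ← mul_sum,
        F.g_avg _ _ hil hokl, F.w_sum]
      rcases (hF0 U hU x).eq_or_lt with h2 | h2
      · rw [← h2]; simp
      · have h3 := hFg U hU hokU x h2
        have h4 : 0 < g (M ∪ low ord U i) x :=
          F.g_pos _ _ (union_subset_union_right (low_subset ord U i)) hokMU x h3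
        rw [div_mul_cancel₀ _ h4.ne']; simp
    have hpt : ∀ x, pw w x * (E (insert i U) x * Real.log (g (insert i (M ∪ low ord U i)) x /
        g (M ∪ low ord U i) x))
        ≤ pw w x * (E U x * phi (E (insert i U) x / E U x)) +
          pw w x * (E U x * (g (insert i (M ∪ low ord U i)) x /
          g (M ∪ low ord U i) x - 1)) := by
      intro x
      rw [← mul_add]
      refine mul_le_mul_of_nonneg_left ?_ (pw_nonneg F x)
      refine dv_scalar (hF0 _ hiUS x) (hF0 U hU x) (div_nonneg (F.g_nonneg _ _) (F.g_nonneg _ _))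
        (fun h0 => hFm U hU i hi hiU hok x h0) fun h0 => ?_
      by_contra hne
      have hpos : 0 < E (insert i U) x := lt_of_le_of_ne (hF0 _ hiUS x) (Ne.symm hne)
      have h3 := hFg _ hiUS hok x hpos
      have h5 : 0 < g (insert i (M ∪ low ord U i)) x := F.g_pos _ _ hsub hokMiU x h3
      have h6 : 0 < g (M ∪ low ord U i) x := F.g_pos _ _ (subset_insert _ _) hokl x h5
      exact absurd h0 (div_pos h5 h6).ne'
    calc _ ≤ ∑ x, (pw w x * (E U x * phi (E (insert i U) x / E U x)) +
          pw w x * (E U x * (g (insert i (M ∪ low ord U i)) x /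
          g (M ∪ low ord U i) x - 1))) := sum_le_sum fun x _ => hpt x
      _ = _ := by rw [sum_add_distrib, hzero, add_zero]
  -- decomposition of the logarithm
  have hdec : ∀ U ∈ S.powerset, wt U *
        ∑ x, pw w x * (E U x * Real.log (g (M ∪ U) x / g M x))
      = ∑ i ∈ U, wt U *
        ∑ x, pw w x * (E U x * Real.log (g (insert i (M ∪ low ord U i)) x /
        g (M ∪ low ord U i) x)) := by
    intro U hU
    rw [mem_powerset] at hU
    by_cases hwz : wt U = 0
    · rw [hwz]; simp
    have hokU : okU U := hwok U hU hwz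
    have hokMU : ok (M ∪ U) := hoko _ hokU
    rw [← mul_sum, sum_comm]
    congr 1
    refine sum_congr rfl fun x _ => ?_
    rw [← mul_sum, ← mul_sum]
    rcases (hF0 U hU x).eq_or_lt with h2 | h2
    · rw [← h2]; simp
    congr 2
    have h3 := hFg U hU hokU x h2
    have htel := telescope ord hord (fun W => Real.log (g (M ∪ W) x)) U
    simp only [union_empty] at htel
    have hMpos : 0 < g M x := F.g_pos _ _ subset_union_left hokMU x h3
    rw [Real.log_div h3.ne' hMpos.ne', htel]
    have : ∀ i ∈ U, Real.log (g (insert i (M ∪ low ord U i)) x /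
        g (M ∪ low ord U i) x) = Real.log (g (M ∪ insert i (low ord U i)) x)
          - Real.log (g (M ∪ low ord U i) x) := by
      intro i hi
      have h4 : 0 < g (M ∪ insert i (low ord U i)) x := by
        refine F.g_pos _ _ (union_subset_union_right ?_) hokMU x h3
        exact insert_subset hi (low_subset ord U i)
      have h5 : 0 < g (M ∪ low ord U i) x :=
        F.g_pos _ _ (union_subset_union_right (low_subset ord U i)) hokMU x h3
      rw [← union_insert, Real.log_div h4.ne' h5.ne']
    rw [sum_congr rfl this]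
    ring
  rw [sum_congr rfl hdec]
  -- reindex
  have hre : ∑ U ∈ S.powerset, ∑ i ∈ U, wt U *
        ∑ x, pw w x * (E U x * Real.log (g (insert i (M ∪ low ord U i)) x /
        g (M ∪ low ord U i) x))
      = ∑ U ∈ S.powerset, ∑ i ∈ S \ U, wt (insert i U) *
        ∑ x, pw w x * (E (insert i U) x * Real.log (g (insert i (M ∪ low ord U i)) x /
        g (M ∪ low ord U i) x)) := by
    rw [sum_sigma', sum_sigma']
    refine sum_bij' (fun p _ => (⟨p.1.erase p.2, p.2⟩ : (_ : Finset ι) × ι))
      (fun p _ => (⟨insert p.2 p.1, p.2⟩ : (_ : Finset ι) × ι)) ?_ ?_ ?_ ?_ ?_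
    · rintro ⟨U, i⟩ hp
      simp only [mem_sigma, mem_powerset, mem_sdiff] at hp ⊢
      exact ⟨(erase_subset _ _).trans hp.1, hp.1 hp.2, by simp⟩
    · rintro ⟨U, i⟩ hp
      simp only [mem_sigma, mem_powerset, mem_sdiff] at hp ⊢
      exact ⟨insert_subset hp.2.1 hp.1, mem_insert_self _ _⟩
    · rintro ⟨U, i⟩ hp
      simp only [mem_sigma, mem_powerset] at hp
      simp [insert_erase hp.2]
    · rintro ⟨U, i⟩ hp
      simp only [mem_sigma, mem_powerset, mem_sdiff] at hp
      simp [erase_insert hp.2.2]
    · rintro ⟨U, i⟩ hp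
      simp only [mem_sigma, mem_powerset] at hp
      simp only [insert_erase hp.2]
      have : low ord (U.erase i) i = low ord U i := by
        rw [← low_erase ord (U.erase i) i, insert_erase hp.2]
      rw [this]
  rw [hre]
  refine sum_le_sum fun U hU => ?_
  rw [mem_powerset] at hU
  refine sum_le_sum fun i hi => ?_
  rw [mem_sdiff] at hi
  by_cases hwz : wt (insert i U) = 0
  · rw [hwz]; simp
  exact mul_le_mul_of_nonneg_left
    (hinc U hU i hi.1 hi.2 (hwok _ (insert_subset hi.1 hU) hwz)) (hwt _)

end

end Vale.Agent.P042.H779.Ab
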