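import Vale.Agent.P042.H779.AbLaw

/-! Genuine laws: conditional expectations, the planted law, Donsker-Varadhan transfer. -/

namespace Vale.Agent.P042.H779.Ab

open Finset

set_option linter.unusedSectionVars false

section
variable {ι : Type*} [Fintype ι] [DecidableEq ι] {V : ι → Type*} [∀ i, Fintype (V i)]
  [∀ i, DecidableEq (V i)] {w : ∀ i, V i → ℝ} {μ : (∀ i, V i) → ℝ}

/-- `H` depends only on the coordinates in `P`. -/
def Loc (P : Finset ι) (H : (∀ i, V i) → ℝ) : Prop :=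
  ∀ x y : ∀ i, V i, (∀ i ∈ P, x i = y i) → H x = H y

lemma Loc.indep {P : Finset ι} {H : (∀ i, V i) → ℝ} (hH : Loc P H) {i : ι} (hi : i ∉ P) :
    Indep i H := by
  intro x a
  refine hH _ _ fun j hj => ?_
  have : j ≠ i := fun h => hi (h ▸ hj)
  simp [this]

lemma Loc.mono {P Q : Finset ι} (hPQ : P ⊆ Q) {H : (∀ i, V i) → ℝ} (hH : Loc P H) : Loc Q H :=
  fun x y hxy => hH x y fun i hi => hxy i (hPQ hi)

lemma Loc.mul {P : Finset ι} {H K : (∀ i, V i) → ℝ} (hH : Loc P H) (hK : Loc P K) :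
    Loc P (fun x => H x * K x) := fun x y hxy => by
  beta_reduce; rw [hH x y hxy, hK x y hxy]

lemma loc_marg (R : Finset ι) : Loc R (marg μ R) := fun _ _ hxy => marg_congr R hxy

lemma loc_gdw (R : Finset ι) : Loc R (gdw w μ R) := by
  intro x y hxy
  unfold gdw
  rw [marg_congr R hxy]
  congr 1
  exact prod_congr rfl fun i hi => by rw [hxy i hi]

/-- reference weights dominating the law -/
structure Ref (w : ∀ i, V i → ℝ) (μ : (∀ i, V i) → ℝ) : Prop where
  prob : IsProb μ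
  w_nonneg : ∀ i a, 0 ≤ w i a
  w_sum : ∀ i, ∑ a, w i a = 1
  ac : ∀ i a, w i a = 0 → m1 μ i a = 0

lemma Ref.fam (H : Ref w μ) {ok : Finset ι → Prop}
    (hok : ∀ R S : Finset ι, R ⊆ S → ok S → ok R) : Fam w (gdw w μ) ok :=
  fam_of_law H.prob H.w_nonneg H.w_sum H.ac hok

lemma Ref.famT (H : Ref w μ) : Fam w (gdw w μ) (fun _ => True) :=
  H.fam (fun _ _ _ _ => trivial)

lemma marg_univ (x : ∀ i, V i) : marg μ univ x = μ x := by
  unfold marg
  have : ∀ y : ∀ i, V i, (if (∀ i ∈ (univ : Finset ι), y i = x i) then μ y else 0)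
      = if y = x then μ y else 0 := by
    intro y
    by_cases h : y = x
    · rw [if_pos h, if_pos fun i _ => by rw [h]]
    · rw [if_neg h, if_neg fun hc => h (funext fun i => hc i (mem_univ i))]
  rw [sum_congr rfl fun y _ => this y, sum_ite_eq', if_pos (mem_univ _)]

lemma marg_ge (h : IsProb μ) (P : Finset ι) (x : ∀ i, V i) : μ x ≤ marg μ P x := by
  rw [← marg_univ (μ := μ) x]
  exact marg_anti h (subset_univ P) x

lemma Ref.pw_mul (H : Ref w μ) (x : ∀ i, V i) : pw w x * gdw w μ univ x = μ x := by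
  unfold gdw pw
  rw [marg_univ]
  by_cases h0 : ∏ i, w i (x i) = 0
  · rw [prod_eq_zero_iff] at h0
    obtain ⟨i, hi, h0⟩ := h0
    have h1 := marg_eq_zero_of_w H.prob H.ac (R := univ) (mem_univ i) h0
    rw [marg_univ] at h1
    rw [h1]; simp
  · rw [mul_div_cancel₀ _ h0]

/-- sums against the law of local functions -/
lemma Ref.mu_sum (H : Ref w μ) {R : Finset ι} {K : (∀ i, V i) → ℝ} (hK : Loc R K) :
    ∑ x, μ x * K x = ∑ x, pw w x * (K x * gdw w μ R x) := by
  have h1 : ∑ x, μ x * K x = ∑ x, pw w x * (K x * gdw w μ univ x) := by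
    refine sum_congr rfl fun x _ => ?_
    rw [← H.pw_mul x]; ring
  rw [h1]
  exact pw_g_subset H.famT (subset_univ R) trivial K fun i _ hi => hK.indep hi

/-- conditional expectation given the coordinates in `P` -/
noncomputable def ce (μ : (∀ i, V i) → ℝ) (P : Finset ι) (f : (∀ i, V i) → ℝ) (x : ∀ i, V i) : ℝ :=
  (∑ y, if (∀ i ∈ P, y i = x i) then μ y * f y else 0) / marg μ P x

lemma ce_loc (P : Finset ι) (f : (∀ i, V i) → ℝ) : Loc P (ce μ P f) := by
  intro x y hxy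
  unfold ce
  rw [marg_congr P hxy]
  congr 1
  refine sum_congr rfl fun z _ => ?_
  have : (∀ i ∈ P, z i = x i) ↔ (∀ i ∈ P, z i = y i) := by
    constructor
    · intro h i hi; rw [h i hi, hxy i hi]
    · intro h i hi; rw [h i hi, hxy i hi]
  simp only [this]

/-- tower property -/
lemma tower (h : IsProb μ) (P : Finset ι) {K : (∀ i, V i) → ℝ} (hK : Loc P K)
    (f : (∀ i, V i) → ℝ) : ∑ x, μ x * (K x * ce μ P f x) = ∑ x, μ x * (K x * f x) := by
  have e1 : ∀ x, μ x * (K x * ce μ P f x)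
      = ∑ y, (if (∀ i ∈ P, y i = x i) then μ x * K x * (μ y * f y) / marg μ P x else 0) := by
    intro x
    unfold ce
    rw [mul_div_assoc', mul_div_assoc', mul_sum, mul_sum, sum_div]
    refine sum_congr rfl fun y _ => ?_
    split_ifs
    · ring
    · simp
  rw [sum_congr rfl fun x _ => e1 x, sum_comm]
  refine sum_congr rfl fun y _ => ?_
  have e2 : ∀ x, (if (∀ i ∈ P, y i = x i) then μ x * K x * (μ y * f y) / marg μ P x else 0)
      = (if (∀ i ∈ P, x i = y i) then μ x else 0) * (K y * (μ y * f y) / marg μ P y) := by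
    intro x
    by_cases hxy : ∀ i ∈ P, y i = x i
    · have hyx : ∀ i ∈ P, x i = y i := fun i hi => (hxy i hi).symm
      rw [if_pos hxy, if_pos hyx, hK x y hyx, marg_congr P hyx]; ring
    · have hyx : ¬ ∀ i ∈ P, x i = y i := fun hc => hxy fun i hi => (hc i hi).symm
      rw [if_neg hxy, if_neg hyx, zero_mul]
  rw [sum_congr rfl fun x _ => e2 x, ← sum_mul]
  have e3 : ∑ x, (if (∀ i ∈ P, x i = y i) then μ x else 0) = marg μ P y := rfl
  rw [e3]
  rcases (h.nonneg y).eq_or_lt with hy | hy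
  · rw [← hy]; simp
  · have hm : marg μ P y ≠ 0 := (lt_of_lt_of_le hy (marg_ge h P y)).ne'
    field_simp

/-! The true law `T` and the planted law `J`. -/

/-- unnormalised expectation under the true law: `β(R) bw(R,A) μ(x)` -/
noncomputable def ET (μ : (∀ i, V i) → ℝ) (β : Finset ι → ℝ) (τ : ℝ)
    (f : Finset ι → Finset ι → (∀ i, V i) → ℝ) : ℝ :=
  ∑ R ∈ (univ : Finset ι).powerset, β R * ∑ A ∈ R.powerset, bw τ R A * ∑ x, μ x * f A R x

/-- unnormalised expectation under the planted law -/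
noncomputable def JJ (w : ∀ i, V i → ℝ) (μ : (∀ i, V i) → ℝ) (β : Finset ι → ℝ) (τ : ℝ)
    (f : Finset ι → Finset ι → (∀ i, V i) → ℝ) : ℝ :=
  ET μ β τ (fun A R x => gdw w μ A x * f A R x)

variable {β : Finset ι → ℝ}

lemma JJ_eq_EJ (H : Ref w μ) (β : Finset ι → ℝ) (τ : ℝ)
    {f : Finset ι → Finset ι → (∀ i, V i) → ℝ} (hf : ∀ A R, A ⊆ R → Loc R (f A R)) :
    JJ w μ β τ f = EJ w (gdw w μ) β τ f := by
  unfold JJ ET EJ
  refine sum_congr rfl fun R _ => ?_
  congr 1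
  refine sum_congr rfl fun A hA => ?_
  have hAR := mem_powerset.mp hA
  congr 1
  rw [H.mu_sum (R := R) (((loc_gdw (w := w) (μ := μ) A).mono hAR).mul (hf A R hAR))]
  exact sum_congr rfl fun x _ => by ring

lemma JJ_congr {τ : ℝ} {f f' : Finset ι → Finset ι → (∀ i, V i) → ℝ}
    (hff : ∀ R, β R ≠ 0 → ∀ A ⊆ R, ∀ x, μ x ≠ 0 → f A R x = f' A R x) :
    JJ w μ β τ f = JJ w μ β τ f' := by
  unfold JJ ET
  refine sum_congr rfl fun R _ => ?_
  by_cases hR : β R = 0
  · rw [hR]; simp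
  congr 1
  refine sum_congr rfl fun A hA => ?_
  congr 1
  refine sum_congr rfl fun x _ => ?_
  by_cases hx : μ x = 0
  · rw [hx]; simp
  beta_reduce
  rw [hff R hR A (mem_powerset.mp hA) x hx]

lemma JJ_mono (H : Ref w μ) (hβ : ∀ R, 0 ≤ β R) {τ : ℝ} (h0 : 0 < τ) (h1 : τ < 1)
    {f f' : Finset ι → Finset ι → (∀ i, V i) → ℝ}
    (hff : ∀ R, β R ≠ 0 → ∀ A ⊆ R, ∀ x, 0 < μ x → f A R x ≤ f' A R x) :
    JJ w μ β τ f ≤ JJ w μ β τ f' := by
  unfold JJ ET
  refine sum_le_sum fun R _ => ?_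
  by_cases hR : β R = 0
  · rw [hR]; simp
  refine mul_le_mul_of_nonneg_left ?_ (hβ R)
  refine sum_le_sum fun A hA => mul_le_mul_of_nonneg_left ?_ (bw_pos h0 h1 R A).le
  refine sum_le_sum fun x _ => ?_
  rcases (H.prob.nonneg x).eq_or_lt with hx | hx
  · rw [← hx]; simp
  exact mul_le_mul_of_nonneg_left (mul_le_mul_of_nonneg_left
    (hff R hR A (mem_powerset.mp hA) x hx) (H.famT.g_nonneg A x)) hx.le

lemma JJ_nonneg (H : Ref w μ) (hβ : ∀ R, 0 ≤ β R) {τ : ℝ} (h0 : 0 < τ) (h1 : τ < 1)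
    {f : Finset ι → Finset ι → (∀ i, V i) → ℝ}
    (hf : ∀ R, β R ≠ 0 → ∀ A ⊆ R, ∀ x, 0 < μ x → 0 ≤ f A R x) : 0 ≤ JJ w μ β τ f := by
  have := JJ_mono H hβ h0 h1 (f := fun _ _ _ => 0) (f' := f) hf
  have h2 : JJ w μ β τ (fun _ _ _ => 0) = 0 := by unfold JJ ET; simp
  linarith

lemma JJ_add (w : ∀ i, V i → ℝ) (μ : (∀ i, V i) → ℝ) (β : Finset ι → ℝ) (τ : ℝ)
    (f f' : Finset ι → Finset ι → (∀ i, V i) → ℝ) :
    JJ w μ β τ (fun A R x => f A R x + f' A R x) = JJ w μ β τ f + JJ w μ β τ f' := by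
  unfold JJ ET
  rw [← sum_add_distrib]
  refine sum_congr rfl fun R _ => ?_
  rw [← mul_add, ← sum_add_distrib]
  congr 1
  refine sum_congr rfl fun A _ => ?_
  rw [← mul_add, ← sum_add_distrib]
  congr 1
  exact sum_congr rfl fun x _ => by ring

lemma JJ_smul (w : ∀ i, V i → ℝ) (μ : (∀ i, V i) → ℝ) (β : Finset ι → ℝ) (τ c : ℝ)
    (f : Finset ι → Finset ι → (∀ i, V i) → ℝ) :
    JJ w μ β τ (fun A R x => c * f A R x) = c * JJ w μ β τ f := by
  unfold JJ ET
  simp only [mul_sum]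
  refine sum_congr rfl fun R _ => sum_congr rfl fun A _ => sum_congr rfl fun x _ => by ring

lemma JJ_sub (w : ∀ i, V i → ℝ) (μ : (∀ i, V i) → ℝ) (β : Finset ι → ℝ) (τ : ℝ)
    (f f' : Finset ι → Finset ι → (∀ i, V i) → ℝ) :
    JJ w μ β τ (fun A R x => f A R x - f' A R x) = JJ w μ β τ f - JJ w μ β τ f' := by
  have h1 := JJ_add w μ β τ f (fun A R x => (-1) * f' A R x)
  rw [JJ_smul w μ β τ (-1) f'] at h1
  have h2 : JJ w μ β τ (fun A R x => f A R x - f' A R x)
      = JJ w μ β τ (fun A R x => f A R x + (-1) * f' A R x) := by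
    congr 1; funext A R x; ring
  rw [h2, h1]; ring

lemma JJ_sum {κ : Type*} (w : ∀ i, V i → ℝ) (μ : (∀ i, V i) → ℝ) (β : Finset ι → ℝ) (τ : ℝ)
    (s : Finset κ) (f : κ → Finset ι → Finset ι → (∀ i, V i) → ℝ) :
    JJ w μ β τ (fun A R x => ∑ k ∈ s, f k A R x) = ∑ k ∈ s, JJ w μ β τ (f k) := by
  classical
  induction s using Finset.induction_on with
  | empty => simp [JJ, ET]
  | insert k s hk ih =>
    rw [sum_insert hk, ← ih, ← JJ_add]
    congr 1
    funext A R x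
    rw [sum_insert hk]

/-- constants -/
lemma JJ_one (H : Ref w μ) (β : Finset ι → ℝ) (τ : ℝ) :
    JJ w μ β τ (fun _ _ _ => 1) = Gm w (gdw w μ) β τ := by
  rw [JJ_eq_EJ H β τ (fun _ _ _ => fun _ _ _ => rfl)]
  unfold EJ Gm
  refine sum_congr rfl fun R _ => ?_
  congr 1
  refine sum_congr rfl fun A hA => ?_
  simp only [mul_one]
  rw [pw_g_g H.famT (mem_powerset.mp hA) trivial]

lemma JJ_const (H : Ref w μ) (β : Finset ι → ℝ) (τ c : ℝ) :
    JJ w μ β τ (fun _ _ _ => c) = c * Gm w (gdw w μ) β τ := by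
  rw [← JJ_one H β τ, ← JJ_smul]; simp

/-- The entropy of the planted law relative to the true law, times the mass. -/
noncomputable def KK (w : ∀ i, V i → ℝ) (μ : (∀ i, V i) → ℝ) (β : Finset ι → ℝ) (τ : ℝ) : ℝ :=
  JJ w μ β τ (fun A _ x => Real.log (gdw w μ A x))
    - Gm w (gdw w μ) β τ * Real.log (Gm w (gdw w μ) β τ)

/-- positivity of all densities on the support -/
lemma Ref.g_pos (H : Ref w μ) {x : ∀ i, V i} (hx : 0 < μ x) (P : Finset ι) :
    0 < gdw w μ P x := by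
  rw [gdw_pos_iff H.prob H.w_nonneg H.ac]
  exact lt_of_lt_of_le hx (marg_ge H.prob P x)

/-- **Donsker-Varadhan transfer.** -/
theorem dv_transfer (H : Ref w μ) (hβ : ∀ R, 0 ≤ β R) {τ : ℝ} (h0 : 0 < τ) (h1 : τ < 1)
    (hG : 0 < Gm w (gdw w μ) β τ) (Z : Finset ι → (∀ i, V i) → ℝ)
    (hZ0 : ∀ R x, β R ≠ 0 → 0 < μ x → 0 < Z R x)
    (hZ : ∑ R ∈ (univ : Finset ι).powerset, β R * ∑ x, μ x * Z R x ≤ 1) :
    JJ w μ β τ (fun _ R x => Real.log (Z R x)) ≤ KK w μ β τ := by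
  obtain ⟨G, hGd⟩ : ∃ G, G = Gm w (gdw w μ) β τ := ⟨_, rfl⟩
  unfold KK
  rw [← hGd] at hG ⊢
  have key : ∀ R ∈ (univ : Finset ι).powerset, ∀ A ∈ R.powerset, ∀ x : ∀ i, V i,
      β R * (bw τ R A * (μ x * (gdw w μ A x * Real.log (Z R x))))
      ≤ β R * (bw τ R A * (μ x * (gdw w μ A x * Real.log (gdw w μ A x))))
        - Real.log G * (β R * (bw τ R A * (μ x * (gdw w μ A x * 1))))
        + (G * (β R * (bw τ R A * (μ x * Z R x)))
        - β R * (bw τ R A * (μ x * (gdw w μ A x * 1)))) := by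
    intro R _ A _ x
    rcases (hβ R).eq_or_lt with hR | hR
    · rw [← hR]; simp
    rcases (H.prob.nonneg x).eq_or_lt with hx | hx
    · rw [← hx]; simp
    have hb := bw_pos h0 h1 R A
    have hg := H.g_pos hx A
    have hz := hZ0 R x hR.ne' hx
    have h2 := Real.log_le_sub_one_of_pos (show 0 < Z R x * G / gdw w μ A x by positivity)
    rw [Real.log_div (by positivity) hg.ne', Real.log_mul hz.ne' hG.ne'] at h2
    have h3 := mul_le_mul_of_nonneg_left h2 hg.le
    have h4 : gdw w μ A x * (Z R x * G / gdw w μ A x - 1) = Z R x * G - gdw w μ A x := by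
      field_simp
    rw [h4] at h3
    have h5 : gdw w μ A x * Real.log (Z R x) ≤ gdw w μ A x * Real.log (gdw w μ A x)
        - Real.log G * (gdw w μ A x * 1) + (G * Z R x - gdw w μ A x * 1) := by linarith
    have h6 := mul_le_mul_of_nonneg_left h5 (mul_nonneg hR.le (mul_nonneg hb.le hx.le))
    linarith
  have hsum : JJ w μ β τ (fun _ R x => Real.log (Z R x))
      ≤ JJ w μ β τ (fun A _ x => Real.log (gdw w μ A x)) - Real.log G * JJ w μ β τ (fun _ _ _ => 1)
        + (G * ET μ β τ (fun _ R x => Z R x) - JJ w μ β τ (fun _ _ _ => 1)) := by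
    unfold JJ ET
    simp only [mul_sum]
    rw [← sum_sub_distrib, ← sum_sub_distrib, ← sum_add_distrib]
    refine sum_le_sum fun R hR => ?_
    rw [← sum_sub_distrib, ← sum_sub_distrib, ← sum_add_distrib]
    refine sum_le_sum fun A hA => ?_
    rw [← sum_sub_distrib, ← sum_sub_distrib, ← sum_add_distrib]
    exact sum_le_sum fun x _ => key R hR A hA x
  have hET : ET μ β τ (fun _ R x => Z R x) ≤ 1 := by
    refine le_trans (le_of_eq ?_) hZ
    unfold ET
    refine sum_congr rfl fun R _ => ?_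
    rw [← sum_mul, bw_sum, one_mul]
  rw [JJ_one H β τ, ← hGd] at hsum
  have := mul_le_mul_of_nonneg_left hET hG.le
  linarith

end

end Vale.Agent.P042.H779.Ab
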