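import Vale.Agent.P042.H779.AbAsm1

/-! Assembly for an abstract family: separation and insertion. -/

namespace Vale.Agent.P042.H779.Ab

open Finset

set_option linter.unusedSectionVars false

section
variable {ι : Type*} [Fintype ι] [DecidableEq ι] {V : ι → Type*} [∀ i, Fintype (V i)]
  {w : ∀ i, V i → ℝ} {g : Finset ι → (∀ i, V i) → ℝ} {ok : Finset ι → Prop} {β : Finset ι → ℝ}

/-- separation functional -/
noncomputable def Th (w : ∀ i, V i → ℝ) (g : Finset ι → (∀ i, V i) → ℝ) (τ : ℝ) (m : ℕ)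
    (M A R : Finset ι) : ℝ :=
  ∑ x, pw w x * (g A x * g R x * qc g τ m M A R x * Real.log (g A x / g M x))

/-- insertion functional -/
noncomputable def Ps (w : ∀ i, V i → ℝ) (g : Finset ι → (∀ i, V i) → ℝ) (β : Finset ι → ℝ)
    (τ : ℝ) (m : ℕ) (M A R : Finset ι) : ℝ :=
  ∑ i ∈ univ \ R, β (insert i R) * ∑ x, pw w x * (g A x * g R x * qc g τ m M A R x *
    phi (g (insert i A) x * g (insert i R) x * qc g τ m M (insert i A) (insert i R) x /
        (g A x * g R x * qc g τ m M A R x)))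

/-- Step 3 summed over all cores. -/
lemma sep_sum (F : Fam w g ok) (B : Wt ok β) {τ : ℝ} (h0 : 0 < τ) (h1 : τ < 1)
    {m : ℕ} (hm : 1 ≤ m) :
    ∑ R ∈ (univ : Finset ι).powerset, ∑ A ∈ R.powerset, ∑ M ∈ A.powerset,
        β R * bw τ R A * Th w g τ m M A R
      ≤ ∑ R ∈ (univ : Finset ι).powerset, ∑ A ∈ R.powerset,
        ∑ M ∈ A.powerset, τ * bw τ R A * Ps w g β τ m M A R := by
  rw [chain3 univ (fun M A R => β R * bw τ R A * Th w g τ m M A R),
    chain3 univ (fun M A R => τ * bw τ R A * Ps w g β τ m M A R)]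
  refine sum_le_sum fun M _ => ?_
  refine sum_le_sum fun I hI => ?_
  have hIM : Disjoint I M := by
    rw [mem_powerset, subset_sdiff] at hI; exact hI.2
  obtain ⟨ord, hord⟩ : ∃ ord : ι → ℕ, Function.Injective ord :=
    ⟨fun i => (Fintype.equivFin ι i : ℕ), fun a b hab => by
      have := Fin.ext hab
      exact (Fintype.equivFin ι).injective this⟩
  have hMS : Disjoint M (univ \ (M ∪ I)) := by
    rw [disjoint_left]; intro a ha hc
    simp only [mem_sdiff, mem_univ, true_and, mem_union, not_or] at hc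
    exact hc.1 ha
  have hpos : ∀ U, ok (M ∪ U ∪ I) → ∀ x, 0 < g (M ∪ U ∪ I) x →
      0 < g (M ∪ U) x * g (M ∪ U ∪ I) x * qc g τ m M (M ∪ U) (M ∪ U ∪ I) x := by
    intro U hok x hx
    exact mul_pos (mul_pos (g_mono F subset_union_left hok hx) hx)
      (qc_pos F h0 h1 hm subset_union_left subset_union_left hok hx)
  have hgpos : ∀ U, ∀ x,
      0 < g (M ∪ U) x * g (M ∪ U ∪ I) x * qc g τ m M (M ∪ U) (M ∪ U ∪ I) x →
      0 < g (M ∪ U ∪ I) x := by
    intro U x hx
    rcases (F.g_nonneg (M ∪ U ∪ I) x).eq_or_lt with h2 | h2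
    · rw [← h2] at hx; simp at hx
    · exact h2
  have hsep := separation F ord hord hMS
    (fun U => β (M ∪ U ∪ I) * bw τ (M ∪ U ∪ I) (M ∪ U))
    (fun U => mul_nonneg (B.nonneg _) (bw_pos h0 h1 _ _).le)
    (fun U => ok (M ∪ U ∪ I))
    (by
      intro U _ hU
      exact B.okb _ (left_ne_zero_of_mul hU))
    (by
      intro U W hUW hok
      exact F.ok_down _ _ (union_subset_union_left (union_subset_union_right hUW)) hok)
    (fun U hok => F.ok_down _ _ subset_union_left hok)
    (fun U x => g (M ∪ U) x * g (M ∪ U ∪ I) x * qc g τ m M (M ∪ U) (M ∪ U ∪ I) x)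
    (fun U _ x => mul_nonneg (mul_nonneg (F.g_nonneg _ _) (F.g_nonneg _ _))
      (qc_nonneg F h0 h1 _ _ _ _))
    (by
      intro U hU i hi hiU x c
      simp only [mem_sdiff, mem_univ, true_and, mem_union, not_or] at hi
      have hi1 : i ∉ M ∪ U := by simp [hi.1, hiU]
      have hi2 : i ∉ M ∪ U ∪ I := by simp [hi.1, hiU, hi.2]
      beta_reduce
      rw [g_update F _ hi1, g_update F _ hi2, indep_qc F M (M ∪ U) (M ∪ U ∪ I) hi2 x c])
    (by
      intro U hU i hi hiU hok x hx
      by_contra hne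
      have hnn : 0 ≤ g (M ∪ insert i U) x * g (M ∪ insert i U ∪ I) x *
        qc g τ m M (M ∪ insert i U) (M ∪ insert i U ∪ I) x :=
        mul_nonneg (mul_nonneg (F.g_nonneg _ _) (F.g_nonneg _ _)) (qc_nonneg F h0 h1 _ _ _ _)
      have h2 := hgpos _ x (lt_of_le_of_ne hnn (Ne.symm hne))
      have hsub : M ∪ U ∪ I ⊆ M ∪ insert i U ∪ I :=
        union_subset_union_left (union_subset_union_right (subset_insert _ _))
      have h3 : 0 < g (M ∪ U ∪ I) x := g_mono F hsub hok h2
      exact (hpos U (F.ok_down _ _ hsub hok) x h3).ne' hx)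
    (by
      intro U hU hok x hx
      exact g_mono F subset_union_left hok (hgpos U x hx))
  have eL : ∑ U ∈ (univ \ (M ∪ I)).powerset,
      β (M ∪ U ∪ I) * bw τ (M ∪ U ∪ I) (M ∪ U) * Th w g τ m M (M ∪ U) (M ∪ U ∪ I)
      = ∑ U ∈ (univ \ (M ∪ I)).powerset, β (M ∪ U ∪ I) * bw τ (M ∪ U ∪ I) (M ∪ U)
        * ∑ x, pw w x * (g (M ∪ U) x * g (M ∪ U ∪ I) x *
          qc g τ m M (M ∪ U) (M ∪ U ∪ I) x * Real.log (g (M ∪ U) x / g M x)) := rfl
  have eR : ∑ U ∈ (univ \ (M ∪ I)).powerset,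
      τ * bw τ (M ∪ U ∪ I) (M ∪ U) * Ps w g β τ m M (M ∪ U) (M ∪ U ∪ I)
      = ∑ U ∈ (univ \ (M ∪ I)).powerset, ∑ i ∈ (univ \ (M ∪ I)) \ U,
        β (M ∪ insert i U ∪ I) * bw τ (M ∪ insert i U ∪ I) (M ∪ insert i U) *
        ∑ x, pw w x * (g (M ∪ U) x * g (M ∪ U ∪ I) x *
          qc g τ m M (M ∪ U) (M ∪ U ∪ I) x *
          phi ((g (M ∪ insert i U) x * g (M ∪ insert i U ∪ I) x *
          qc g τ m M (M ∪ insert i U) (M ∪ insert i U ∪ I) x) /
          (g (M ∪ U) x * g (M ∪ U ∪ I) x * qc g τ m M (M ∪ U) (M ∪ U ∪ I) x))) := by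
    refine sum_congr rfl fun U hU => ?_
    have e : univ \ (M ∪ U ∪ I) = (univ \ (M ∪ I)) \ U := by
      ext j; simp only [mem_sdiff, mem_univ, true_and, mem_union, not_or]; tauto
    unfold Ps
    rw [e, mul_sum]
    refine sum_congr rfl fun i hi => ?_
    simp only [mem_sdiff, mem_univ, true_and, mem_union, not_or] at hi
    have hi2 : i ∉ M ∪ U ∪ I := by simp [hi.1.1, hi.2, hi.1.2]
    rw [union_insert, insert_union, bw_insert_both subset_union_left hi2]
    ring
  rw [eL, eR]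
  exact hsep

/-- Steps 4 and 5 summed over all configurations. -/
lemma step45 (F : Fam w g ok) (B : Wt ok β) {τ L : ℝ} (h0 : 0 < τ) {m : ℕ} (hm : 1 ≤ m)
    (hmτ : 16 * m * τ ≤ 1) (hL : 1 ≤ L) (hat : ∀ i a, w i a = 0 ∨ Real.exp (-L) ≤ w i a) :
    ∑ R ∈ (univ : Finset ι).powerset, ∑ A ∈ R.powerset,
        ∑ M ∈ A.powerset, τ * bw τ R A * Ps w g β τ m M A R
      ≤ ∑ R ∈ (univ : Finset ι).powerset, ∑ i ∈ univ \ R, τ * β (insert i R) * ∑ x, pw w x *
        (g R x * (Tg g τ R x * ((1100 * (m ^ 2 * L / τ)) * (phi (rt g i x R) +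
        ∑ A ∈ R.powerset, post g τ R x A * phi (rt g i x A)) + 4 * ((15 * τ) ^ m) ^ 2))) := by
  have hm' : (1 : ℝ) ≤ m := by exact_mod_cast hm
  have h1 : τ < 1 := by nlinarith
  refine sum_le_sum fun R _ => ?_
  have e1 : ∑ A ∈ R.powerset, ∑ M ∈ A.powerset, τ * bw τ R A * Ps w g β τ m M A R
      = ∑ i ∈ univ \ R, τ * β (insert i R) * ∑ x, pw w x * (g R x * (Tg g τ R x *
        ∑ A ∈ R.powerset, post g τ R x A * ∑ M ∈ A.powerset, qc g τ m M A R x *
        phi (g (insert i A) x * g (insert i R) x * qc g τ m M (insert i A) (insert i R) x /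
        (g A x * g R x * qc g τ m M A R x)))) := by
    have e2 : ∀ A ∈ R.powerset, ∀ M ∈ A.powerset, τ * bw τ R A * Ps w g β τ m M A R
        = ∑ i ∈ univ \ R, τ * β (insert i R) * ∑ x, pw w x * (g R x * (bw τ R A * g A x) *
          (qc g τ m M A R x * phi (g (insert i A) x * g (insert i R) x *
          qc g τ m M (insert i A) (insert i R) x /
          (g A x * g R x * qc g τ m M A R x)))) := by
      intro A _ M _
      unfold Ps
      rw [mul_sum]
      refine sum_congr rfl fun i _ => ?_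
      have : ∀ x, pw w x * (g R x * (bw τ R A * g A x) *
          (qc g τ m M A R x * phi (g (insert i A) x * g (insert i R) x *
          qc g τ m M (insert i A) (insert i R) x /
          (g A x * g R x * qc g τ m M A R x))))
          = bw τ R A * (pw w x * (g A x * g R x * qc g τ m M A R x *
          phi (g (insert i A) x * g (insert i R) x * qc g τ m M (insert i A) (insert i R) x /
          (g A x * g R x * qc g τ m M A R x)))) := fun x => by ring
      rw [sum_congr rfl fun x _ => this x, ← mul_sum]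
      ring
    rw [sum_congr rfl fun A hA => sum_congr rfl fun M hM => e2 A hA M hM]
    rw [sum_congr rfl fun A _ => sum_comm, sum_comm]
    refine sum_congr rfl fun i _ => ?_
    simp only [← mul_sum]
    congr 1
    rw [sum_congr rfl fun A _ => sum_comm, sum_comm]
    refine sum_congr rfl fun x _ => ?_
    simp only [← mul_sum]
    congr 1
    rw [mul_sum, mul_sum]
    refine sum_congr rfl fun A _ => ?_
    have h6 := Tg_mul_post F h0 h1 R x A
    rw [← h6]
    ring
  rw [e1]
  refine sum_le_sum fun i hi => ?_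
  rw [mem_sdiff] at hi
  by_cases hR : β (insert i R) = 0
  · rw [hR]; simp
  have hok := B.okb _ hR
  refine mul_le_mul_of_nonneg_left ?_ (mul_nonneg h0.le (B.nonneg _))
  refine sum_le_sum fun x _ => ?_
  rcases (pw_nonneg F x).eq_or_lt with hpw | hpw
  · rw [← hpw]; simp
  rcases (F.g_nonneg R x).eq_or_lt with hx | hx
  · rw [← hx]; simp
  have hT := Tg_pos F h0 h1 R x
  refine mul_le_mul_of_nonneg_left (mul_le_mul_of_nonneg_left
    (mul_le_mul_of_nonneg_left ?_ hT.le) hx.le) hpw.le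
  refine inner_bound F h0 hm hmτ hL hi.2 hok hx ?_
  rcases hat i (x i) with h2 | h2
  · exfalso
    unfold pw at hpw
    rw [prod_eq_zero (mem_univ i) h2] at hpw
    exact lt_irrefl _ hpw
  · exact h2

/-- grouping of the replicas by the core -/
lemma sum_reps_log (τ : ℝ) {m : ℕ} (A R : Finset ι) (x : ∀ i, V i) (f : Finset ι → ℝ) :
    ∑ α ∈ reps m R.powerset, (∏ j, post g τ R x (α j)) * f (A ∩ inter α)
      = ∑ M ∈ A.powerset, qc g τ m M A R x * f M := by
  have e1 : ∀ M ∈ A.powerset, qc g τ m M A R x * f M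
      = ∑ α ∈ reps m R.powerset, (∏ j, post g τ R x (α j)) *
        (if A ∩ inter α = M then f M else 0) := by
    intro M _
    unfold qc
    rw [sum_mul]
    refine sum_congr rfl fun α _ => ?_
    split_ifs <;> ring
  rw [sum_congr rfl e1, sum_comm]
  refine sum_congr rfl fun α _ => ?_
  rw [← mul_sum]
  congr 1
  have hmem : A ∩ inter α ∈ A.powerset := mem_powerset.mpr inter_subset_left
  rw [sum_ite_eq, if_pos hmem]

/-- Step 2: the planted set is controlled by its core and the separation functional. -/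
lemma step2 (F : Fam w g ok) (B : Wt ok β) {τ θ gL : ℝ} (h0 : 0 < τ) (h1 : τ < 1)
    (hθ : 0 < θ) (hgL : 0 ≤ gL)
    (hlog : ∀ M, ok M → ∀ x, 0 < g M x → Real.log (g M x) ≤ gL * M.card) (m : ℕ) :
    EJ w g β τ (fun A _ x => Real.log (g A x))
      ≤ gL * (EJ w g β τ (fun _ R x => Hs g τ θ R x)
        + θ ^ m * EJ w g β τ (fun _ R _ => (R.card : ℝ)))
        + ∑ R ∈ (univ : Finset ι).powerset, ∑ A ∈ R.powerset, ∑ M ∈ A.powerset,
        β R * bw τ R A * Th w g τ m M A R := by
  have e1 : gL * (EJ w g β τ (fun _ R x => Hs g τ θ R x)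
        + θ ^ m * EJ w g β τ (fun _ R _ => (R.card : ℝ)))
      = ∑ R ∈ (univ : Finset ι).powerset, β R *
        ∑ x, pw w x * (g R x * (Tg g τ R x * (gL * (Hs g τ θ R x + θ ^ m * R.card)))) := by
    unfold EJ
    rw [mul_sum, ← sum_add_distrib, mul_sum]
    refine sum_congr rfl fun R _ => ?_
    rw [← sum_g_Tg_h R τ (Hs g τ θ R), ← sum_g_Tg_h R τ (fun _ => (R.card : ℝ))]
    have : ∀ x, pw w x * (g R x * (Tg g τ R x * (gL * (Hs g τ θ R x + θ ^ m * R.card))))
        = gL * (pw w x * (g R x * (Tg g τ R x * Hs g τ θ R x)))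
          + gL * θ ^ m * (pw w x * (g R x * (Tg g τ R x * (R.card : ℝ)))) := fun x => by ring
    rw [sum_congr rfl fun x _ => this x, sum_add_distrib, ← mul_sum, ← mul_sum]
    ring
  have e2 : ∑ R ∈ (univ : Finset ι).powerset, ∑ A ∈ R.powerset, ∑ M ∈ A.powerset,
        β R * bw τ R A * Th w g τ m M A R
      = ∑ R ∈ (univ : Finset ι).powerset, β R *
        ∑ x, pw w x * (g R x * (Tg g τ R x * ∑ A ∈ R.powerset, post g τ R x A *
          ∑ M ∈ A.powerset, qc g τ m M A R x * Real.log (g A x / g M x))) := by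
    refine sum_congr rfl fun R _ => ?_
    rw [sum_g_Tg_f F h0 h1 R (fun A x => ∑ M ∈ A.powerset, qc g τ m M A R x *
      Real.log (g A x / g M x)), mul_sum]
    refine sum_congr rfl fun A _ => ?_
    have : ∀ M ∈ A.powerset, β R * bw τ R A * Th w g τ m M A R
        = β R * (bw τ R A * ∑ x, pw w x * (g A x * g R x *
          (qc g τ m M A R x * Real.log (g A x / g M x)))) := by
      intro M _
      unfold Th
      rw [mul_assoc]
      congr 2
      exact sum_congr rfl fun x _ => by ring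
    rw [sum_congr rfl this, ← mul_sum, ← mul_sum, sum_comm]
    congr 2
    refine sum_congr rfl fun x _ => ?_
    rw [← mul_sum, ← mul_sum]
  rw [e1, e2, ← sum_add_distrib]
  unfold EJ
  refine sum_le_sum fun R _ => ?_
  rw [← mul_add, ← sum_g_Tg_f F h0 h1 R (fun A x => Real.log (g A x)), ← sum_add_distrib]
  by_cases hR : β R = 0
  · rw [hR]; simp
  have hokR := B.okb R hR
  refine mul_le_mul_of_nonneg_left (sum_le_sum fun x _ => ?_) (B.nonneg R)
  rw [← mul_add, ← mul_add, ← mul_add]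
  refine mul_le_mul_of_nonneg_left ?_ (pw_nonneg F x)
  rcases (F.g_nonneg R x).eq_or_lt with hx | hx
  · rw [← hx]; simp
  refine mul_le_mul_of_nonneg_left (mul_le_mul_of_nonneg_left ?_ (Tg_pos F h0 h1 R x).le) hx.le
  have h2 := log_g_le F h0 h1 hθ hgL m hokR hx
    (fun M hM => hlog M (F.ok_down _ _ hM hokR) x (g_mono F hM hokR hx))
  have h3 : ∑ A ∈ R.powerset, post g τ R x A * ∑ α ∈ reps m R.powerset,
      (∏ j, post g τ R x (α j)) * Real.log (g A x / g (A ∩ inter α) x)
      = ∑ A ∈ R.powerset, post g τ R x A *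
      ∑ M ∈ A.powerset, qc g τ m M A R x * Real.log (g A x / g M x) := by
    refine sum_congr rfl fun A _ => ?_
    rw [sum_reps_log τ A R x (fun M => Real.log (g A x / g M x))]
  rw [h3] at h2
  linarith

end

end Vale.Agent.P042.H779.Ab
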