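import Mathlib

/-! Abstract consistent families of relative densities. -/

namespace Vale.Agent.P042.H779.Ab

open Finset

set_option linter.unusedSectionVars false

variable {ι : Type*} [Fintype ι] [DecidableEq ι] {V : ι → Type*} [∀ i, Fintype (V i)]

/-- `w` are reference weights, `g R` (`R` finite set of coordinates) is a consistent family of
densities relative to the product of the weights; the averaging property and the positivity are
required only for the sets satisfying `ok`. -/
structure Fam (w : ∀ i, V i → ℝ) (g : Finset ι → (∀ i, V i) → ℝ) (ok : Finset ι → Prop) :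
    Prop where
  w_nonneg : ∀ i a, 0 ≤ w i a
  w_sum : ∀ i, ∑ a, w i a = 1
  g_nonneg : ∀ R x, 0 ≤ g R x
  g_empty : ∀ x, g ∅ x = 1
  g_upd : ∀ (R : Finset ι) (i : ι), i ∉ R → ∀ x a, g R (Function.update x i a) = g R x
  g_avg : ∀ (R : Finset ι) (i : ι), i ∉ R → ok (insert i R) → ∀ x,
    ∑ a, w i a * g (insert i R) (Function.update x i a) = g R x
  g_pos : ∀ R S : Finset ι, R ⊆ S → ok S → ∀ x, 0 < g S x → 0 < g R x
  ok_down : ∀ R S : Finset ι, R ⊆ S → ok S → ok R

/-- product weight -/
noncomputable def pw (w : ∀ i, V i → ℝ) (x : ∀ i, V i) : ℝ := ∏ i, w i (x i)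

/-- `h` does not depend on coordinate `i`. -/
def Indep (i : ι) (H : (∀ i, V i) → ℝ) : Prop := ∀ x a, H (Function.update x i a) = H x

section
variable {w : ∀ i, V i → ℝ} {g : Finset ι → (∀ i, V i) → ℝ} {ok : Finset ι → Prop}

lemma pw_nonneg (F : Fam w g ok) (x : ∀ i, V i) : 0 ≤ pw w x :=
  prod_nonneg fun i _ => F.w_nonneg i _

lemma pw_sum (F : Fam w g ok) : ∑ x, pw w x = 1 := by
  unfold pw
  rw [← Fintype.piFinset_univ, ← Finset.prod_univ_sum]
  simp [F.w_sum]

/-- Averaging over one coordinate leaves product sums unchanged. -/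
lemma pw_avg (F : Fam w g ok) (i : ι) (H : (∀ i, V i) → ℝ) :
    ∑ x, pw w x * H x = ∑ x, pw w x * ∑ a, w i a * H (Function.update x i a) := by
  have hR : ∑ x, pw w x * ∑ a, w i a * H (Function.update x i a)
      = ∑ p : (∀ i, V i) × V i, pw w p.1 * (w i p.2 * H (Function.update p.1 i p.2)) := by
    rw [Fintype.sum_prod_type]
    refine sum_congr rfl fun x _ => ?_
    rw [mul_sum]
  have hL : ∑ x, pw w x * H x = ∑ p : (∀ i, V i) × V i, w i p.2 * (pw w p.1 * H p.1) := by
    rw [Fintype.sum_prod_type]
    refine sum_congr rfl fun x _ => ?_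
    have : ∑ y, w i y * (pw w x * H x) = pw w x * H x := by
      rw [← sum_mul, F.w_sum, one_mul]
    exact this.symm
  rw [hL, hR]
  let e : (∀ i, V i) × V i ≃ (∀ i, V i) × V i :=
    { toFun := fun p => (Function.update p.1 i p.2, p.1 i)
      invFun := fun p => (Function.update p.1 i p.2, p.1 i)
      left_inv := by
        intro p; ext j
        · by_cases hj : j = i
          · subst hj; simp
          · simp [hj]
        · simp
      right_inv := by
        intro p; ext j
        · by_cases hj : j = i
          · subst hj; simp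
          · simp [hj]
        · simp }
  refine (Fintype.sum_equiv e _ _ fun p => ?_).symm
  obtain ⟨x, a⟩ := p
  simp only [e, Equiv.coe_fn_mk]
  have hp : ∀ y : ∀ i, V i, pw w y = w i (y i) * ∏ j ∈ univ.erase i, w j (y j) := by
    intro y
    unfold pw
    rw [mul_prod_erase univ (fun j => w j (y j)) (mem_univ i)]
  have hq : ∏ j ∈ univ.erase i, w j (Function.update x i a j)
      = ∏ j ∈ univ.erase i, w j (x j) := by
    refine prod_congr rfl fun j hj => ?_
    have : j ≠ i := (mem_erase.mp hj).1
    simp [this]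
  rw [hp x, hp (Function.update x i a), hq]
  simp only [Function.update_self]
  ring

lemma g_update (F : Fam w g ok) (R : Finset ι) {i : ι} (hi : i ∉ R) (x : ∀ i, V i) (a : V i) :
    g R (Function.update x i a) = g R x := F.g_upd R i hi x a

lemma g_mono (F : Fam w g ok) {R S : Finset ι} (hRS : R ⊆ S) (hok : ok S) {x : ∀ i, V i}
    (hx : 0 < g S x) : 0 < g R x := F.g_pos R S hRS hok x hx

lemma indep_g (F : Fam w g ok) (R : Finset ι) {i : ι} (hi : i ∉ R) : Indep i (g R) :=
  fun x a => F.g_upd R i hi x a

/-- The ratio of consecutive densities is at most the inverse atom. -/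
lemma w_mul_g_insert_le (F : Fam w g ok) {R : Finset ι} {i : ι} (hi : i ∉ R)
    (hok : ok (insert i R)) (x : ∀ i, V i) : w i (x i) * g (insert i R) x ≤ g R x := by
  rw [← F.g_avg R i hi hok x]
  have := single_le_sum (f := fun a => w i a * g (insert i R) (Function.update x i a))
    (fun a _ => mul_nonneg (F.w_nonneg i a) (F.g_nonneg _ _)) (mem_univ (x i))
  simpa using this

/-- Peeling one coordinate of a density. -/
lemma pw_g_insert (F : Fam w g ok) (R : Finset ι) {i : ι} (hi : i ∉ R) (hok : ok (insert i R))
    (H : (∀ i, V i) → ℝ) (hH : Indep i H) :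
    ∑ x, pw w x * (H x * g (insert i R) x) = ∑ x, pw w x * (H x * g R x) := by
  rw [pw_avg F i]
  refine sum_congr rfl fun x _ => ?_
  congr 1
  have : ∀ a, w i a * (H (Function.update x i a) * g (insert i R) (Function.update x i a))
      = H x * (w i a * g (insert i R) (Function.update x i a)) := by
    intro a; rw [hH x a]; ring
  simp only [this]
  rw [← mul_sum, F.g_avg R i hi hok]

/-- Peeling all coordinates of `R` outside `A`. -/
lemma pw_g_subset (F : Fam w g ok) {A R : Finset ι} (hAR : A ⊆ R) (hok : ok R)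
    (H : (∀ i, V i) → ℝ) (hH : ∀ i, i ∈ R → i ∉ A → Indep i H) :
    ∑ x, pw w x * (H x * g R x) = ∑ x, pw w x * (H x * g A x) := by
  obtain ⟨D, hD⟩ : ∃ D, D = R \ A := ⟨_, rfl⟩
  have hR : R = A ∪ D := by rw [hD, union_sdiff_of_subset hAR]
  have hdis : Disjoint A D := by rw [hD]; exact disjoint_sdiff
  clear hD
  induction D using Finset.induction_on generalizing R with
  | empty => simp [hR]
  | insert i D hi ih =>
    have hiA : i ∉ A := fun hc => (disjoint_left.mp hdis hc) (mem_insert_self i D)
    have hR' : R = insert i (A ∪ D) := by rw [hR]; ext j; simp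
    have hiR : i ∉ A ∪ D := by simp [hiA, hi]
    have hiR2 : i ∈ R := by rw [hR']; exact mem_insert_self _ _
    have hok2 : ok (insert i (A ∪ D)) := by rw [← hR']; exact hok
    rw [hR', pw_g_insert F (A ∪ D) hiR hok2 H (hH i hiR2 hiA)]
    refine ih subset_union_left (F.ok_down _ _ (subset_insert _ _) hok2) ?_ rfl ?_
    · intro j hj hjA
      exact hH j (by rw [hR']; exact mem_insert_of_mem hj) hjA
    · exact disjoint_of_subset_right (subset_insert i D) hdis

lemma pw_g_sum (F : Fam w g ok) {R : Finset ι} (hok : ok R) : ∑ x, pw w x * g R x = 1 := by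
  have := pw_g_subset F (A := ∅) (R := R) (empty_subset R) hok (fun _ => 1)
    (fun _ _ _ => fun _ _ => rfl)
  simpa [F.g_empty, pw_sum F] using this

end

end Vale.Agent.P042.H779.Ab
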