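import Vale.Agent.P042.H779.Asm3

/-! The core inequality: `log G(t) <= n^{O(gamma)} t^2 k`. -/

namespace Vale.Agent.P042.H779

open Finset

section
variable {ι : Type*} [Fintype ι] [DecidableEq ι] {V : ι → Type*} [∀ i, Fintype (V i)]
  [∀ i, DecidableEq (V i)] {μ : (∀ i, V i) → ℝ}

theorem core_raw (h : IsProb μ) {τ t1 θ lam gL L : ℝ} {m : ℕ} (h0 : 0 < τ) (hm : 1 ≤ m)
    (hmτ : 16 * m * τ ≤ 1) (ht0 : 0 ≤ t1) (ht1 : t1 ≤ 1 / 2) (hθ : 0 < θ) (hlam : 0 < lam)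
    (hgL : 0 ≤ gL) (hL : 1 ≤ L) (hbig : gL + 1 ≤ Real.log (θ / τ)) (hP : PinBound μ lam gL)
    (hat : AtomBound μ L) :
    Real.log (Gt μ (τ * t1)) ≤ gL * θ ^ m * Fintype.card ι
      + (τ * t1 / (1 - t1)) * ((1100 * (m ^ 2 * L / τ)) * ((gL / lam) *
        (2 * (τ * t1 * Fintype.card ι * Real.exp (gL + 1)) + 2 * t1 * Fintype.card ι))
        + 4 * ((15 * τ) ^ m) ^ 2 * Fintype.card ι) := by
  have hm' : (1 : ℝ) ≤ m := by exact_mod_cast hm
  have h1 : τ < 1 := by nlinarith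
  have ht1' : t1 < 1 := by linarith
  have hG1 : 1 ≤ Gt μ (τ * t1) := one_le_Gt h (by positivity) (by nlinarith)
  have s1 := gibbs (μ := μ) h h0 h1 ht0 ht1'.le
  have s2 := step23 (m := m) h h0 h1 ht0 ht1' hθ hlam hgL hbig hP
  have s3 := sep_sum (μ := μ) h h0 h1 ht0 ht1' hm
  have s4 := step45 h h0 ht0 ht1' hm hmτ hL hat
  have s5 := step6 h h0 h1 ht0 ht1 hlam hgL hP
  have s6 := mean_size (t := τ * t1) (gL := gL) h (by positivity) (by nlinarith) hgL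
    (fun A x hx => hP.log_le h hlam hx)
  obtain ⟨G, hG⟩ : ∃ G, G = Gt μ (τ * t1) := ⟨_, rfl⟩
  rw [← hG] at hG1 s1 s2 s5 s6 ⊢
  have hG0 : 0 < G := by linarith
  -- split the bound of step 4-5
  have e1 : ∑ R ∈ (univ : Finset ι).powerset, bw t1 univ R * ∑ i ∈ univ \ R, ∑ x, pw μ x *
        (gd μ R x * Tg μ τ R x * ((1100 * (m ^ 2 * L / τ)) * (phi (rt μ i x R) +
        ∑ A ∈ R.powerset, post μ τ R x A * phi (rt μ i x A)) + 4 * ((15 * τ) ^ m) ^ 2))
      = (1100 * (m ^ 2 * L / τ)) *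
        (∑ R ∈ (univ : Finset ι).powerset, bw t1 univ R * ∑ i ∈ univ \ R, ∑ x, pw μ x *
        (gd μ R x * Tg μ τ R x * (phi (rt μ i x R) +
        ∑ A ∈ R.powerset, post μ τ R x A * phi (rt μ i x A))))
        + 4 * ((15 * τ) ^ m) ^ 2 * ∑ R ∈ (univ : Finset ι).powerset, bw t1 univ R *
          (((univ \ R).card : ℝ) * ∑ x, pw μ x * (gd μ R x * Tg μ τ R x)) := by
    rw [mul_sum, mul_sum, ← sum_add_distrib]
    refine sum_congr rfl fun R _ => ?_
    have e2 : ∀ i ∈ univ \ R, ∑ x, pw μ x *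
        (gd μ R x * Tg μ τ R x * ((1100 * (m ^ 2 * L / τ)) * (phi (rt μ i x R) +
        ∑ A ∈ R.powerset, post μ τ R x A * phi (rt μ i x A)) + 4 * ((15 * τ) ^ m) ^ 2))
        = (1100 * (m ^ 2 * L / τ)) * ∑ x, pw μ x *
        (gd μ R x * Tg μ τ R x * (phi (rt μ i x R) +
        ∑ A ∈ R.powerset, post μ τ R x A * phi (rt μ i x A)))
        + 4 * ((15 * τ) ^ m) ^ 2 * ∑ x, pw μ x * (gd μ R x * Tg μ τ R x) := by
      intro i _
      rw [mul_sum, mul_sum, ← sum_add_distrib]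
      exact sum_congr rfl fun x _ => by ring
    rw [sum_congr rfl e2, sum_add_distrib, sum_const, ← mul_sum, nsmul_eq_mul]
    ring
  have e3 : ∑ R ∈ (univ : Finset ι).powerset, bw t1 univ R *
          (((univ \ R).card : ℝ) * ∑ x, pw μ x * (gd μ R x * Tg μ τ R x))
      ≤ Fintype.card ι * G := by
    rw [hG, ← Gt_eq h, mul_sum]
    refine sum_le_sum fun R _ => ?_
    have hc : ((univ \ R).card : ℝ) ≤ Fintype.card ι := by exact_mod_cast card_le_univ _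
    have hb := bw_nonneg' ht0 ht1'.le (univ : Finset ι) R
    have hs : 0 ≤ ∑ x, pw μ x * (gd μ R x * Tg μ τ R x) :=
      sum_nonneg fun x _ => mul_nonneg (pw_nonneg h x)
        (mul_nonneg (gd_nonneg h R x) (Tg_pos h h0 h1 R x).le)
    have := mul_le_mul_of_nonneg_right hc (mul_nonneg hb hs)
    calc _ = ((univ \ R).card : ℝ) * (bw t1 univ R * ∑ x, pw μ x * (gd μ R x * Tg μ τ R x)) := by
          ring
      _ ≤ _ := this
  rw [e1] at s4
  obtain ⟨E2, hE2⟩ : ∃ E2, E2 = ∑ A ∈ (univ : Finset ι).powerset,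
    bw (τ * t1) univ A * (Wq μ A * A.card) := ⟨_, rfl⟩
  rw [← hE2] at s5 s6
  obtain ⟨C, hC⟩ : ∃ C, C = (1100 * ((m : ℝ) ^ 2 * L / τ)) := ⟨_, rfl⟩
  obtain ⟨D, hD⟩ : ∃ D, D = 4 * ((15 * τ) ^ m) ^ 2 := ⟨_, rfl⟩
  rw [← hC, ← hD] at s4
  rw [← hC, ← hD]
  have hC0 : 0 ≤ C := by rw [hC]; positivity
  have hD0 : 0 ≤ D := by rw [hD]; positivity
  have hgl : 0 ≤ gL / lam := by positivity
  have hfac : 0 ≤ τ * t1 / (1 - t1) := div_nonneg (by positivity) (by linarith)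
  have t6 : (gL / lam) * (2 * E2 + 2 * t1 * Fintype.card ι * G)
      ≤ G * ((gL / lam) * (2 * (τ * t1 * Fintype.card ι * Real.exp (gL + 1))
        + 2 * t1 * Fintype.card ι)) := by
    calc (gL / lam) * (2 * E2 + 2 * t1 * Fintype.card ι * G)
        ≤ (gL / lam) * (2 * (τ * t1 * Fintype.card ι * Real.exp (gL + 1) * G)
          + 2 * t1 * Fintype.card ι * G) := by
          apply mul_le_mul_of_nonneg_left _ hgl; linarith
      _ = _ := by ring
  have t5 := mul_le_mul_of_nonneg_left (s5.trans t6) hC0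
  have t7 := mul_le_mul_of_nonneg_left e3 hD0
  have t8 := mul_le_mul_of_nonneg_left (s4.trans (add_le_add t5 t7)) hfac
  have t9 : G * Real.log G ≤ G * (gL * θ ^ m * Fintype.card ι
      + (τ * t1 / (1 - t1)) * (C * ((gL / lam) *
        (2 * (τ * t1 * Fintype.card ι * Real.exp (gL + 1)) + 2 * t1 * Fintype.card ι))
        + D * Fintype.card ι)) := by
    calc G * Real.log G ≤ _ := s1
      _ ≤ _ := s2
      _ ≤ (τ * t1 / (1 - t1)) * (C * (G * ((gL / lam) *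
            (2 * (τ * t1 * Fintype.card ι * Real.exp (gL + 1)) + 2 * t1 * Fintype.card ι)))
            + D * (Fintype.card ι * G)) + gL * θ ^ m * Fintype.card ι * G := by
          linarith
      _ = _ := by ring
  exact le_of_mul_le_mul_left t9 hG0

/-- **The core inequality.** -/
theorem core (h : IsProb μ) {τ t t1 θ lam gL L : ℝ} {m : ℕ} (ht : t = τ * t1) (h0 : 0 < τ)
    (hm : 1 ≤ m) (hmτ : 16 * m * τ ≤ 1) (ht0 : 0 ≤ t1) (ht1 : t1 ≤ 1 / 2) (hθ : 0 < θ)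
    (hlam : 0 < lam) (hgL : 0 ≤ gL) (hL : 1 ≤ L) (hbig : gL + 1 ≤ Real.log (θ / τ))
    (hP : PinBound μ lam gL) (hat : AtomBound μ L) :
    Real.log (Gt μ t) ≤ gL * θ ^ m * Fintype.card ι
      + 8 * t * Fintype.card ι * ((15 * τ) ^ m) ^ 2
      + 4400 * m ^ 2 * L * (gL / lam) * t1 * Fintype.card ι *
        (t * Real.exp (gL + 1) + t1) := by
  have hraw := core_raw h h0 hm hmτ ht0 ht1 hθ hlam hgL hL hbig hP hat
  rw [ht]
  refine hraw.trans ?_
  have hinv : 1 / (1 - t1) ≤ 2 := by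
    rw [div_le_iff₀ (by linarith)]; linarith
  have hX : 0 ≤ (1100 * (m ^ 2 * L / τ)) * ((gL / lam) *
        (2 * (τ * t1 * Fintype.card ι * Real.exp (gL + 1)) + 2 * t1 * Fintype.card ι))
        + 4 * ((15 * τ) ^ m) ^ 2 * Fintype.card ι := by positivity
  have h2 : τ * t1 / (1 - t1) ≤ 2 * (τ * t1) := by
    rw [div_eq_mul_one_div]
    have := mul_le_mul_of_nonneg_left hinv (show 0 ≤ τ * t1 by positivity)
    linarith
  have h3 := mul_le_mul_of_nonneg_right h2 hX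
  have h4 : 2 * (τ * t1) * ((1100 * (m ^ 2 * L / τ)) * ((gL / lam) *
        (2 * (τ * t1 * Fintype.card ι * Real.exp (gL + 1)) + 2 * t1 * Fintype.card ι))
        + 4 * ((15 * τ) ^ m) ^ 2 * Fintype.card ι)
      = 8 * (τ * t1) * Fintype.card ι * ((15 * τ) ^ m) ^ 2
      + 4400 * m ^ 2 * L * (gL / lam) * t1 * Fintype.card ι *
        (τ * t1 * Real.exp (gL + 1) + t1) := by
    field_simp; ring
  rw [h4] at h3
  linarith

end

end Vale.Agent.P042.H779
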