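import Vale.Agent.P042.H779.AbCore
import Vale.Agent.P042.H779.Core

/-! The densities of a law relative to arbitrary reference weights form a family; product rates
with truncation. -/

namespace Vale.Agent.P042.H779.Ab

open Finset

set_option linter.unusedSectionVars false

section
variable {ι : Type*} [Fintype ι] [DecidableEq ι] {V : ι → Type*} [∀ i, Fintype (V i)]
  [∀ i, DecidableEq (V i)] {w : ∀ i, V i → ℝ} {μ : (∀ i, V i) → ℝ} {ok : Finset ι → Prop}

/-- density of the `R`-marginal of `μ` relative to the product of the weights -/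
noncomputable def gdw (w : ∀ i, V i → ℝ) (μ : (∀ i, V i) → ℝ) (R : Finset ι) (x : ∀ i, V i) : ℝ :=
  marg μ R x / ∏ i ∈ R, w i (x i)

lemma gdw_m1 (μ : (∀ i, V i) → ℝ) : gdw (m1 μ) μ = gd μ := rfl

lemma marg_eq_zero_of_w (h : IsProb μ) (hac : ∀ i a, w i a = 0 → m1 μ i a = 0) {R : Finset ι}
    {i : ι} (hi : i ∈ R) {x : ∀ i, V i} (hx : w i (x i) = 0) : marg μ R x = 0 :=
  le_antisymm ((marg_le_m1 h hi x).trans (hac i _ hx).le) (marg_nonneg h R x)

lemma prod_w_pos_of_marg (h : IsProb μ) (hw0 : ∀ i a, 0 ≤ w i a)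
    (hac : ∀ i a, w i a = 0 → m1 μ i a = 0) {R : Finset ι}
    {x : ∀ i, V i} (hx : 0 < marg μ R x) : 0 < ∏ i ∈ R, w i (x i) := by
  refine prod_pos fun i hi => lt_of_le_of_ne (hw0 i _) fun h0 => ?_
  exact hx.ne' (marg_eq_zero_of_w h hac hi h0.symm)

lemma gdw_pos_iff (h : IsProb μ) (hw0 : ∀ i a, 0 ≤ w i a)
    (hac : ∀ i a, w i a = 0 → m1 μ i a = 0) (R : Finset ι) (x : ∀ i, V i) :
    0 < gdw w μ R x ↔ 0 < marg μ R x := by
  constructor
  · intro hx
    rcases (marg_nonneg h R x).lt_or_eq with h1 | h1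
    · exact h1
    · exfalso
      unfold gdw at hx
      rw [← h1] at hx
      simp at hx
  · intro hx
    exact div_pos hx (prod_w_pos_of_marg h hw0 hac hx)

theorem fam_of_law (h : IsProb μ) (hw0 : ∀ i a, 0 ≤ w i a) (hw1 : ∀ i, ∑ a, w i a = 1)
    (hac : ∀ i a, w i a = 0 → m1 μ i a = 0)
    (hok : ∀ R S : Finset ι, R ⊆ S → ok S → ok R) : Fam w (gdw w μ) ok where
  w_nonneg := hw0
  w_sum := hw1
  g_nonneg := fun R x => div_nonneg (marg_nonneg h R x) (prod_nonneg fun i _ => hw0 i _)
  g_empty := fun x => by simp [gdw, marg_empty h]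
  g_upd := by
    intro R i hi x a
    unfold gdw
    rw [marg_update R hi]
    congr 1
    refine prod_congr rfl fun j hj => ?_
    have : j ≠ i := fun h => hi (h ▸ hj)
    simp [this]
  g_avg := by
    intro R i hi _ x
    have h1 : ∀ a, w i a * gdw w μ (insert i R) (Function.update x i a)
        = marg μ (insert i R) (Function.update x i a) / ∏ j ∈ R, w j (x j) := by
      intro a
      unfold gdw
      rw [prod_insert hi]
      have h3 : ∏ j ∈ R, w j (Function.update x i a j) = ∏ j ∈ R, w j (x j) := by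
        refine prod_congr rfl fun j hj => ?_
        have : j ≠ i := fun h => hi (h ▸ hj)
        simp [this]
      rw [h3]
      simp only [Function.update_self]
      by_cases h0 : w i a = 0
      · have : marg μ (insert i R) (Function.update x i a) = 0 :=
          marg_eq_zero_of_w h hac (mem_insert_self i R) (by simpa using h0)
        simp [h0, this]
      · rw [mul_div_assoc', mul_div_mul_left _ _ h0]
    simp only [h1]
    rw [← sum_div, marg_insert_sum R hi]
    rfl
  g_pos := by
    intro R S hRS _ x hx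
    rw [gdw_pos_iff h hw0 hac] at hx ⊢
    exact lt_of_lt_of_le hx (marg_anti h hRS x)
  ok_down := hok

/-- the family of a law relative to its own marginals -/
theorem fam_own (h : IsProb μ) (hok : ∀ R S : Finset ι, R ⊆ S → ok S → ok R) :
    Fam (m1 μ) (gd μ) ok :=
  fam_of_law h (m1_nonneg h) (m1_sum h) (fun _ _ h0 => h0) hok

end

section
variable {ι : Type*} [Fintype ι] [DecidableEq ι] {ok : Finset ι → Prop}

/-- Bernoulli weights with rates `s`, truncated to `ok` sets -/
noncomputable def rw' (s : ι → ℝ) (ok : Finset ι → Prop) [DecidablePred ok] (R : Finset ι) : ℝ :=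
  if ok R then (∏ i ∈ R, s i) * ∏ i ∈ univ \ R, (1 - s i) else 0

theorem wt_rw' (s : ι → ℝ) (hs0 : ∀ i, 0 ≤ s i) (hs1 : ∀ i, s i ≤ 1) [DecidablePred ok] :
    Wt ok (rw' s ok) where
  nonneg := by
    intro R
    unfold rw'
    split_ifs
    · exact mul_nonneg (prod_nonneg fun i _ => hs0 i) (prod_nonneg fun i _ => by linarith [hs1 i])
    · exact le_rfl
  okb := by
    intro R hR
    by_contra hc
    exact hR (by unfold rw'; rw [if_neg hc])
  sum_le := by
    have h1 : ∑ R ∈ (univ : Finset ι).powerset, (∏ i ∈ R, s i) * ∏ i ∈ univ \ R, (1 - s i) = 1 := by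
      rw [← Finset.prod_add]
      simp
    rw [← h1]
    refine sum_le_sum fun R _ => ?_
    unfold rw'
    split_ifs
    · exact le_rfl
    · exact mul_nonneg (prod_nonneg fun i _ => hs0 i) (prod_nonneg fun i _ => by linarith [hs1 i])

/-- the insertion rate of the truncated Bernoulli weights -/
theorem rw'_insert_le (s : ι → ℝ) (hs0 : ∀ i, 0 ≤ s i) (hs1 : ∀ i, s i ≤ 1 / 2)
    [DecidablePred ok] (hok : ∀ R S : Finset ι, R ⊆ S → ok S → ok R) {R : Finset ι} {i : ι}
    (hi : i ∉ R) : rw' s ok (insert i R) ≤ 2 * s i * rw' s ok R := by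
  unfold rw'
  by_cases h1 : ok (insert i R)
  · rw [if_pos h1, if_pos (hok _ _ (subset_insert _ _) h1), prod_insert hi]
    have h2 : ∏ j ∈ univ \ R, (1 - s j) = (1 - s i) * ∏ j ∈ univ \ insert i R, (1 - s j) := by
      have : univ \ R = insert i (univ \ insert i R) := by
        ext j
        simp only [mem_sdiff, mem_univ, true_and, mem_insert, not_or]
        constructor
        · intro hj
          by_cases hji : j = i
          · exact Or.inl hji
          · exact Or.inr ⟨hji, hj⟩
        · rintro (rfl | ⟨_, hj⟩)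
          · exact hi
          · exact hj
      rw [this, prod_insert (by simp)]
    rw [h2]
    have hP : 0 ≤ ∏ j ∈ R, s j := prod_nonneg fun j _ => hs0 j
    have hQ : 0 ≤ ∏ j ∈ univ \ insert i R, (1 - s j) :=
      prod_nonneg fun j _ => by linarith [hs1 j]
    have hh := hs1 i
    have h3 : 0 ≤ s i * (∏ j ∈ R, s j) * ∏ j ∈ univ \ insert i R, (1 - s j) :=
      mul_nonneg (mul_nonneg (hs0 i) hP) hQ
    nlinarith
  · rw [if_neg h1]
    split_ifs
    · have := hs0 i
      have h2 : 0 ≤ (∏ j ∈ R, s j) * ∏ j ∈ univ \ R, (1 - s j) :=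
        mul_nonneg (prod_nonneg fun j _ => hs0 j) (prod_nonneg fun j _ => by linarith [hs1 j])
      positivity
    · simp

end

end Vale.Agent.P042.H779.Ab
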