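import Vale.Agent.P042.H779.Basic
import Vale.Agent.P042.H779.Star5

/-! Posterior law of the planted set and its replicas. -/

namespace Vale.Agent.P042.H779

open Finset

section
variable {ι : Type*} [Fintype ι] [DecidableEq ι] {V : ι → Type*} [∀ i, Fintype (V i)]
  [∀ i, DecidableEq (V i)] {μ : (∀ i, V i) → ℝ}

/-- Bernoulli weight of `A` inside `R`. -/
noncomputable def bw (τ : ℝ) (R A : Finset ι) : ℝ := τ ^ A.card * (1 - τ) ^ (R \ A).card

/-- Noise average of the densities. -/
noncomputable def Tg (μ : (∀ i, V i) → ℝ) (τ : ℝ) (R : Finset ι) (x : ∀ i, V i) : ℝ :=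
  ∑ A ∈ R.powerset, bw τ R A * gd μ A x

/-- Posterior law. -/
noncomputable def post (μ : (∀ i, V i) → ℝ) (τ : ℝ) (R : Finset ι) (x : ∀ i, V i)
    (A : Finset ι) : ℝ := bw τ R A * gd μ A x / Tg μ τ R x

/-- common intersection of the replicas -/
def inter {m : ℕ} (α : Fin m → Finset ι) : Finset ι := univ.filter fun i => ∀ j, i ∈ α j

/-- law of the core -/
noncomputable def qc (μ : (∀ i, V i) → ℝ) (τ : ℝ) (m : ℕ) (M A R : Finset ι)
    (x : ∀ i, V i) : ℝ :=
  ∑ α ∈ reps m R.powerset, (∏ j, post μ τ R x (α j)) * (if A ∩ inter α = M then 1 else 0)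

omit [Fintype ι] in
lemma bw_pos {τ : ℝ} (h0 : 0 < τ) (h1 : τ < 1) (R A : Finset ι) : 0 < bw τ R A := by
  unfold bw; have : 0 < 1 - τ := by linarith
  positivity

omit [Fintype ι] in
lemma bw_sum (τ : ℝ) (R : Finset ι) : ∑ A ∈ R.powerset, bw τ R A = 1 := by
  unfold bw
  have := Finset.prod_add (fun _ : ι => τ) (fun _ => 1 - τ) R
  simp only [prod_const, add_sub_cancel, one_pow] at this
  exact this.symm

lemma Tg_pos (h : IsProb μ) {τ : ℝ} (h0 : 0 < τ) (h1 : τ < 1) (R : Finset ι) (x : ∀ i, V i) :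
    0 < Tg μ τ R x := by
  unfold Tg
  have hle : bw τ R ∅ * gd μ ∅ x ≤ ∑ A ∈ R.powerset, bw τ R A * gd μ A x :=
    single_le_sum (f := fun A => bw τ R A * gd μ A x)
      (fun A _ => mul_nonneg (bw_pos h0 h1 R A).le (gd_nonneg h A x)) (empty_mem_powerset R)
  have : 0 < bw τ R ∅ * gd μ ∅ x := by rw [gd_empty h, mul_one]; exact bw_pos h0 h1 R ∅
  linarith

lemma post_nonneg (h : IsProb μ) {τ : ℝ} (h0 : 0 < τ) (h1 : τ < 1) (R : Finset ι)
    (x : ∀ i, V i) (A : Finset ι) : 0 ≤ post μ τ R x A :=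
  div_nonneg (mul_nonneg (bw_pos h0 h1 R A).le (gd_nonneg h A x)) (Tg_pos h h0 h1 R x).le

lemma post_pos (h : IsProb μ) {τ : ℝ} (h0 : 0 < τ) (h1 : τ < 1) {R : Finset ι}
    {x : ∀ i, V i} {A : Finset ι} (hA : 0 < gd μ A x) : 0 < post μ τ R x A :=
  div_pos (mul_pos (bw_pos h0 h1 R A) hA) (Tg_pos h h0 h1 R x)

lemma post_sum (h : IsProb μ) {τ : ℝ} (h0 : 0 < τ) (h1 : τ < 1) (R : Finset ι)
    (x : ∀ i, V i) : ∑ A ∈ R.powerset, post μ τ R x A = 1 := by
  unfold post
  rw [← sum_div]
  exact div_self (Tg_pos h h0 h1 R x).ne'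

lemma Tg_mul_post (h : IsProb μ) {τ : ℝ} (h0 : 0 < τ) (h1 : τ < 1) (R : Finset ι)
    (x : ∀ i, V i) (A : Finset ι) : Tg μ τ R x * post μ τ R x A = bw τ R A * gd μ A x := by
  unfold post
  rw [mul_div_cancel₀ _ (Tg_pos h h0 h1 R x).ne']

lemma indep_Tg {τ : ℝ} (R : Finset ι) {i : ι} (hi : i ∉ R) : Indep i (Tg μ τ R) := by
  intro x a
  unfold Tg
  refine sum_congr rfl fun A hA => ?_
  rw [gd_update A (fun hc => hi (mem_powerset.mp hA hc))]

lemma indep_post {τ : ℝ} (R A : Finset ι) (hA : A ⊆ R) {i : ι} (hi : i ∉ R) :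
    Indep i (fun x => post μ τ R x A) := by
  intro x a
  simp only [post]
  rw [gd_update A (fun hc => hi (hA hc)), indep_Tg R hi x a]

lemma indep_qc {τ : ℝ} {m : ℕ} (M A R : Finset ι) {i : ι} (hi : i ∉ R) :
    Indep i (qc μ τ m M A R) := by
  intro x a
  unfold qc
  refine sum_congr rfl fun α hα => ?_
  rw [mem_reps] at hα
  congr 1
  refine prod_congr rfl fun j _ => ?_
  exact indep_post R (α j) (mem_powerset.mp (hα j)) hi x a

lemma qc_nonneg (h : IsProb μ) {τ : ℝ} (h0 : 0 < τ) (h1 : τ < 1) {m : ℕ} (M A R : Finset ι)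
    (x : ∀ i, V i) : 0 ≤ qc μ τ m M A R x := by
  unfold qc
  refine sum_nonneg fun α _ => mul_nonneg (prod_nonneg fun j _ => post_nonneg h h0 h1 _ _ _) ?_
  split_ifs <;> norm_num

lemma qc_pos (h : IsProb μ) {τ : ℝ} (h0 : 0 < τ) (h1 : τ < 1) {m : ℕ} (hm : 1 ≤ m)
    {M A R : Finset ι} (hMA : M ⊆ A) (hAR : A ⊆ R) {x : ∀ i, V i} (hx : 0 < gd μ R x) :
    0 < qc μ τ m M A R x := by
  unfold qc
  have hmem : (fun _ : Fin m => M) ∈ reps m R.powerset := by
    rw [mem_reps]; intro _; exact mem_powerset.mpr (hMA.trans hAR)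
  have hle := single_le_sum (f := fun α : Fin m → Finset ι => (∏ j, post μ τ R x (α j)) *
    (if A ∩ inter α = M then (1 : ℝ) else 0)) (s := reps m R.powerset)
    (fun α _ => mul_nonneg (prod_nonneg fun j _ => post_nonneg h h0 h1 _ _ _)
      (by split_ifs <;> norm_num)) hmem
  refine lt_of_lt_of_le ?_ hle
  have hint : inter (fun _ : Fin m => M) = M := by
    ext i
    simp only [inter, mem_filter, mem_univ, true_and]
    exact ⟨fun hi => hi ⟨0, hm⟩, fun hi _ => hi⟩
  have : A ∩ inter (fun _ : Fin m => M) = M := by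
    rw [hint]; exact inter_eq_right.mpr hMA
  simp only [this, if_true, mul_one]
  exact prod_pos fun _ _ => post_pos h h0 h1 (gd_pos_mono h (hMA.trans hAR) hx)

omit [Fintype ι] in
/-- Resummation over the replicas containing or not containing a new point. -/
lemma sum_reps_insert {m : ℕ} (R : Finset ι) {i : ι} (hi : i ∉ R)
    (H : (Fin m → Finset ι) → ℝ) (f : Finset ι → ℝ) :
    ∑ α ∈ reps m (insert i R).powerset, H (fun j => (α j).erase i) * ∏ j, f (α j)
      = ∑ α ∈ reps m R.powerset, H α * ∏ j, (f (α j) + f (insert i (α j))) := by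
  have hmaps : ∀ α ∈ reps m (insert i R).powerset, (fun j => (α j).erase i) ∈
      reps m R.powerset := by
    intro α hα
    rw [mem_reps] at hα ⊢
    intro j
    have := mem_powerset.mp (hα j)
    rw [mem_powerset]
    exact subset_insert_iff.mp this
  rw [← sum_fiberwise_of_maps_to hmaps]
  refine sum_congr rfl fun α hα => ?_
  rw [mem_reps] at hα
  have hiα : ∀ j, i ∉ α j := fun j hc => hi (mem_powerset.mp (hα j) hc)
  have hfib : (reps m (insert i R).powerset).filter (fun β => (fun j => (β j).erase i) = α)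
      = Fintype.piFinset (fun j => ({α j, insert i (α j)} : Finset (Finset ι))) := by
    ext β
    simp only [mem_filter, Fintype.mem_piFinset, mem_insert, mem_singleton]
    constructor
    · rintro ⟨_, h2⟩ j
      have h3 : (β j).erase i = α j := congrFun h2 j
      by_cases hij : i ∈ β j
      · right; rw [← h3, insert_erase hij]
      · left; rw [← h3, erase_eq_of_notMem hij]
    · intro h2
      refine ⟨fun j => ?_, funext fun j => ?_⟩
      · rw [mem_powerset]
        rcases h2 j with h3 | h3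
        · rw [h3]; exact (mem_powerset.mp (hα j)).trans (subset_insert _ _)
        · rw [h3]; exact insert_subset_insert _ (mem_powerset.mp (hα j))
      · rcases h2 j with h3 | h3
        · rw [h3]; exact erase_eq_of_notMem (hiα j)
        · rw [h3]; exact erase_insert (hiα j)
  rw [hfib]
  have h1 : ∀ β ∈ Fintype.piFinset (fun j => ({α j, insert i (α j)} : Finset (Finset ι))),
      H (fun j => (β j).erase i) * ∏ j, f (β j) = H α * ∏ j, f (β j) := by
    intro β hβ
    rw [← hfib, mem_filter] at hβ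
    rw [hβ.2]
  rw [sum_congr rfl h1, ← mul_sum]
  congr 1
  rw [← Finset.prod_univ_sum]
  refine prod_congr rfl fun j _ => ?_
  rw [sum_pair]
  intro hc
  exact hiα j (by rw [hc]; exact mem_insert_self _ _)

/-- ratio of consecutive densities -/
noncomputable def rt (μ : (∀ i, V i) → ℝ) (i : ι) (x : ∀ i, V i) (A : Finset ι) : ℝ :=
  gd μ (insert i A) x / gd μ A x

lemma rt_nonneg (h : IsProb μ) (i : ι) (x : ∀ i, V i) (A : Finset ι) : 0 ≤ rt μ i x A :=
  div_nonneg (gd_nonneg h _ _) (gd_nonneg h _ _)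

/-- posterior mean of the ratio -/
noncomputable def rbar (μ : (∀ i, V i) → ℝ) (τ : ℝ) (i : ι) (x : ∀ i, V i) (R : Finset ι) : ℝ :=
  ∑ A ∈ R.powerset, post μ τ R x A * rt μ i x A

lemma rbar_nonneg (h : IsProb μ) {τ : ℝ} (h0 : 0 < τ) (h1 : τ < 1) (i : ι) (x : ∀ i, V i)
    (R : Finset ι) : 0 ≤ rbar μ τ i x R :=
  sum_nonneg fun A _ => mul_nonneg (post_nonneg h h0 h1 R x A) (rt_nonneg h i x A)

omit [Fintype ι] in
lemma bw_insert_left {τ : ℝ} {R A : Finset ι} (hA : A ⊆ R) {i : ι} (hi : i ∉ R) :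
    bw τ (insert i R) A = (1 - τ) * bw τ R A := by
  unfold bw
  have hiA : i ∉ A := fun hc => hi (hA hc)
  rw [insert_sdiff_of_notMem _ hiA, card_insert_of_notMem (by simp [hi]), pow_succ]
  ring

omit [Fintype ι] in
lemma bw_insert_both {τ : ℝ} {R A : Finset ι} (hA : A ⊆ R) {i : ι} (hi : i ∉ R) :
    bw τ (insert i R) (insert i A) = τ * bw τ R A := by
  unfold bw
  have hiA : i ∉ A := fun hc => hi (hA hc)
  have : insert i R \ insert i A = R \ A := by
    ext j
    simp only [mem_sdiff, mem_insert, not_or]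
    constructor
    · rintro ⟨h1 | h1, h2, h3⟩
      · exact absurd h1 h2
      · exact ⟨h1, h3⟩
    · rintro ⟨h1, h2⟩
      exact ⟨Or.inr h1, fun hc => hi (hc ▸ h1), h2⟩
  rw [this, card_insert_of_notMem hiA, pow_succ]
  ring

lemma Tg_insert (h : IsProb μ) {τ : ℝ} (h0 : 0 < τ) (h1 : τ < 1) {R : Finset ι} {i : ι}
    (hi : i ∉ R) {x : ∀ i, V i} (hx : 0 < gd μ R x) :
    Tg μ τ (insert i R) x = Tg μ τ R x * (1 - τ + τ * rbar μ τ i x R) := by
  have hT := Tg_pos h h0 h1 R x
  have e1 : Tg μ τ (insert i R) x = ∑ A ∈ R.powerset, ((1 - τ) * (bw τ R A * gd μ A x)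
      + τ * (bw τ R A * gd μ (insert i A) x)) := by
    unfold Tg
    rw [sum_powerset_insert hi, sum_add_distrib]
    congr 1
    · refine sum_congr rfl fun A hA => ?_
      rw [bw_insert_left (mem_powerset.mp hA) hi]; ring
    · refine sum_congr rfl fun A hA => ?_
      rw [bw_insert_both (mem_powerset.mp hA) hi]; ring
  have e2 : Tg μ τ R x * rbar μ τ i x R = ∑ A ∈ R.powerset, bw τ R A * gd μ (insert i A) x := by
    unfold rbar
    rw [mul_sum]
    refine sum_congr rfl fun A hA => ?_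
    have hA' : 0 < gd μ A x := gd_pos_mono h (mem_powerset.mp hA) hx
    rw [← mul_assoc, Tg_mul_post h h0 h1, rt]
    field_simp
  rw [e1, sum_add_distrib, ← mul_sum, ← mul_sum, ← e2]
  unfold Tg
  ring

/-- exact ratio of the core laws (step 4) -/
lemma qc_insert (h : IsProb μ) {τ : ℝ} (h0 : 0 < τ) (h1 : τ < 1) {m : ℕ}
    {M A R : Finset ι} (hMA : M ⊆ A) (hAR : A ⊆ R) {i : ι} (hi : i ∉ R) {x : ∀ i, V i}
    (hx : 0 < gd μ R x) :
    qc μ τ m M (insert i A) (insert i R) x
      = ∑ α ∈ reps m R.powerset, (∏ j, post μ τ R x (α j)) *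
        ((if A ∩ inter α = M then 1 else 0) *
          PiQ τ (rbar μ τ i x R) (fun j => rt μ i x (α j))) := by
  have hT := Tg_pos h h0 h1 R x
  have hrb := rbar_nonneg h h0 h1 i x R
  have hη : 0 < 1 - τ + τ * rbar μ τ i x R := by nlinarith [mul_nonneg h0.le hrb]
  have hiA : i ∉ A := fun hc => hi (hAR hc)
  have hiM : i ∉ M := fun hc => hiA (hMA hc)
  have hp1 : ∀ B ⊆ R, post μ τ (insert i R) x B
      = post μ τ R x B * (1 - τ) / (1 - τ + τ * rbar μ τ i x R) := by
    intro B hB
    unfold post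
    rw [Tg_insert h h0 h1 hi hx, bw_insert_left hB hi]
    field_simp
  have hp2 : ∀ B ⊆ R, post μ τ (insert i R) x (insert i B)
      = post μ τ R x B * (τ * rt μ i x B) / (1 - τ + τ * rbar μ τ i x R) := by
    intro B hB
    have hB' : 0 < gd μ B x := gd_pos_mono h hB hx
    unfold post rt
    rw [Tg_insert h h0 h1 hi hx, bw_insert_both hB hi]
    field_simp
  -- the indicator
  have hind : ∀ α : Fin m → Finset ι, (if insert i A ∩ inter α = M then (1 : ℝ) else 0)
      = (if A ∩ inter (fun j => (α j).erase i) = M then 1 else 0)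
        - (if A ∩ inter (fun j => (α j).erase i) = M then 1 else 0) *
          ∏ j, (if i ∈ α j then (1 : ℝ) else 0) := by
    intro α
    have h2 : A ∩ inter (fun j => (α j).erase i) = A ∩ inter α := by
      ext j
      simp only [inter, mem_inter, mem_filter, mem_univ, true_and, mem_erase]
      constructor
      · rintro ⟨h3, h4⟩; exact ⟨h3, fun k => (h4 k).2⟩
      · rintro ⟨h3, h4⟩
        exact ⟨h3, fun k => ⟨fun hc => hiA (hc ▸ h3), h4 k⟩⟩
    rw [h2]
    by_cases hall : ∀ j, i ∈ α j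
    · have h3 : ∏ j, (if i ∈ α j then (1 : ℝ) else 0) = 1 :=
        prod_eq_one fun j _ => by simp [hall j]
      rw [h3]
      have h4 : insert i A ∩ inter α ≠ M := by
        intro hc
        apply hiM
        rw [← hc, mem_inter]
        exact ⟨mem_insert_self _ _, by simp [inter, hall]⟩
      simp [h4]
    · have h3 : ∏ j, (if i ∈ α j then (1 : ℝ) else 0) = 0 := by
        push Not at hall
        obtain ⟨j, hj⟩ := hall
        exact prod_eq_zero (mem_univ j) (by simp [hj])
      rw [h3]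
      have h4 : insert i A ∩ inter α = A ∩ inter α := by
        ext j
        simp only [inter, mem_inter, mem_filter, mem_univ, true_and, mem_insert]
        constructor
        · rintro ⟨h5 | h5, h6⟩
          · subst h5; exact absurd h6 hall
          · exact ⟨h5, h6⟩
        · rintro ⟨h5, h6⟩; exact ⟨Or.inr h5, h6⟩
      rw [h4]; simp
  unfold qc
  have e1 : ∀ α ∈ reps m (insert i R).powerset, (∏ j, post μ τ (insert i R) x (α j)) *
      (if insert i A ∩ inter α = M then (1 : ℝ) else 0)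
      = (if A ∩ inter (fun j => (α j).erase i) = M then 1 else 0) *
          ∏ j, post μ τ (insert i R) x (α j)
        - (if A ∩ inter (fun j => (α j).erase i) = M then 1 else 0) *
          ∏ j, (post μ τ (insert i R) x (α j) * (if i ∈ α j then (1 : ℝ) else 0)) := by
    intro α _
    rw [hind α, prod_mul_distrib]; ring
  rw [sum_congr rfl e1, sum_sub_distrib,
    sum_reps_insert R hi (fun β => if A ∩ inter β = M then (1 : ℝ) else 0)
      (fun B => post μ τ (insert i R) x B),
    sum_reps_insert R hi (fun β => if A ∩ inter β = M then (1 : ℝ) else 0)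
      (fun B => post μ τ (insert i R) x B * (if i ∈ B then (1 : ℝ) else 0)),
    ← sum_sub_distrib]
  refine sum_congr rfl fun α hα => ?_
  rw [mem_reps] at hα
  have hαR : ∀ j, α j ⊆ R := fun j => mem_powerset.mp (hα j)
  have hiα : ∀ j, i ∉ α j := fun j hc => hi (hαR j hc)
  have f1 : ∏ j, (post μ τ (insert i R) x (α j) + post μ τ (insert i R) x (insert i (α j)))
      = (∏ j, post μ τ R x (α j)) * ((∏ j, (1 - τ + τ * rt μ i x (α j))) /
        (1 - τ + τ * rbar μ τ i x R) ^ m) := by
    have : ∀ j, post μ τ (insert i R) x (α j) + post μ τ (insert i R) x (insert i (α j))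
        = post μ τ R x (α j) * ((1 - τ + τ * rt μ i x (α j)) /
          (1 - τ + τ * rbar μ τ i x R)) := by
      intro j
      rw [hp1 _ (hαR j), hp2 _ (hαR j)]; ring
    rw [prod_congr rfl fun j _ => this j, prod_mul_distrib, prod_div_distrib]
    simp
  have f2 : ∏ j, (post μ τ (insert i R) x (α j) * (if i ∈ α j then (1 : ℝ) else 0)
        + post μ τ (insert i R) x (insert i (α j)) * (if i ∈ insert i (α j) then (1 : ℝ) else 0))
      = (∏ j, post μ τ R x (α j)) * ((∏ j, (τ * rt μ i x (α j))) /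
        (1 - τ + τ * rbar μ τ i x R) ^ m) := by
    have : ∀ j, post μ τ (insert i R) x (α j) * (if i ∈ α j then (1 : ℝ) else 0)
        + post μ τ (insert i R) x (insert i (α j)) * (if i ∈ insert i (α j) then (1 : ℝ) else 0)
        = post μ τ R x (α j) * ((τ * rt μ i x (α j)) /
          (1 - τ + τ * rbar μ τ i x R)) := by
      intro j
      rw [if_neg (hiα j), if_pos (mem_insert_self _ _), hp2 _ (hαR j)]; ring
    rw [prod_congr rfl fun j _ => this j, prod_mul_distrib, prod_div_distrib]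
    simp
  rw [f1, f2]
  unfold PiQ
  rw [sub_div]
  ring

end

end Vale.Agent.P042.H779
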