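import Vale.Agent.P042.H482.Mix

/-! Mixing a measure of mass at most `κ` with `κ` times the product of the reference weights:
the resulting law has densities bounded below, and satisfies the exponential pin inequality with
the costs of the measure. The measure is `m` times the law `μ`, `0 < m ≤ κ`. -/

namespace Vale.Agent.P042.H779.Ab.A2

open Finset Vale.Agent.P042.H779.Ab Vale.Agent.P042.H482
open Vale.Agent.P042.H779 (marg m1 IsProb marg_nonneg marg_congr marg_anti marg_empty phi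
  phi_nonneg)

set_option linter.unusedSectionVars false

section
variable {ι : Type*} [Fintype ι] [DecidableEq ι] {V : ι → Type*} [∀ i, Fintype (V i)]
  [∀ i, DecidableEq (V i)] {w w2 : ∀ i, V i → ℝ} {μ : (∀ i, V i) → ℝ}

/-- the weight of the product law -/
noncomputable def ee (m κ : ℝ) : ℝ := κ / (m + κ)

variable {m κ : ℝ}

lemma ee_pos (hm : 0 < m) (hk : m ≤ κ) : 0 < ee m κ := by
  unfold ee
  have : 0 < κ := by linarith
  positivity

lemma ee_le (hm : 0 < m) (hk : m ≤ κ) : ee m κ ≤ 1 := by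
  unfold ee
  rw [div_le_one (by linarith)]
  linarith

lemma one_sub_ee (hm : 0 < m) (hk : m ≤ κ) : 1 - ee m κ = m / (m + κ) := by
  unfold ee
  have : m + κ ≠ 0 := by linarith
  field_simp
  ring

/-- the mixture -/
noncomputable def mm (m κ : ℝ) (w : ∀ i, V i → ℝ) (μ : (∀ i, V i) → ℝ) : (∀ i, V i) → ℝ :=
  mix (ee m κ) w μ

theorem ref_mm (H : Ref w μ) (hm : 0 < m) (hk : m ≤ κ) : Ref w (mm m κ w μ) :=
  ref_mix H (ee_pos hm hk).le (ee_le hm hk)

lemma gdw_mm (H : Ref w μ) (hm : 0 < m) (hk : m ≤ κ) {P : Finset ι} {x : ∀ i, V i}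
    (hx : 0 < ∏ i ∈ P, w i (x i)) :
    gdw w (mm m κ w μ) P x = (m * gdw w μ P x + κ) / (m + κ) := by
  unfold mm
  rw [gdw_mix H hx, one_sub_ee hm hk]
  unfold ee
  have : m + κ ≠ 0 := by linarith
  field_simp

/-- the densities of the measure are dominated by those of the mixture -/
lemma le_gdw_mm (H : Ref w μ) (hm : 0 < m) (hk : m ≤ κ) {P : Finset ι} {x : ∀ i, V i}
    (hx : 0 < ∏ i ∈ P, w i (x i)) :
    m * gdw w μ P x ≤ 2 * κ * gdw w (mm m κ w μ) P x := by
  rw [gdw_mm H hm hk hx]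
  have h0 : 0 ≤ gdw w μ P x := H.famT.g_nonneg P x
  have h1 : 0 < m + κ := by linarith
  have h2 : 0 ≤ m * gdw w μ P x := mul_nonneg hm.le h0
  rw [mul_div_assoc', le_div_iff₀ h1]
  nlinarith

/-- second moments of the measure -/
lemma wq_mm (H : Ref w μ) (hm : 0 < m) (hk : m ≤ κ) (T : Finset ι) :
    m ^ 2 * Wq w (gdw w μ) T ≤ 4 * κ ^ 2 * Wq w (gdw w (mm m κ w μ)) T := by
  unfold Wq
  rw [mul_sum, mul_sum]
  refine sum_le_sum fun x _ => ?_
  rcases (pw_nonneg H.famT x).eq_or_lt with hx | hx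
  · rw [← hx]; simp
  have hPx : 0 < ∏ i ∈ T, w i (x i) := by
    refine prod_pos fun i _ => lt_of_le_of_ne (H.w_nonneg i _) fun h0 => ?_
    have : pw w x = 0 := prod_eq_zero (mem_univ i) h0.symm
    exact hx.ne' this
  have h1 := le_gdw_mm H hm hk hPx
  have h0 : 0 ≤ m * gdw w μ T x := mul_nonneg hm.le (H.famT.g_nonneg T x)
  have h2 := pow_le_pow_left₀ h0 h1 2
  have h3 := mul_le_mul_of_nonneg_left h2 hx.le
  calc m ^ 2 * (pw w x * gdw w μ T x ^ 2) = pw w x * (m * gdw w μ T x) ^ 2 := by ring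
    _ ≤ pw w x * (2 * κ * gdw w (mm m κ w μ) T x) ^ 2 := h3
    _ = _ := by ring

variable {lamf α A : ι → ℝ} {a del B0 : ℝ}

/-- **the exponential pin inequality of the mixture** -/
theorem pe_mm (H : Ref w μ) (hm : 0 < m) (hk : m ≤ κ)
    (h20 : ∀ i a, 0 ≤ w2 i a) (h21 : ∀ i, ∑ a, w2 i a = 1)
    (h2ac : ∀ i a, w2 i a = 0 → m1 μ i a = 0)
    (hlam : ∀ i, 0 ≤ lamf i) (hα : ∀ i, 0 ≤ α i) (ha : 0 ≤ a)
    (hdel0 : 0 ≤ del) (hdel : del ≤ 1) (hB : del * B0 ≤ 1) (J P : Finset ι)
    (hB0 : ∀ x, 0 < gdw w μ P x → ∑ j ∈ J \ P, lamf j * Di w (gdw w μ) j P x ≤ B0)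
    (hQ : ∀ x, 0 < gdw w μ P x → del * κ ≤ m * gdw w μ P x →
      ∑ j ∈ J \ P, lamf j * Di w (gdw w μ) j P x
        ≤ ∑ i ∈ P, α i + a - Real.log (m * gdw w2 μ P x / κ)) :
    ∑ x, mm m κ w μ x * Real.exp (∑ j ∈ J \ P, lamf j * Di w (gdw w (mm m κ w μ)) j P x)
      ≤ Real.exp (∑ i ∈ P, α i + a + 2) := by
  have Hm := ref_mm H hm hk
  have hκ : 0 < κ := by linarith
  have he0 := ee_pos hm hk
  have he1 := ee_le hm hk
  have hmk : 0 < m + κ := by linarith
  obtain ⟨F, hF⟩ : ∃ F : (∀ i, V i) → ℝ, F = fun x => ∑ j ∈ J \ P,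
    lamf j * Di w (gdw w μ) j P x := ⟨_, rfl⟩
  have hFloc : Loc P F := by
    intro x y hxy
    rw [hF]
    beta_reduce
    refine sum_congr rfl fun j _ => ?_
    rw [loc_Di j P x y hxy]
  have hF0 : ∀ x, 0 ≤ F x := fun x => by
    rw [hF]
    exact sum_nonneg fun j _ => mul_nonneg (hlam j) (Di_nonneg H.famT _ _ _)
  have hloc : Loc P (fun x => Real.exp (∑ j ∈ J \ P,
      lamf j * Di w (gdw w (mm m κ w μ)) j P x)) := by
    intro x y hxy
    beta_reduce
    congr 1
    refine sum_congr rfl fun j _ => ?_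
    rw [loc_Di j P x y hxy]
  rw [Hm.mu_sum hloc]
  obtain ⟨K', hK'⟩ : ∃ K' : (∀ i, V i) → ℝ, K' = fun x => if 0 < gdw w μ P x ∧
    del * κ ≤ m * gdw w μ P x then Real.exp (F x) else 0 := ⟨_, rfl⟩
  have hK'loc : Loc P K' := by
    intro x y hxy
    rw [hK']
    beta_reduce
    rw [loc_gdw P x y hxy, hFloc x y hxy]
  have hS0 : 0 ≤ ∑ i ∈ P, α i + a := add_nonneg (sum_nonneg fun i _ => hα i) ha
  have hE : 1 ≤ Real.exp (∑ i ∈ P, α i + a) := Real.one_le_exp hS0
  -- pointwise
  have hpt : ∀ x, pw w x * (Real.exp (∑ j ∈ J \ P, lamf j * Di w (gdw w (mm m κ w μ)) j P x)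
      * gdw w (mm m κ w μ) P x)
      ≤ pw w x * ((1 - ee m κ) * (K' x * gdw w μ P x) + 6) := by
    intro x
    rcases (pw_nonneg H.famT x).eq_or_lt with hx | hx
    · rw [← hx]; simp
    refine mul_le_mul_of_nonneg_left ?_ hx.le
    have hPx : 0 < ∏ i ∈ P, w i (x i) := by
      refine prod_pos fun i _ => lt_of_le_of_ne (H.w_nonneg i _) fun h0 => ?_
      have : pw w x = 0 := prod_eq_zero (mem_univ i) h0.symm
      exact hx.ne' this
    have hg0 : 0 ≤ gdw w μ P x := H.famT.g_nonneg P x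
    have hgm : gdw w (mm m κ w μ) P x = (1 - ee m κ) * gdw w μ P x + ee m κ := by
      unfold mm
      rw [gdw_mix H hPx]
    rw [hgm]
    have h1e : 0 ≤ 1 - ee m κ := by linarith
    have hden : 0 < (1 - ee m κ) * gdw w μ P x + ee m κ := by
      have : 0 ≤ (1 - ee m κ) * gdw w μ P x := mul_nonneg h1e hg0
      linarith
    have hFt : ∑ j ∈ J \ P, lamf j * Di w (gdw w (mm m κ w μ)) j P x
        ≤ fr (ee m κ) (gdw w μ P x) * F x := by
      rw [hF]
      beta_reduce
      rw [mul_sum]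
      refine sum_le_sum fun j hj => ?_
      have h1 := Di_mix H he0 he1 (mem_sdiff.mp hj).2 hPx
      have h2 := mul_le_mul_of_nonneg_left h1 (hlam j)
      unfold mm
      refine h2.trans (le_of_eq ?_)
      ring
    have hs0 : 0 ≤ fr (ee m κ) (gdw w μ P x) := by
      unfold fr
      exact div_nonneg (mul_nonneg h1e hg0) hden.le
    have hs1 : fr (ee m κ) (gdw w μ P x) ≤ 1 := by
      unfold fr
      rw [div_le_one hden]
      linarith
    have hfg : fr (ee m κ) (gdw w μ P x) * ((1 - ee m κ) * gdw w μ P x + ee m κ)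
        = (1 - ee m κ) * gdw w μ P x := by
      unfold fr
      field_simp
    by_cases hth : 0 < gdw w μ P x ∧ del * κ ≤ m * gdw w μ P x
    · -- thick
      have hK1 : K' x = Real.exp (F x) := by rw [hK']; beta_reduce; rw [if_pos hth]
      rw [hK1]
      have h1 := convexOn_exp.2 (Set.mem_univ (F x)) (Set.mem_univ 0) hs0
        (by linarith : 0 ≤ 1 - fr (ee m κ) (gdw w μ P x)) (by ring)
      simp only [smul_eq_mul, mul_zero, add_zero, Real.exp_zero, mul_one] at h1
      have h2 := (Real.exp_le_exp.mpr hFt).trans h1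
      have h3 := mul_le_mul_of_nonneg_right h2 hden.le
      have h4 : (fr (ee m κ) (gdw w μ P x) * Real.exp (F x)
          + (1 - fr (ee m κ) (gdw w μ P x))) * ((1 - ee m κ) * gdw w μ P x + ee m κ)
          = (fr (ee m κ) (gdw w μ P x) * ((1 - ee m κ) * gdw w μ P x + ee m κ))
              * Real.exp (F x)
            + (((1 - ee m κ) * gdw w μ P x + ee m κ)
              - fr (ee m κ) (gdw w μ P x) * ((1 - ee m κ) * gdw w μ P x + ee m κ)) := by
        ring
      rw [h4, hfg] at h3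
      refine h3.trans ?_
      have h5 : (1 - ee m κ) * gdw w μ P x * Real.exp (F x)
          = (1 - ee m κ) * (Real.exp (F x) * gdw w μ P x) := by ring
      rw [h5]
      linarith
    · -- thin
      have hK1 : K' x = 0 := by rw [hK']; beta_reduce; rw [if_neg hth]
      rw [hK1, zero_mul, mul_zero, zero_add]
      have hth2 : m * gdw w μ P x ≤ del * κ := by
        rcases hg0.eq_or_lt with h0 | h0
        · rw [← h0, mul_zero]
          positivity
        · by_contra hc
          push Not at hc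
          exact hth ⟨h0, hc.le⟩
      have hyk : (1 - ee m κ) * gdw w μ P x ≤ del * ee m κ := by
        rw [one_sub_ee hm hk]
        unfold ee
        rw [div_mul_eq_mul_div, mul_div_assoc', div_le_div_iff_of_pos_right hmk]
        exact hth2
      have h1 : fr (ee m κ) (gdw w μ P x) * F x ≤ 1 := by
        rcases hg0.eq_or_lt with h0 | h0
        · have : fr (ee m κ) (0 : ℝ) = 0 := by unfold fr; simp
          rw [← h0, this, zero_mul]; norm_num
        · have h2 : F x ≤ B0 := by rw [hF]; exact hB0 x h0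
          have h3 : fr (ee m κ) (gdw w μ P x) ≤ del := by
            unfold fr
            rw [div_le_iff₀ hden]
            have : 0 ≤ del * ((1 - ee m κ) * gdw w μ P x) :=
              mul_nonneg hdel0 (mul_nonneg h1e hg0)
            linarith
          calc fr (ee m κ) (gdw w μ P x) * F x ≤ del * B0 :=
                mul_le_mul h3 h2 (hF0 x) hdel0
            _ ≤ 1 := hB
      have h2 : Real.exp (∑ j ∈ J \ P, lamf j * Di w (gdw w (mm m κ w μ)) j P x) ≤ 3 := by
        refine (Real.exp_le_exp.mpr (hFt.trans h1)).trans ?_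
        have := Real.exp_one_lt_d9
        linarith
      have h3 : (1 - ee m κ) * gdw w μ P x + ee m κ ≤ 2 := by nlinarith
      calc Real.exp (∑ j ∈ J \ P, lamf j * Di w (gdw w (mm m κ w μ)) j P x) *
            ((1 - ee m κ) * gdw w μ P x + ee m κ) ≤ 3 * 2 :=
            mul_le_mul h2 h3 hden.le (by norm_num)
        _ ≤ 6 := by norm_num
  refine (sum_le_sum fun x _ => hpt x).trans ?_
  have e1 : ∑ x, pw w x * ((1 - ee m κ) * (K' x * gdw w μ P x) + 6)
      = (1 - ee m κ) * ∑ x, pw w x * (K' x * gdw w μ P x) + 6 * ∑ x, pw w x := by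
    rw [mul_sum, mul_sum, ← sum_add_distrib]
    exact sum_congr rfl fun x _ => by ring
  rw [e1, pw_sum H.famT, ← H.mu_sum hK'loc]
  have key : ∀ x, μ x * K' x
      ≤ Real.exp (∑ i ∈ P, α i + a) * (κ / m) *
        (μ x * ((∏ i ∈ P, w2 i (x i)) / marg μ P x)) := by
    intro x
    rcases (H.prob.nonneg x).eq_or_lt with hx | hx
    · rw [← hx]; simp
    have hmg : 0 < marg μ P x := lt_of_lt_of_le hx (marg_ge H.prob P x)
    have hw : 0 < ∏ i ∈ P, w2 i (x i) := prod_w_pos_of_marg H.prob h20 h2ac hmg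
    by_cases hth : 0 < gdw w μ P x ∧ del * κ ≤ m * gdw w μ P x
    · have hK1 : K' x = Real.exp (F x) := by rw [hK']; beta_reduce; rw [if_pos hth]
      rw [hK1]
      have h2 := hQ x hth.1 hth.2
      have h3 : Real.exp (∑ i ∈ P, α i + a - Real.log (m * gdw w2 μ P x / κ))
          = Real.exp (∑ i ∈ P, α i + a) * (κ / m) * ((∏ i ∈ P, w2 i (x i)) / marg μ P x) := by
        unfold gdw
        rw [Real.exp_sub, Real.exp_log (by positivity)]
        field_simp
      calc μ x * Real.exp (F x)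
          ≤ μ x * Real.exp (∑ i ∈ P, α i + a - Real.log (m * gdw w2 μ P x / κ)) :=
            mul_le_mul_of_nonneg_left (Real.exp_le_exp.mpr (by rw [hF]; exact h2)) hx.le
        _ = _ := by rw [h3]; ring
    · have hK1 : K' x = 0 := by rw [hK']; beta_reduce; rw [if_neg hth]
      rw [hK1, mul_zero]
      positivity
  have h2 : ∑ x, μ x * K' x ≤ Real.exp (∑ i ∈ P, α i + a) * (κ / m) := by
    refine (sum_le_sum fun x _ => key x).trans ?_
    rw [← mul_sum]
    calc Real.exp (∑ i ∈ P, α i + a) * (κ / m) *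
          ∑ x, μ x * ((∏ i ∈ P, w2 i (x i)) / marg μ P x)
        ≤ Real.exp (∑ i ∈ P, α i + a) * (κ / m) * 1 :=
          mul_le_mul_of_nonneg_left (sum_inv_le H.prob h20 h21 P) (by positivity)
      _ = _ := mul_one _
  have h3 : (1 - ee m κ) * ∑ x, μ x * K' x ≤ Real.exp (∑ i ∈ P, α i + a) := by
    have h4 := mul_le_mul_of_nonneg_left h2 (by linarith : 0 ≤ 1 - ee m κ)
    refine h4.trans ?_
    have h5 : (1 - ee m κ) * (Real.exp (∑ i ∈ P, α i + a) * (κ / m))
        = Real.exp (∑ i ∈ P, α i + a) * ee m κ := by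
      rw [one_sub_ee hm hk]
      unfold ee
      field_simp
    rw [h5]
    calc Real.exp (∑ i ∈ P, α i + a) * ee m κ ≤ Real.exp (∑ i ∈ P, α i + a) * 1 :=
          mul_le_mul_of_nonneg_left he1 (Real.exp_pos _).le
      _ = _ := mul_one _
  have h4 : Real.exp (∑ i ∈ P, α i + a + 2)
      = Real.exp (∑ i ∈ P, α i + a) * (Real.exp 1 * Real.exp 1) := by
    rw [← Real.exp_add, ← Real.exp_add]
    ring_nf
  rw [h4]
  have h5 := Real.exp_one_gt_d9
  have h6 : (7 : ℝ) ≤ Real.exp 1 * Real.exp 1 := by nlinarith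
  nlinarith

/-- **density bound of the mixture** -/
theorem log_mm (H : Ref w μ) (hm : 0 < m) (hk : m ≤ κ)
    (hlam : ∀ i, 0 ≤ lamf i) (hα : ∀ i, 0 ≤ α i) (hA : ∀ i, 0 ≤ A i) (ha : 0 ≤ a)
    (hdel0 : 0 ≤ del) (hdel : del ≤ 1)
    (hw2 : ∀ i b, w i b = 0 ∨ (0 < w2 i b ∧ w2 i b ≤ Real.exp (A i) * w i b))
    (J M : Finset ι)
    (hQ : ∀ x, 0 < gdw w μ M x → del * κ ≤ m * gdw w μ M x →
      ∑ j ∈ J \ M, lamf j * Di w (gdw w μ) j M x
        ≤ ∑ i ∈ M, α i + a - Real.log (m * gdw w2 μ M x / κ)) (x : ∀ i, V i)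
    (hx : 0 < gdw w (mm m κ w μ) M x) :
    Real.log (gdw w (mm m κ w μ) M x) ≤ ∑ i ∈ M, (α i + A i + a + Real.log 2) := by
  have Hm := ref_mm H hm hk
  have hκ : 0 < κ := by linarith
  have hmm := (gdw_pos_iff Hm.prob Hm.w_nonneg Hm.ac M x).mp hx
  have hPx : 0 < ∏ i ∈ M, w i (x i) := prod_w_pos_of_marg Hm.prob Hm.w_nonneg Hm.ac hmm
  have hl2 : 0 < Real.log 2 := Real.log_pos (by norm_num)
  rcases M.eq_empty_or_nonempty with h2 | h2
  · rw [h2]
    have : gdw w (mm m κ w μ) ∅ x = 1 := Hm.famT.g_empty x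
    rw [this]
    simp
  have hM1 : (1 : ℝ) ≤ M.card := by exact_mod_cast h2.card_pos
  have e1 : ∑ i ∈ M, (α i + A i + a + Real.log 2)
      = ∑ i ∈ M, (α i + A i) + M.card * (a + Real.log 2) := by
    rw [← nsmul_eq_mul, ← sum_const, ← sum_add_distrib]
    exact sum_congr rfl fun i _ => by ring
  have hS0 : 0 ≤ ∑ i ∈ M, (α i + A i) := sum_nonneg fun i _ => add_nonneg (hα i) (hA i)
  have hr : ∑ i ∈ M, (α i + A i) + a + Real.log 2 ≤ ∑ i ∈ M, (α i + A i + a + Real.log 2) := by
    rw [e1]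
    nlinarith
  refine le_trans ?_ hr
  have hg0 : 0 ≤ gdw w μ M x := H.famT.g_nonneg M x
  rw [gdw_mm H hm hk hPx] at hx ⊢
  have hmk : 0 < m + κ := by linarith
  have h3 : (m * gdw w μ M x + κ) / (m + κ) ≤ m * gdw w μ M x / κ + 1 := by
    rw [div_add_one hκ.ne', div_le_div_iff₀ hmk hκ]
    have : 0 ≤ m * gdw w μ M x := mul_nonneg hm.le hg0
    nlinarith
  refine (Real.log_le_log hx h3).trans ?_
  have hy0 : 0 ≤ m * gdw w μ M x / κ := by positivity
  have hfin : m * gdw w μ M x / κ ≤ Real.exp (∑ i ∈ M, (α i + A i) + a) := by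
    by_cases hth : 0 < gdw w μ M x ∧ del * κ ≤ m * gdw w μ M x
    · have hmarg := (gdw_pos_iff H.prob H.w_nonneg H.ac M x).mp hth.1
      have hw2pos : 0 < ∏ i ∈ M, w2 i (x i) := prod_pos fun i hi => by
        rcases hw2 i (x i) with h | h
        · exact absurd (prod_eq_zero hi h) hPx.ne'
        · exact h.1
      have hw2le : ∏ i ∈ M, w2 i (x i) ≤ Real.exp (∑ i ∈ M, A i) * ∏ i ∈ M, w i (x i) := by
        rw [Real.exp_sum, ← prod_mul_distrib]
        refine prod_le_prod (fun i hi => ?_) fun i hi => ?_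
        · rcases hw2 i (x i) with h | h
          · exact absurd (prod_eq_zero hi h) hPx.ne'
          · exact h.1.le
        · rcases hw2 i (x i) with h | h
          · exact absurd (prod_eq_zero hi h) hPx.ne'
          · exact h.2
      have h5 : gdw w μ M x ≤ Real.exp (∑ i ∈ M, A i) * gdw w2 μ M x := by
        unfold gdw
        rw [mul_div_assoc', div_le_div_iff₀ hPx hw2pos]
        calc marg μ M x * ∏ i ∈ M, w2 i (x i)
            ≤ marg μ M x * (Real.exp (∑ i ∈ M, A i) * ∏ i ∈ M, w i (x i)) :=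
              mul_le_mul_of_nonneg_left hw2le hmarg.le
          _ = _ := by ring
      have h6 : 0 < gdw w2 μ M x := div_pos hmarg hw2pos
      have h8 := hQ x hth.1 hth.2
      have h9 : 0 ≤ ∑ j ∈ J \ M, lamf j * Di w (gdw w μ) j M x :=
        sum_nonneg fun j _ => mul_nonneg (hlam j) (Di_nonneg H.famT _ _ _)
      have h10 : m * gdw w2 μ M x / κ ≤ Real.exp (∑ i ∈ M, α i + a) := by
        rw [← Real.log_le_iff_le_exp (by positivity)]
        linarith
      calc m * gdw w μ M x / κ ≤ m * (Real.exp (∑ i ∈ M, A i) * gdw w2 μ M x) / κ := by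
            gcongr
        _ = Real.exp (∑ i ∈ M, A i) * (m * gdw w2 μ M x / κ) := by ring
        _ ≤ Real.exp (∑ i ∈ M, A i) * Real.exp (∑ i ∈ M, α i + a) :=
            mul_le_mul_of_nonneg_left h10 (Real.exp_pos _).le
        _ = _ := by
            rw [← Real.exp_add, sum_add_distrib]
            ring_nf
    · have hth2 : m * gdw w μ M x ≤ del * κ := by
        rcases hg0.eq_or_lt with h0 | h0
        · rw [← h0, mul_zero]
          positivity
        · by_contra hc
          push Not at hc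
          exact hth ⟨h0, hc.le⟩
      have h11 : 1 ≤ Real.exp (∑ i ∈ M, (α i + A i) + a) := Real.one_le_exp (by linarith)
      refine le_trans ?_ h11
      rw [div_le_one hκ]
      nlinarith
  have h12 : m * gdw w μ M x / κ + 1 ≤ Real.exp (∑ i ∈ M, (α i + A i) + a) * 2 := by
    have h11 : 1 ≤ Real.exp (∑ i ∈ M, (α i + A i) + a) := Real.one_le_exp (by linarith)
    linarith
  refine (Real.log_le_log (by linarith) h12).trans (le_of_eq ?_)
  rw [Real.log_mul (Real.exp_pos _).ne' (by norm_num), Real.log_exp]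

end

end Vale.Agent.P042.H779.Ab.A2
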