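import Vale.Agent.P042.H779.SbEnd
import Vale.Agent.P042.H461.LMass

/-! Absolute second moments at all pins for logarithmic power parameters: a measure `m ν` of mass
at most `κ` with the pins inequality on the dense cells. -/

namespace Vale.Agent.P042.H779.Ab.Sb

open Finset Vale.Agent.P042.H779.Ab Vale.Agent.P042.H482
open Vale.Agent.P042.H779 (marg m1 IsProb bw)

set_option linter.unusedSectionVars false
set_option linter.unusedVariables false

section
variable {ι : Type*} [Fintype ι] [DecidableEq ι] {V : ι → Type*} [∀ i, Fintype (V i)]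
  {w : ∀ i, V i → ℝ} {g : Finset ι → (∀ i, V i) → ℝ} {ok : Finset ι → Prop}

lemma bt_supersets (s : ι → ℝ) (B : Finset ι) :
    ∑ T ∈ (univ : Finset ι).powerset.filter (fun T => B ⊆ T), bt s T = ∏ i ∈ B, s i := by
  rw [sum_supersets (subset_univ B)]
  have e1 : ∀ A ∈ (univ \ B).powerset, bt s (B ∪ A) = (∏ i ∈ B, s i) * fw s (univ \ B) A := by
    intro A hA
    rw [mem_powerset] at hA
    have hd : Disjoint B A := disjoint_left.mpr fun j hj hjA => (mem_sdiff.mp (hA hjA)).2 hj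
    have e3 : univ \ (B ∪ A) = (univ \ B) \ A := by
      ext j
      simp only [mem_sdiff, mem_univ, true_and, mem_union, not_or]
    unfold bt fw
    rw [prod_union hd, e3]
    ring
  rw [sum_congr rfl e1, ← mul_sum, fw_sum, mul_one]

/-- second moments at a Bernoulli set from the weights of the components -/
lemma sum_T_le (F : Fam w g ok) {s : ι → ℝ} (hs0 : ∀ i, 0 ≤ s i) (hs1 : ∀ i, s i ≤ 1)
    (D : Finset (Finset ι)) (D' : Finset (Finset ι)) (hok : ∀ T ∈ D, ok T)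
    (hDD : ∀ T ∈ D, ∀ B ⊆ T, B ∈ D') :
    ∑ T ∈ D, bt s T * Wq w g T ≤ ∑ B ∈ D', (∏ i ∈ B, s i) * nh w g B := by
  have e1 : ∀ T ∈ D, bt s T * Wq w g T = ∑ B ∈ D', if B ⊆ T then bt s T * nh w g B else 0 := by
    intro T hT
    rw [wq_eq F (hok T hT), mul_sum, ← sum_filter]
    refine sum_congr ?_ fun _ _ => rfl
    ext B
    simp only [mem_powerset, mem_filter]
    exact ⟨fun h => ⟨hDD T hT B h, h⟩, fun h => h.2⟩
  rw [sum_congr rfl e1, sum_comm]
  refine sum_le_sum fun B _ => ?_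
  rw [← sum_filter, ← sum_mul]
  refine mul_le_mul_of_nonneg_right ?_ (nh_nonneg F B)
  rw [← bt_supersets s B]
  refine sum_le_sum_of_subset_of_nonneg ?_ fun T _ _ => bt_nonneg hs0 hs1 T
  intro T hT
  rw [mem_filter] at hT ⊢
  exact ⟨mem_powerset.mpr (subset_univ T), hT.2⟩

end

section
variable {ι : Type*} [Fintype ι] [DecidableEq ι] {V : ι → Type*} [∀ i, Fintype (V i)]
  [∀ i, DecidableEq (V i)] {w w2 : ∀ i, V i → ℝ} {ν : (∀ i, V i) → ℝ}
  {l C1 A lam0 th a0 B1 X m κ : ℝ} {prm : ι → ℕ}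

/-- The hypotheses on the measure `m ν`, `0 < m ≤ κ`. -/
structure ThickS (l X A lam0 a0 : ℝ) (w w2 : ∀ i, V i → ℝ) (ν : (∀ i, V i) → ℝ) (D : ℕ)
    (m κ : ℝ) : Prop where
  ref : Ref w ν
  m0 : 0 < m
  mκ : m ≤ κ
  atoms : ∀ i v, w i v = 0 ∨ Real.exp (-(3 * l)) ≤ w i v
  w20 : ∀ i v, 0 ≤ w2 i v
  w21 : ∀ i, ∑ v, w2 i v = 1
  w2A : ∀ i v, w i v = 0 ∨ (0 < w2 i v ∧ w2 i v ≤ Real.exp A * w i v)
  hQ : ∀ P : Finset ι, P.card ≤ D → ∀ x, 0 < gdw w ν P x →
    Real.exp (-(3 * l)) * κ ≤ m * gdw w ν P x →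
    (lam0 / l) * ∑ j ∈ univ \ P, Di w (gdw w ν) j P x
      ≤ (1 / (l ^ 16 * X ^ 2)) * P.card + a0 - Real.log (m * gdw w2 ν P x / κ)

lemma len_one (P : Finset ι) : Ll.len (fun _ => (1 : ℝ)) P = P.card := by
  unfold Ll.len
  rw [sum_const, nsmul_eq_mul, mul_one]

/-- the hypotheses in the vocabulary of the power regime, with a single scale -/
lemma toG (N : NumS l C1 (A + a0 + 2) lam0 th (a0 + 2) B1) (hX : 1 ≤ X) (hA : 0 ≤ A)
    (ha0 : 0 ≤ a0) (h9 : lam0 * Real.exp (A + a0 + 2) ≤ l) (hinj : Function.Injective prm)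
    (hlo : ∀ i, l ^ 20 * X ^ 2 ≤ (prm i : ℝ))
    (hhi : ∀ i, (prm i : ℝ) ≤ Real.exp (2 * l) / (l ^ 20 * X ^ 2)) {D : ℕ} (hD : 12 ≤ D)
    (T : ThickS l X A lam0 a0 w w2 ν D m κ) :
    Ll.ThickG (2 * l) (Real.log (l / lam0)) (3 * l) w w2 ν (fun _ => 1) 2 (fun _ => 1)
      ((D : ℝ) / 3) (fun _ => 3 * l) (fun _ => A) (fun _ => 1 / (l ^ 16 * X ^ 2))
      (fun _ => lam0 / l) a0 (Real.exp (-(3 * l))) m κ := by
  have h0 := N.l0
  have hl := N.hl
  have hlam := N.hlam
  have hll : 0 < l / lam0 := by positivity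
  have hX0 : 0 < X := by linarith
  have hg1 : 1 / (l ^ 16 * X ^ 2) ≤ 1 := by
    rw [div_le_one (by positivity)]
    have h1 := one_le_pow₀ (n := 16) N.l1
    have h2 := one_le_pow₀ (n := 2) hX
    nlinarith
  have hγ : A + a0 + 2 ≤ Real.log (l / lam0) := by
    rw [Real.le_log_iff_exp_le hll, le_div_iff₀ hlam]
    linarith
  have hcard : (Fintype.card ι : ℝ) ≤ Real.exp (2 * l) := by
    have h1 : (univ.image prm).card = Fintype.card ι := by
      rw [card_image_of_injective _ hinj, card_univ]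
    have h2 : univ.image prm ⊆ Finset.Icc 1 ⌊Real.exp (2 * l)⌋₊ := by
      intro n hn
      rw [mem_image] at hn
      obtain ⟨i, -, rfl⟩ := hn
      rw [Finset.mem_Icc]
      refine ⟨pr_pos N hX hlo i, Nat.le_floor ((hhi i).trans ?_)⟩
      exact div_le_self (Real.exp_pos _).le (one_le_den N hX)
    have h3 := card_le_card h2
    rw [h1, Nat.card_Icc] at h3
    have h4 : (Fintype.card ι : ℝ) ≤ (⌊Real.exp (2 * l)⌋₊ : ℝ) := by
      exact_mod_cast (by omega : Fintype.card ι ≤ ⌊Real.exp (2 * l)⌋₊)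
    exact h4.trans (Nat.floor_le (Real.exp_pos _).le)
  have hlamexp : lam0 ≤ l := by
    have h1 : (1 : ℝ) ≤ Real.exp (A + a0 + 2) := Real.one_le_exp (by linarith)
    nlinarith
  have hD' : (12 : ℝ) ≤ D := by exact_mod_cast hD
  exact
    { ref := T.ref
      m0 := T.m0
      mκ := T.mκ
      scn := fun _ => by norm_num
      card := fun s => by
        have h1 : (At (fun _ : ι => 1) s).card ≤ Fintype.card ι := by
          rw [← card_univ]
          exact card_le_card (subset_univ _)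
        rcases Nat.eq_zero_or_pos s with hs | hs
        · have h2 : At (fun _ : ι => 1) s = ∅ := by
            unfold At
            rw [filter_eq_empty_iff]
            intro i _ h
            have h' : (1 : ℕ) = s := h
            omega
          rw [h2, card_empty]
          simp only [Nat.cast_zero]
          exact (Real.exp_pos _).le
        · have h2 : ((At (fun _ : ι => 1) s).card : ℝ) ≤ Fintype.card ι := by exact_mod_cast h1
          refine (h2.trans hcard).trans (Real.exp_le_exp.mpr ?_)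
          have h3 : (1 : ℝ) ≤ s := by exact_mod_cast hs
          nlinarith
      L1 := fun _ => by linarith
      LA := fun _ => by simp
      atoms := T.atoms
      w20 := T.w20
      w21 := T.w21
      w2A := T.w2A
      A0' := fun _ => hA
      α0 := fun _ => by positivity
      a0 := ha0
      gH1 := fun _ => by
        have h1 : Real.log 2 < 1 := by have := Real.log_two_lt_d9; linarith
        have h2 : Real.log (l / lam0) * ((1 : ℕ) : ℝ) = Real.log (l / lam0) := by simp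
        rw [h2]
        linarith
      a1 := fun _ => by
        have h2 : Real.log (l / lam0) * ((1 : ℕ) : ℝ) = Real.log (l / lam0) := by simp
        rw [h2, Real.exp_log hll, le_div_iff₀ hlam]
        have h3 := Real.add_one_le_exp (A + a0 + 2)
        nlinarith
      lam0 := fun _ => by positivity
      lam1 := fun _ => by
        have h2 : Real.log (l / lam0) * ((1 : ℕ) : ℝ) = Real.log (l / lam0) := by simp
        rw [h2, Real.exp_neg, Real.exp_log hll, inv_div]
      del0 := (Real.exp_pos _).le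
      del1 := Real.exp_le_one_iff.mpr (by linarith)
      delB := by
        rw [sum_const, nsmul_eq_mul, card_univ]
        have h1 : lam0 / l * (1 + 3 * l) ≤ 4 * lam0 := by
          rw [div_mul_eq_mul_div, div_le_iff₀ h0]
          nlinarith
        have h2 : (Fintype.card ι : ℝ) * (lam0 / l * (1 + 3 * l)) ≤ Real.exp (2 * l) * (4 * lam0) :=
          mul_le_mul hcard h1 (by positivity) (Real.exp_pos _).le
        have h3 : Real.exp (-(3 * l)) * (Real.exp (2 * l) * (4 * lam0))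
            = Real.exp (-l) * (4 * lam0) := by
          rw [← mul_assoc, ← Real.exp_add]
          congr 2
          ring
        have h4 : Real.exp (-l) * (4 * lam0) ≤ 1 := by
          have h5 : Real.exp l * Real.exp (-l) = 1 := by rw [← Real.exp_add]; simp
          have h6 : 4 * lam0 ≤ Real.exp l := by
            have h7 := N.exp_ge_sq
            nlinarith
          calc Real.exp (-l) * (4 * lam0) ≤ Real.exp (-l) * Real.exp l :=
                mul_le_mul_of_nonneg_left h6 (Real.exp_pos _).le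
            _ = 1 := by rw [mul_comm]; exact h5
        have h5 := mul_le_mul_of_nonneg_left h2 (Real.exp_pos (-(3 * l))).le
        linarith
      hQ := fun P hP x hx hdx => by
        have h1 : P.card ≤ D := by
          have h2 : Ll.len (fun _ => (1 : ℝ)) P ≤ 3 * ((D : ℝ) / 3) := hP
          rw [len_one] at h2
          have h3 : (P.card : ℝ) ≤ D := by linarith
          exact_mod_cast h3
        have h2 := T.hQ P h1 x hx hdx
        rw [← mul_sum, sum_const, nsmul_eq_mul]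
        linarith
      ℓ0 := fun _ => zero_le_one
      Λ0 := by linarith
      ℓΛ := fun _ => by linarith }

lemma alt_zero {B : Finset ι} (hB : B.Nonempty) :
    ∑ A ∈ B.powerset, (-1 : ℝ) ^ (B.card - A.card) = 0 := by
  have h1 := Finset.sum_powerset_neg_one_pow_card_of_nonempty hB
  have h2 : ∑ A ∈ B.powerset, (-1 : ℝ) ^ A.card = 0 := by exact_mod_cast h1
  have h3 : ∀ A ∈ B.powerset, (-1 : ℝ) ^ (B.card - A.card) = (-1) ^ B.card * (-1 : ℝ) ^ A.card := by
    intro A hA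
    have h4 := card_le_card (mem_powerset.mp hA)
    have h5 : (-1 : ℝ) ^ A.card * (-1) ^ A.card = 1 := by
      rw [← mul_pow]; norm_num
    calc (-1 : ℝ) ^ (B.card - A.card)
        = (-1) ^ (B.card - A.card) * ((-1 : ℝ) ^ A.card * (-1) ^ A.card) := by rw [h5, mul_one]
      _ = (-1) ^ (B.card - A.card + A.card) * (-1 : ℝ) ^ A.card := by rw [pow_add]; ring
      _ = _ := by rw [Nat.sub_add_cancel h4]
  rw [sum_congr rfl h3, ← mul_sum, h2, mul_zero]

/-- weights of the components of the measure -/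
lemma nh_mm {μ : (∀ i, V i) → ℝ} (H : Ref w μ) (hm : 0 < m) (hk : m ≤ κ) (B : Finset ι) :
    m ^ 2 * nh w (gdw w μ) B ≤ 4 * κ ^ 2 * nh w (gdw w (A2.mm m κ w μ)) B := by
  rcases B.eq_empty_or_nonempty with hB | hB
  · rw [hB, nh_empty H.famT, nh_empty (A2.ref_mm H hm hk).famT]
    nlinarith
  have hmk : 0 < m + κ := by linarith
  unfold nh
  rw [mul_sum, mul_sum]
  refine sum_le_sum fun x _ => ?_
  rcases (pw_nonneg H.famT x).eq_or_lt with hx | hx
  · rw [← hx]; simp
  have hpos : ∀ P : Finset ι, 0 < ∏ i ∈ P, w i (x i) := fun P =>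
    prod_pos fun i _ => lt_of_le_of_ne (H.w_nonneg i _) fun h0 => by
      have : pw w x = 0 := prod_eq_zero (mem_univ i) h0.symm
      exact hx.ne' this
  have e1 : hc (gdw w (A2.mm m κ w μ)) B x = m / (m + κ) * hc (gdw w μ) B x := by
    unfold hc
    have e2 : ∀ A ∈ B.powerset, (-1 : ℝ) ^ (B.card - A.card) * gdw w (A2.mm m κ w μ) A x
        = m / (m + κ) * ((-1 : ℝ) ^ (B.card - A.card) * gdw w μ A x)
          + κ / (m + κ) * (-1 : ℝ) ^ (B.card - A.card) := by
      intro A _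
      rw [A2.gdw_mm H hm hk (hpos A)]
      ring
    rw [sum_congr rfl e2, sum_add_distrib, ← mul_sum, ← mul_sum, alt_zero hB, mul_zero, add_zero]
  rw [e1, mul_pow, div_pow]
  have h1 : m ^ 2 ≤ 4 * κ ^ 2 * (m ^ 2 / (m + κ) ^ 2) := by
    rw [mul_div_assoc', le_div_iff₀ (by positivity)]
    have : (m + κ) ^ 2 ≤ 4 * κ ^ 2 := by nlinarith
    nlinarith [sq_nonneg m]
  have h2 : 0 ≤ pw w x * hc (gdw w μ) B x ^ 2 := by positivity
  nlinarith

lemma piece_zero {ν : (∀ i, V i) → ℝ} (H : Ref w ν) {S : Finset ι} {u : ∀ i, V i}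
    (hc : 0 = gdw w ν S u) (T' : Finset ι) (x : ∀ i, V i) :
    gdw w ν (S ∪ T') (S.piecewise u x) = 0 := by
  by_contra h
  have h1 : 0 < gdw w ν (S ∪ T') (S.piecewise u x) :=
    lt_of_le_of_ne (H.famT.g_nonneg _ _) (Ne.symm h)
  have h2 := H.famT.g_pos S (S ∪ T') subset_union_left trivial _ h1
  rw [loc_gdw S (S.piecewise u x) u fun k hk => piecewise_eq_of_mem _ _ _ hk, ← hc] at h2
  exact lt_irrefl _ h2

/-- the mixture of the pinned measure: components -/
theorem nh_pin (N : NumS l C1 (A + a0 + 2) lam0 th (a0 + 2) B1) (hX : 1 ≤ X)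
    (hY : 1 ≤ Real.exp (2 * l) / (l ^ 20 * X ^ 2)) (hA : 0 ≤ A)
    (ha0 : 0 ≤ a0) (h9 : lam0 * Real.exp (A + a0 + 2) ≤ l) (hinj : Function.Injective prm)
    (hlo : ∀ i, l ^ 20 * X ^ 2 ≤ (prm i : ℝ))
    (hhi : ∀ i, (prm i : ℝ) ≤ Real.exp (2 * l) / (l ^ 20 * X ^ 2)) {D : ℕ} (hD : 12 ≤ D)
    (hD' : th * Real.exp l / l ≤ ((D / 3 : ℕ) : ℝ))
    (T : ThickS l X A lam0 a0 w w2 ν D m κ) {s : ι → ℝ} (hs0 : ∀ i, 0 ≤ s i)
    (hs1 : ∀ i, s i ≤ C1 * X / √(prm i)) {S : Finset ι} (hS : 3 * S.card ≤ D) {u : ∀ i, V i}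
    (hc : 0 < gdw w ν S u) :
    ∃ κ', κ' = κ * Real.exp ((1 / (l ^ 16 * X ^ 2) + A) * S.card + a0) ∧
      m * gdw w ν S u ≤ κ' ∧
      ∑ B ∈ (univ : Finset ι).powerset.filter (fun B => 12 * B.card ≤ D),
        (∏ i ∈ B, s i) * nh w (gdw w (A2.mm (m * gdw w ν S u) κ' w (Ll.nuS w ν S u))) B
        ≤ 32 / 15 := by
  have h0 := N.l0
  have hX0 : 0 < X := by linarith
  have hlam := N.hlam
  have hll : 0 < l / lam0 := by positivity
  have G := toG N hX hA ha0 h9 hinj hlo hhi hD T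
  have hS' : Ll.len (fun _ => (1 : ℝ)) S ≤ (D : ℝ) / 3 := by
    rw [len_one]
    have : (3 : ℝ) * S.card ≤ D := by exact_mod_cast hS
    linarith
  have L := Ll.pin_law G hS' hc
  have hk := Ll.cap_pin G hS' hc
  have eκ : Ll.κS κ (fun _ => 1 / (l ^ 16 * X ^ 2)) (fun _ => A) a0 S
      = κ * Real.exp ((1 / (l ^ 16 * X ^ 2) + A) * S.card + a0) := by
    unfold Ll.κS
    rw [sum_const, nsmul_eq_mul]
    congr 3
    ring
  rw [eκ] at hk L
  refine ⟨_, rfl, hk, ?_⟩
  have hD3 : ((D / 3 : ℕ) : ℝ) ≤ (D : ℝ) / 3 := Nat.cast_div_le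
  have hl2 : Real.log 2 < 1 := by have := Real.log_two_lt_d9; linarith
  have hg1 : 1 / (l ^ 16 * X ^ 2) ≤ 1 := by
    rw [div_le_one (by positivity)]
    have h1 := one_le_pow₀ (n := 16) N.l1
    have h2 := one_le_pow₀ (n := 2) hX
    nlinarith
  have hlog : ∀ M : Finset ι, M.card ≤ D / 3 → ∀ x,
      0 < gdw w (A2.mm (m * gdw w ν S u)
        (κ * Real.exp ((1 / (l ^ 16 * X ^ 2) + A) * S.card + a0)) w (Ll.nuS w ν S u)) M x →
      Real.log (gdw w (A2.mm (m * gdw w ν S u)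
        (κ * Real.exp ((1 / (l ^ 16 * X ^ 2) + A) * S.card + a0)) w (Ll.nuS w ν S u)) M x)
        ≤ (A + a0 + 2) * M.card := by
    intro M hM x hx
    have h1 : Ll.len (fun _ => (1 : ℝ)) M ≤ (D : ℝ) / 3 := by
      rw [len_one]
      have : (M.card : ℝ) ≤ ((D / 3 : ℕ) : ℝ) := by exact_mod_cast hM
      linarith
    have h2 := L.hlog M h1 x hx
    rw [sum_const, nsmul_eq_mul] at h2
    have h3 : (0 : ℝ) ≤ M.card := by positivity
    nlinarith
  have hPe : Pe w (A2.mm (m * gdw w ν S u)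
      (κ * Real.exp ((1 / (l ^ 16 * X ^ 2) + A) * S.card + a0)) w (Ll.nuS w ν S u))
      (fun M => M.card ≤ D / 3) (lam0 / l) (1 / (l ^ 16 * X ^ 2)) (a0 + 2) := by
    intro P hP
    have hP' : (P.card : ℝ) ≤ ((D / 3 : ℕ) : ℝ) := by exact_mod_cast hP
    have h1 := L.pe 1 P (fun i _ => by unfold Lo; simp) (by
      rw [len_one]
      have : (0 : ℝ) ≤ D := by positivity
      linarith)
    have e1 : At (fun _ : ι => 1) 1 = univ := by unfold At; simp
    have e2 : Real.exp (-(Real.log (l / lam0) * ((1 : ℕ) : ℝ))) = lam0 / l := by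
      rw [Nat.cast_one, mul_one, Real.exp_neg, Real.exp_log hll, inv_div]
    rw [e1, e2] at h1
    refine h1.trans (Real.exp_le_exp.mpr ?_)
    have e3 : Ll.aM (fun _ : ι => 1) a0 1 ≤ a0 + 2 := by
      unfold Ll.aM
      split_ifs
      · exact le_rfl
      · linarith
    rw [sum_const, nsmul_eq_mul]
    linarith
  have h1 := nh_S N hX hY hinj (R := fun i => s i / 2) (fun i => by have := hs0 i; linarith)
    hlo hhi (fun i => by have := hs0 i; have := hs1 i; linarith) hD' L.ref T.atoms hlog hPe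
  have e1 : (univ : Finset ι).powerset.filter (fun B => 12 * B.card ≤ D)
      = (univ : Finset ι).powerset.filter (fun B => 4 * B.card ≤ D / 3) := by
    ext B
    simp only [mem_filter, mem_powerset]
    constructor
    · rintro ⟨h, h'⟩; exact ⟨h, by omega⟩
    · rintro ⟨h, h'⟩; exact ⟨h, by omega⟩
  have e2 : ∀ B : Finset ι, ∏ i ∈ B, s i = ∏ i ∈ B, 2 * (s i / 2) := fun B =>
    prod_congr rfl fun i _ => by ring
  rw [e1]
  simp only [e2]
  exact h1

/-- **absolute second moments at all pins**, explicit numerical conditions -/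
theorem abs2_S_of (N : NumS l C1 (A + a0 + 2) lam0 th (a0 + 2) B1) (hX : 1 ≤ X)
    (hY : 1 ≤ Real.exp (2 * l) / (l ^ 20 * X ^ 2)) (hA : 0 ≤ A)
    (ha0 : 0 ≤ a0) (h9 : lam0 * Real.exp (A + a0 + 2) ≤ l) (hinj : Function.Injective prm)
    (hlo : ∀ i, l ^ 20 * X ^ 2 ≤ (prm i : ℝ))
    (hhi : ∀ i, (prm i : ℝ) ≤ Real.exp (2 * l) / (l ^ 20 * X ^ 2)) {D : ℕ} (hD : 12 ≤ D)
    (hD' : th * Real.exp l / l ≤ ((D / 3 : ℕ) : ℝ))
    (T : ThickS l X A lam0 a0 w w2 ν D m κ) {s : ι → ℝ} (hs0 : ∀ i, 0 ≤ s i)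
    (hs1 : ∀ i, s i ≤ C1 * X / √(prm i)) :
    (∀ i, s i ≤ 1 / 2) ∧ ∀ S : Finset ι, 3 * S.card ≤ D → ∀ u : ∀ i, V i,
    ∀ E : Finset (Finset ι), (∀ T' ∈ E, 12 * T'.card ≤ D) →
      ∑ T' ∈ E, bt s T' * ∑ x, pw w x * (m * gdw w ν (S ∪ T') (S.piecewise u x)) ^ 2
        ≤ 9 * (κ * Real.exp ((1 / (l ^ 16 * X ^ 2) + A) * S.card + a0)) ^ 2 := by
  have h0 := N.l0
  have hX0 : 0 < X := by linarith
  have hs12 : ∀ i, s i ≤ 1 / 2 := by
    intro i
    have h1 := tS_small N hX (R := fun i => s i / 2) hlo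
      (fun i => by have := hs0 i; have := hs1 i; linarith) i
    have h2 := tS_nonneg N (R := fun i => s i / 2) (fun i => by have := hs0 i; linarith) i
    have h3 : s i = tauS l (A + a0 + 2) * tS l (A + a0 + 2) (fun i => s i / 2) i := by
      unfold tS
      rw [mul_div_cancel₀ _ N.tau0.ne']
      ring
    have h4 := mul_le_mul_of_nonneg_right (KS_one N) h2
    have h5 : tauS l (A + a0 + 2) ≤ 1 := by linarith [N.tau15, N.tau0]
    have h6 := mul_le_mul_of_nonneg_right h5 h2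
    rw [h3]
    linarith
  refine ⟨hs12, fun S hS u E hE => ?_⟩
  have H := T.ref
  rcases (H.famT.g_nonneg S u).eq_or_lt with hc | hc
  · have : ∑ T' ∈ E, bt s T' * ∑ x, pw w x * (m * gdw w ν (S ∪ T') (S.piecewise u x)) ^ 2 = 0 :=
      sum_eq_zero fun T' _ => by simp [piece_zero H hc]
    rw [this]
    positivity
  obtain ⟨κ', eκ, hk, hn⟩ := nh_pin N hX hY hA ha0 h9 hinj hlo hhi hD hD' T hs0 hs1 hS hc
  rw [← eκ]
  have hm : 0 < m * gdw w ν S u := mul_pos T.m0 hc
  have Hn := Ll.ref_nuS H hc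
  have Hm := A2.ref_mm Hn hm hk
  have h2 : ∀ T' : Finset ι, ∑ x, pw w x * (m * gdw w ν (S ∪ T') (S.piecewise u x)) ^ 2
      ≤ 4 * κ' ^ 2 * Wq w (gdw w (A2.mm (m * gdw w ν S u) κ' w (Ll.nuS w ν S u))) T' := by
    intro T'
    refine le_trans (le_of_eq ?_) (A2.wq_mm Hn hm hk T')
    unfold Wq
    rw [mul_sum]
    refine sum_congr rfl fun x _ => ?_
    rcases (pw_nonneg H.famT x).eq_or_lt with hx | hx
    · rw [← hx]; simp
    have hPx : 0 < ∏ i ∈ T', w i (x i) := by
      refine prod_pos fun i _ => lt_of_le_of_ne (H.w_nonneg i _) fun h0 => ?_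
      have : pw w x = 0 := prod_eq_zero (mem_univ i) h0.symm
      exact hx.ne' this
    rw [Ll.gdw_nuS H hc hPx]
    field_simp
  have h3 : ∀ T' ∈ E, bt s T' * ∑ x, pw w x * (m * gdw w ν (S ∪ T') (S.piecewise u x)) ^ 2
      ≤ 4 * κ' ^ 2 *
        (bt s T' * Wq w (gdw w (A2.mm (m * gdw w ν S u) κ' w (Ll.nuS w ν S u))) T') := by
    intro T' _
    have := mul_le_mul_of_nonneg_left (h2 T')
      (bt_nonneg hs0 (fun i => (hs12 i).trans (by norm_num)) T')
    linarith
  refine (sum_le_sum h3).trans ?_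
  rw [← mul_sum]
  have h4 := sum_T_le Hm.famT hs0 (fun i => (hs12 i).trans (by norm_num)) E
    ((univ : Finset ι).powerset.filter (fun B => 12 * B.card ≤ D)) (fun _ _ => trivial)
    (fun T' hT' B hB => by
      rw [mem_filter, mem_powerset]
      have h5 := card_le_card hB
      have h6 := hE T' hT'
      exact ⟨subset_univ _, by omega⟩)
  have h5 := mul_le_mul_of_nonneg_left (h4.trans hn) (show 0 ≤ 4 * κ' ^ 2 by positivity)
  have h6 : 0 ≤ κ' ^ 2 := sq_nonneg _
  linarith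

end

/-- **absolute second moments at all pins for logarithmic power parameters.** -/
theorem abs2_S (b : ℕ) (C1 A lam0 th a0 : ℝ) (hC1 : 0 < C1) (hA : 0 ≤ A) (hlam0 : 0 < lam0)
    (hth : 0 < th) (ha0 : 0 ≤ a0) :
    ∃ l0 : ℝ, ∀ l ≥ l0, ∀ {ι : Type} [Fintype ι] [DecidableEq ι] {prm : ι → ℕ}
      {V : ι → Type} [∀ i, Fintype (V i)] [∀ i, DecidableEq (V i)] {w w2 : ∀ i, V i → ℝ}
      {ν : (∀ i, V i) → ℝ} {D : ℕ} {m κ : ℝ} {s : ι → ℝ},
      Function.Injective prm →
      (∀ i, l ^ (20 + 2 * b) ≤ (prm i : ℝ) ∧ (prm i : ℝ) ≤ Real.exp (2 * l) / l ^ (20 + 2 * b)) →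
      th * Real.exp l / l ≤ D →
      ThickS l (l ^ b) A lam0 a0 w w2 ν D m κ →
      (∀ i, 0 ≤ s i) → (∀ i, s i ≤ C1 * l ^ b / √(prm i)) →
      (∀ i, s i ≤ 1 / 2) ∧ ∀ S : Finset ι, 3 * S.card ≤ D → ∀ u : ∀ i, V i,
      ∀ E : Finset (Finset ι), (∀ T ∈ E, 12 * T.card ≤ D) →
        ∑ T ∈ E, bt s T * ∑ x, pw w x * (m * gdw w ν (S ∪ T) (S.piecewise u x)) ^ 2
          ≤ 9 * (κ * Real.exp ((1 / l ^ (16 + 2 * b) + A) * S.card + a0)) ^ 2 := by
  obtain ⟨l0, hl0⟩ := NumS_exists C1 (A + a0 + 2) lam0 (th / 4) (a0 + 2) hC1 (by linarith) hlam0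
    (by linarith) (by linarith)
  refine ⟨max l0 (lam0 * Real.exp (A + a0 + 2) + (20 + 2 * b + 1).factorial),
    fun l hl ι _ _ prm V _ _ w w2 ν D m κ s hinj hp hD T hs0 hs1 => ?_⟩
  have N := hl0 l ((le_max_left _ _).trans hl)
  have h1 := (le_max_right _ _).trans hl
  have h0 := N.l0
  have hX : 1 ≤ l ^ b := one_le_pow₀ N.l1
  have e20 : l ^ 20 * (l ^ b) ^ 2 = l ^ (20 + 2 * b) := by
    rw [← pow_mul, ← pow_add]
    congr 1
    ring
  have e16 : l ^ 16 * (l ^ b) ^ 2 = l ^ (16 + 2 * b) := by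
    rw [← pow_mul, ← pow_add]
    congr 1
    ring
  have hf : (0 : ℝ) < (20 + 2 * b + 1).factorial := by exact_mod_cast Nat.factorial_pos _
  have hle : 0 < lam0 * Real.exp (A + a0 + 2) := by positivity
  have hY : 1 ≤ Real.exp (2 * l) / (l ^ 20 * (l ^ b) ^ 2) := by
    rw [e20, one_le_div (by positivity)]
    have h2 := Real.pow_div_factorial_le_exp (2 * l) (by linarith) (20 + 2 * b + 1)
    refine le_trans ?_ h2
    rw [le_div_iff₀ hf]
    have h3 : l ^ (20 + 2 * b) * (20 + 2 * b + 1).factorial ≤ l ^ (20 + 2 * b) * l :=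
      mul_le_mul_of_nonneg_left (by linarith) (by positivity)
    refine h3.trans ?_
    rw [← pow_succ]
    exact pow_le_pow_left₀ h0.le (by linarith) _
  have hDr : 400 ≤ th * Real.exp l / l := by
    rw [le_div_iff₀ h0]
    have h2 := N.exp_ge_sq
    have h3 := N.h5
    have h4 := mul_le_mul_of_nonneg_left h2 hth.le
    have h5 : th * (l ^ 2 / 2) = (th / 4 * l) * (2 * l) := by ring
    rw [h5] at h4
    have h6 : 200 * (2 * l) ≤ (th / 4 * l) * (2 * l) :=
      mul_le_mul_of_nonneg_right h3 (by linarith)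
    linarith
  have hDc : (400 : ℝ) ≤ D := hDr.trans hD
  have hDn : 400 ≤ D := by exact_mod_cast hDc
  have hD' : th / 4 * Real.exp l / l ≤ ((D / 3 : ℕ) : ℝ) := by
    have h2 : (D : ℝ) ≤ 3 * ((D / 3 : ℕ) : ℝ) + 2 := by
      have : D ≤ 3 * (D / 3) + 2 := by omega
      exact_mod_cast this
    have h3 : th / 4 * Real.exp l / l = (th * Real.exp l / l) / 4 := by ring
    rw [h3]
    linarith
  have h2 := abs2_S_of (A := A) N hX hY hA ha0 (by linarith) hinj
    (fun i => by rw [e20]; exact (hp i).1) (fun i => by rw [e20]; exact (hp i).2) (D := D)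
    (by omega) hD' T hs0 hs1
  rw [e16] at h2
  exact h2

end Vale.Agent.P042.H779.Ab.Sb
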