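import Vale.Agent.P042.H779.Comb
import Vale.Agent.P042.H779.Tens
import Vale.Agent.P042.H779.Jen

/-! Assembly, first half: Gibbs inequality and the separation summed over all configurations. -/

namespace Vale.Agent.P042.H779

open Finset

section
variable {ι : Type*} [Fintype ι] [DecidableEq ι] {V : ι → Type*} [∀ i, Fintype (V i)]
  [∀ i, DecidableEq (V i)] {μ : (∀ i, V i) → ℝ}

/-- second moment of the density of the `A`-marginal -/
noncomputable def Wq (μ : (∀ i, V i) → ℝ) (A : Finset ι) : ℝ := ∑ x, pw μ x * gd μ A x ^ 2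

/-- `E_{A ~ Bernoulli(t)} E_pi g_A^2` -/
noncomputable def Gt (μ : (∀ i, V i) → ℝ) (t : ℝ) : ℝ :=
  ∑ A ∈ (univ : Finset ι).powerset, bw t univ A * Wq μ A

lemma Wq_nonneg (h : IsProb μ) (A : Finset ι) : 0 ≤ Wq μ A :=
  sum_nonneg fun x _ => mul_nonneg (pw_nonneg h x) (sq_nonneg _)

lemma one_le_Wq (h : IsProb μ) (A : Finset ι) : 1 ≤ Wq μ A := by
  have h1 : ∑ x, pw μ x * (2 * gd μ A x - 1) = 1 := by
    have : ∀ x, pw μ x * (2 * gd μ A x - 1) = 2 * (pw μ x * gd μ A x) - pw μ x := fun x => by ring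
    rw [sum_congr rfl fun x _ => this x, sum_sub_distrib, ← mul_sum, pw_gd_sum h, pw_sum h]
    norm_num
  rw [← h1]
  refine sum_le_sum fun x _ => mul_le_mul_of_nonneg_left ?_ (pw_nonneg h x)
  nlinarith [sq_nonneg (gd μ A x - 1)]

omit [Fintype ι] in
lemma bw_nonneg' {t : ℝ} (h0 : 0 ≤ t) (h1 : t ≤ 1) (R A : Finset ι) : 0 ≤ bw t R A := by
  unfold bw
  have : 0 ≤ 1 - t := by linarith
  positivity

lemma one_le_Gt (h : IsProb μ) {t : ℝ} (h0 : 0 ≤ t) (h1 : t ≤ 1) : 1 ≤ Gt μ t := by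
  unfold Gt
  rw [← bw_sum t (univ : Finset ι)]
  refine sum_le_sum fun A _ => ?_
  have := mul_le_mul_of_nonneg_left (one_le_Wq h A) (bw_nonneg' h0 h1 (univ : Finset ι) A)
  linarith

lemma pw_gd_gd (h : IsProb μ) {A R : Finset ι} (hAR : A ⊆ R) :
    ∑ x, pw μ x * (gd μ A x * gd μ R x) = Wq μ A := by
  rw [pw_gd_subset h hAR (gd μ A) (fun i _ hiA => indep_gd A hiA)]
  unfold Wq
  exact sum_congr rfl fun x _ => by ring

lemma sum_gd_Tg (h : IsProb μ) (τ : ℝ) (R : Finset ι) :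
    ∑ x, pw μ x * (gd μ R x * Tg μ τ R x) = ∑ A ∈ R.powerset, bw τ R A * Wq μ A := by
  have e1 : ∀ x, pw μ x * (gd μ R x * Tg μ τ R x)
      = ∑ A ∈ R.powerset, bw τ R A * (pw μ x * (gd μ A x * gd μ R x)) := by
    intro x
    unfold Tg
    rw [mul_sum, mul_sum]
    exact sum_congr rfl fun A _ => by ring
  rw [sum_congr rfl fun x _ => e1 x, sum_comm]
  refine sum_congr rfl fun A hA => ?_
  rw [← mul_sum, pw_gd_gd h (mem_powerset.mp hA)]

lemma Gt_eq (h : IsProb μ) (τ t1 : ℝ) :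
    ∑ R ∈ (univ : Finset ι).powerset, bw t1 univ R * ∑ x, pw μ x * (gd μ R x * Tg μ τ R x)
      = Gt μ (τ * t1) := by
  rw [sum_congr rfl fun R _ => by rw [sum_gd_Tg h τ R], thinning]
  rfl

lemma total_mass (h : IsProb μ) (t1 : ℝ) :
    ∑ R ∈ (univ : Finset ι).powerset, bw t1 univ R * ∑ x, pw μ x * gd μ R x = 1 := by
  rw [sum_congr rfl fun R _ => by rw [pw_gd_sum h R, mul_one]]
  exact bw_sum t1 _

/-- Step 1. -/
lemma gibbs (h : IsProb μ) {τ t1 : ℝ} (h0 : 0 < τ) (h1 : τ < 1) (ht0 : 0 ≤ t1) (ht1 : t1 ≤ 1) :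
    Gt μ (τ * t1) * Real.log (Gt μ (τ * t1))
      ≤ ∑ R ∈ (univ : Finset ι).powerset, bw t1 univ R *
        ∑ x, pw μ x * (gd μ R x * (Tg μ τ R x * Real.log (Tg μ τ R x))) := by
  have hG1 : 1 ≤ Gt μ (τ * t1) := one_le_Gt h (by positivity) (by nlinarith)
  obtain ⟨G, hG⟩ : ∃ G, G = Gt μ (τ * t1) := ⟨_, rfl⟩
  have hG0 : 0 < G := by rw [hG]; linarith
  have key : ∀ R ∈ (univ : Finset ι).powerset, ∀ x : ∀ i, V i,
      gd μ R x * (Tg μ τ R x * Real.log G + Tg μ τ R x - G)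
      ≤ gd μ R x * (Tg μ τ R x * Real.log (Tg μ τ R x)) := by
    intro R _ x
    refine mul_le_mul_of_nonneg_left ?_ (gd_nonneg h R x)
    have hT := Tg_pos h h0 h1 R x
    have h2 := Real.log_le_sub_one_of_pos (show 0 < G / Tg μ τ R x by positivity)
    rw [Real.log_div hG0.ne' hT.ne'] at h2
    have h3 := mul_le_mul_of_nonneg_left h2 hT.le
    have h4 : Tg μ τ R x * (G / Tg μ τ R x - 1) = G - Tg μ τ R x := by field_simp
    rw [h4] at h3
    linarith
  have h5 : ∑ R ∈ (univ : Finset ι).powerset, bw t1 univ R *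
        ∑ x, pw μ x * (gd μ R x * (Tg μ τ R x * Real.log G + Tg μ τ R x - G))
      ≤ ∑ R ∈ (univ : Finset ι).powerset, bw t1 univ R *
        ∑ x, pw μ x * (gd μ R x * (Tg μ τ R x * Real.log (Tg μ τ R x))) :=
    sum_le_sum fun R hR => mul_le_mul_of_nonneg_left
      (sum_le_sum fun x _ => mul_le_mul_of_nonneg_left (key R hR x) (pw_nonneg h x))
      (bw_nonneg' ht0 ht1 _ _)
  have h6 : ∑ R ∈ (univ : Finset ι).powerset, bw t1 univ R *
        ∑ x, pw μ x * (gd μ R x * (Tg μ τ R x * Real.log G + Tg μ τ R x - G))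
      = G * Real.log G := by
    have e1 : ∀ R ∈ (univ : Finset ι).powerset, bw t1 univ R *
        ∑ x, pw μ x * (gd μ R x * (Tg μ τ R x * Real.log G + Tg μ τ R x - G))
        = (Real.log G + 1) * (bw t1 univ R * ∑ x, pw μ x * (gd μ R x * Tg μ τ R x))
          - G * (bw t1 univ R * ∑ x, pw μ x * gd μ R x) := by
      intro R _
      have : ∀ x, pw μ x * (gd μ R x * (Tg μ τ R x * Real.log G + Tg μ τ R x - G))
          = (Real.log G + 1) * (pw μ x * (gd μ R x * Tg μ τ R x))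
            - G * (pw μ x * gd μ R x) := fun x => by ring
      rw [sum_congr rfl fun x _ => this x, sum_sub_distrib, ← mul_sum, ← mul_sum]; ring
    rw [sum_congr rfl e1, sum_sub_distrib, ← mul_sum, ← mul_sum, Gt_eq h, total_mass h, ← hG]
    ring
  rw [← hG]
  linarith

/-- separation functional -/
noncomputable def Th (μ : (∀ i, V i) → ℝ) (τ : ℝ) (m : ℕ) (M A R : Finset ι) : ℝ :=
  ∑ x, pw μ x * (gd μ A x * gd μ R x * qc μ τ m M A R x * Real.log (gd μ A x / gd μ M x))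

/-- insertion functional -/
noncomputable def Ps (μ : (∀ i, V i) → ℝ) (τ : ℝ) (m : ℕ) (M A R : Finset ι) : ℝ :=
  ∑ i ∈ univ \ R, ∑ x, pw μ x * (gd μ A x * gd μ R x * qc μ τ m M A R x *
    phi (gd μ (insert i A) x * gd μ (insert i R) x * qc μ τ m M (insert i A) (insert i R) x /
        (gd μ A x * gd μ R x * qc μ τ m M A R x)))

/-- Step 3 summed over all cores. -/
lemma sep_sum (h : IsProb μ) {τ t1 : ℝ} (h0 : 0 < τ) (h1 : τ < 1) (ht0 : 0 ≤ t1) (ht1 : t1 < 1)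
    {m : ℕ} (hm : 1 ≤ m) :
    ∑ R ∈ (univ : Finset ι).powerset, ∑ A ∈ R.powerset, ∑ M ∈ A.powerset,
        bw t1 univ R * bw τ R A * Th μ τ m M A R
      ≤ (τ * t1 / (1 - t1)) * ∑ R ∈ (univ : Finset ι).powerset, ∑ A ∈ R.powerset,
        ∑ M ∈ A.powerset, bw t1 univ R * bw τ R A * Ps μ τ m M A R := by
  rw [chain3 univ (fun M A R => bw t1 univ R * bw τ R A * Th μ τ m M A R),
    chain3 univ (fun M A R => bw t1 univ R * bw τ R A * Ps μ τ m M A R), mul_sum]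
  refine sum_le_sum fun M _ => ?_
  rw [mul_sum]
  refine sum_le_sum fun I hI => ?_
  have hIM : Disjoint I M := by
    rw [mem_powerset, subset_sdiff] at hI; exact hI.2
  have hτ' : 0 ≤ 1 - τ := by linarith
  have hb : 0 < 1 - t1 := by linarith
  -- weights
  have hw : ∀ U ∈ (univ \ (M ∪ I)).powerset,
      bw t1 univ (M ∪ U ∪ I) * bw τ (M ∪ U ∪ I) (M ∪ U)
      = ((τ * t1) ^ M.card * (t1 * (1 - τ)) ^ I.card) *
        ((τ * t1) ^ U.card * (1 - t1) ^ ((univ \ (M ∪ I)) \ U).card) := by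
    intro U hU
    rw [mem_powerset, subset_sdiff, disjoint_union_right] at hU
    have hI2 : I ⊆ univ \ (M ∪ U) := by
      rw [subset_sdiff, disjoint_union_right]
      exact ⟨subset_univ _, hIM, hU.2.2.symm⟩
    rw [bw_chain hI2, card_union_of_disjoint hU.2.1.symm, pow_add]
    have e : (univ \ (M ∪ U)) \ I = (univ \ (M ∪ I)) \ U := by
      ext j; simp only [mem_sdiff, mem_univ, true_and, mem_union, not_or]; tauto
    rw [e]; ring
  obtain ⟨ord, hord⟩ : ∃ ord : ι → ℕ, Function.Injective ord :=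
    ⟨fun i => (Fintype.equivFin ι i : ℕ), fun a b hab => by
      have := Fin.ext hab
      exact (Fintype.equivFin ι).injective this⟩
  have hMS : Disjoint M (univ \ (M ∪ I)) := by
    rw [disjoint_left]; intro a ha hc
    simp only [mem_sdiff, mem_univ, true_and, mem_union, not_or] at hc
    exact hc.1 ha
  have hpos : ∀ U ⊆ univ \ (M ∪ I), ∀ x, 0 < gd μ (M ∪ U ∪ I) x →
      0 < gd μ (M ∪ U) x * gd μ (M ∪ U ∪ I) x * qc μ τ m M (M ∪ U) (M ∪ U ∪ I) x := by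
    intro U _ x hx
    exact mul_pos (mul_pos (gd_pos_mono h subset_union_left hx) hx)
      (qc_pos h h0 h1 hm subset_union_left subset_union_left hx)
  have hgpos : ∀ U ⊆ univ \ (M ∪ I), ∀ x,
      0 < gd μ (M ∪ U) x * gd μ (M ∪ U ∪ I) x * qc μ τ m M (M ∪ U) (M ∪ U ∪ I) x →
      0 < gd μ (M ∪ U ∪ I) x := by
    intro U _ x hx
    rcases (gd_nonneg h (M ∪ U ∪ I) x).eq_or_lt with h2 | h2
    · rw [← h2] at hx; simp at hx
    · exact h2
  have hsep := separation h ord hord hMS (a := τ * t1) (b := 1 - t1) (by positivity) hb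
    (fun U x => gd μ (M ∪ U) x * gd μ (M ∪ U ∪ I) x * qc μ τ m M (M ∪ U) (M ∪ U ∪ I) x)
    (fun U _ x => mul_nonneg (mul_nonneg (gd_nonneg h _ _) (gd_nonneg h _ _))
      (qc_nonneg h h0 h1 _ _ _ _))
    (by
      intro U hU i hi hiU x c
      simp only [mem_sdiff, mem_univ, true_and, mem_union, not_or] at hi
      have hi1 : i ∉ M ∪ U := by simp [hi.1, hiU]
      have hi2 : i ∉ M ∪ U ∪ I := by simp [hi.1, hiU, hi.2]
      beta_reduce
      rw [gd_update _ hi1, gd_update _ hi2, indep_qc M (M ∪ U) (M ∪ U ∪ I) hi2 x c])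
    (by
      intro U hU i hi hiU x hx
      by_contra hne
      have hiU' : insert i U ⊆ univ \ (M ∪ I) := insert_subset hi hU
      have hnn : 0 ≤ gd μ (M ∪ insert i U) x * gd μ (M ∪ insert i U ∪ I) x *
        qc μ τ m M (M ∪ insert i U) (M ∪ insert i U ∪ I) x :=
        mul_nonneg (mul_nonneg (gd_nonneg h _ _) (gd_nonneg h _ _)) (qc_nonneg h h0 h1 _ _ _ _)
      have h2 := hgpos _ hiU' x (lt_of_le_of_ne hnn (Ne.symm hne))
      have h3 : 0 < gd μ (M ∪ U ∪ I) x := by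
        refine gd_pos_mono h ?_ h2
        exact union_subset_union_left (union_subset_union_right (subset_insert _ _))
      exact (hpos U hU x h3).ne' hx)
    (by
      intro U hU x hx
      exact gd_pos_mono h subset_union_left (hgpos U hU x hx))
  have hc0 : 0 ≤ (τ * t1) ^ M.card * (t1 * (1 - τ)) ^ I.card := by positivity
  have hsep2 := mul_le_mul_of_nonneg_left hsep hc0
  have eL : ∑ U ∈ (univ \ (M ∪ I)).powerset,
      bw t1 univ (M ∪ U ∪ I) * bw τ (M ∪ U ∪ I) (M ∪ U) * Th μ τ m M (M ∪ U) (M ∪ U ∪ I)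
      = (τ * t1) ^ M.card * (t1 * (1 - τ)) ^ I.card *
        ∑ U ∈ (univ \ (M ∪ I)).powerset, (τ * t1) ^ U.card * (1 - t1) ^ ((univ \ (M ∪ I)) \ U).card
        * ∑ x, pw μ x * (gd μ (M ∪ U) x * gd μ (M ∪ U ∪ I) x *
          qc μ τ m M (M ∪ U) (M ∪ U ∪ I) x * Real.log (gd μ (M ∪ U) x / gd μ M x)) := by
    rw [mul_sum]
    refine sum_congr rfl fun U hU => ?_
    rw [hw U hU]; unfold Th; ring
  have eR : (τ * t1 / (1 - t1)) * ∑ U ∈ (univ \ (M ∪ I)).powerset,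
      bw t1 univ (M ∪ U ∪ I) * bw τ (M ∪ U ∪ I) (M ∪ U) * Ps μ τ m M (M ∪ U) (M ∪ U ∪ I)
      = (τ * t1) ^ M.card * (t1 * (1 - τ)) ^ I.card * ((τ * t1 / (1 - t1)) *
        ∑ U ∈ (univ \ (M ∪ I)).powerset, (τ * t1) ^ U.card * (1 - t1) ^ ((univ \ (M ∪ I)) \ U).card
        * ∑ i ∈ (univ \ (M ∪ I)) \ U, ∑ x, pw μ x * (gd μ (M ∪ U) x * gd μ (M ∪ U ∪ I) x *
          qc μ τ m M (M ∪ U) (M ∪ U ∪ I) x *
          phi ((gd μ (M ∪ insert i U) x * gd μ (M ∪ insert i U ∪ I) x *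
          qc μ τ m M (M ∪ insert i U) (M ∪ insert i U ∪ I) x) /
          (gd μ (M ∪ U) x * gd μ (M ∪ U ∪ I) x * qc μ τ m M (M ∪ U) (M ∪ U ∪ I) x)))) := by
    rw [mul_left_comm ((τ * t1) ^ M.card * (t1 * (1 - τ)) ^ I.card)]
    congr 1
    rw [mul_sum]
    refine sum_congr rfl fun U hU => ?_
    rw [hw U hU]
    have e : univ \ (M ∪ U ∪ I) = (univ \ (M ∪ I)) \ U := by
      ext j; simp only [mem_sdiff, mem_univ, true_and, mem_union, not_or]; tauto
    have e3 : Ps μ τ m M (M ∪ U) (M ∪ U ∪ I)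
        = ∑ i ∈ (univ \ (M ∪ I)) \ U, ∑ x, pw μ x * (gd μ (M ∪ U) x * gd μ (M ∪ U ∪ I) x *
          qc μ τ m M (M ∪ U) (M ∪ U ∪ I) x *
          phi ((gd μ (M ∪ insert i U) x * gd μ (M ∪ insert i U ∪ I) x *
          qc μ τ m M (M ∪ insert i U) (M ∪ insert i U ∪ I) x) /
          (gd μ (M ∪ U) x * gd μ (M ∪ U ∪ I) x * qc μ τ m M (M ∪ U) (M ∪ U ∪ I) x))) := by
      unfold Ps
      rw [e]
      refine sum_congr rfl fun i _ => sum_congr rfl fun x _ => ?_
      rw [union_insert, insert_union]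
    rw [e3]; ring
  rw [eL, eR]
  exact hsep2

end

end Vale.Agent.P042.H779
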