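import Vale.Agent.P042.H779.Asm1

/-! Assembly, second half. -/

namespace Vale.Agent.P042.H779

open Finset

section
variable {ι : Type*} [Fintype ι] [DecidableEq ι] {V : ι → Type*} [∀ i, Fintype (V i)]
  [∀ i, DecidableEq (V i)] {μ : (∀ i, V i) → ℝ}

/-- The consequence (P) of entropic independence used in the proof. -/
def PinBound (μ : (∀ i, V i) → ℝ) (lam gL : ℝ) : Prop :=
  ∀ (R : Finset ι) (x : ∀ i, V i), 0 < gd μ R x →
    lam * ∑ i ∈ univ \ R, ∑ a, m1 μ i a * phi (rt μ i (Function.update x i a) R)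
      ≤ gL * R.card - Real.log (gd μ R x)

/-- All atoms of the one-coordinate marginals are at least `exp (-L)`. -/
def AtomBound (μ : (∀ i, V i) → ℝ) (L : ℝ) : Prop :=
  ∀ i a, m1 μ i a = 0 ∨ Real.exp (-L) ≤ m1 μ i a

lemma PinBound.log_le (h : IsProb μ) {lam gL : ℝ} (hlam : 0 < lam) (hP : PinBound μ lam gL)
    {R : Finset ι} {x : ∀ i, V i} (hx : 0 < gd μ R x) :
    Real.log (gd μ R x) ≤ gL * R.card := by
  have h1 := hP R x hx
  have h2 : 0 ≤ lam * ∑ i ∈ univ \ R, ∑ a, m1 μ i a * phi (rt μ i (Function.update x i a) R) :=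
    mul_nonneg hlam.le (sum_nonneg fun i _ => sum_nonneg fun a _ =>
      mul_nonneg (m1_nonneg h i a) (phi_nonneg (rt_nonneg h _ _ _)))
  linarith

/-- grouping of the replicas by the core -/
lemma sum_reps_log (τ : ℝ) {m : ℕ} (A R : Finset ι) (x : ∀ i, V i) (f : Finset ι → ℝ) :
    ∑ α ∈ reps m R.powerset, (∏ j, post μ τ R x (α j)) * f (A ∩ inter α)
      = ∑ M ∈ A.powerset, qc μ τ m M A R x * f M := by
  have e1 : ∀ M ∈ A.powerset, qc μ τ m M A R x * f M
      = ∑ α ∈ reps m R.powerset, (∏ j, post μ τ R x (α j)) *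
        (if A ∩ inter α = M then f M else 0) := by
    intro M _
    unfold qc
    rw [sum_mul]
    refine sum_congr rfl fun α _ => ?_
    split_ifs <;> ring
  rw [sum_congr rfl e1, sum_comm]
  refine sum_congr rfl fun α _ => ?_
  rw [← mul_sum]
  congr 1
  have hmem : A ∩ inter α ∈ A.powerset := mem_powerset.mpr inter_subset_left
  rw [sum_ite_eq, if_pos hmem]

lemma step23 (h : IsProb μ) {τ t1 θ lam gL : ℝ} (h0 : 0 < τ) (h1 : τ < 1) (ht0 : 0 ≤ t1)
    (ht1 : t1 < 1) (hθ : 0 < θ) (hlam : 0 < lam) (hgL : 0 ≤ gL)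
    (hbig : gL + 1 ≤ Real.log (θ / τ)) (hP : PinBound μ lam gL) {m : ℕ} :
    ∑ R ∈ (univ : Finset ι).powerset, bw t1 univ R *
        ∑ x, pw μ x * (gd μ R x * (Tg μ τ R x * Real.log (Tg μ τ R x)))
      ≤ (∑ R ∈ (univ : Finset ι).powerset, ∑ A ∈ R.powerset, ∑ M ∈ A.powerset,
        bw t1 univ R * bw τ R A * Th μ τ m M A R)
        + gL * θ ^ m * Fintype.card ι * Gt μ (τ * t1) := by
  have key : ∀ R ∈ (univ : Finset ι).powerset, ∀ x : ∀ i, V i,
      gd μ R x * (Tg μ τ R x * Real.log (Tg μ τ R x))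
      ≤ (∑ A ∈ R.powerset, bw τ R A * ∑ M ∈ A.powerset, gd μ A x * gd μ R x *
          qc μ τ m M A R x * Real.log (gd μ A x / gd μ M x))
        + gL * θ ^ m * Fintype.card ι * (gd μ R x * Tg μ τ R x) := by
    intro R _ x
    have hT := Tg_pos h h0 h1 R x
    rcases (gd_nonneg h R x).eq_or_lt with hx | hx
    · rw [← hx]; simp
    have h2 := log_Tg_le h h0 h1 hθ hgL hbig m hx
      (fun M hM => hP.log_le h hlam (gd_pos_mono h hM hx))
    have hcard : (R.card : ℝ) ≤ Fintype.card ι := by exact_mod_cast card_le_univ R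
    have hθm : 0 ≤ gL * θ ^ m := by positivity
    have h3 : Real.log (Tg μ τ R x) ≤ (∑ A ∈ R.powerset, post μ τ R x A *
      ∑ M ∈ A.powerset, qc μ τ m M A R x * Real.log (gd μ A x / gd μ M x))
      + gL * θ ^ m * Fintype.card ι := by
      refine h2.trans (add_le_add (le_of_eq ?_) (mul_le_mul_of_nonneg_left hcard hθm))
      refine sum_congr rfl fun A _ => ?_
      rw [sum_reps_log τ A R x (fun M => Real.log (gd μ A x / gd μ M x))]
    have h4 := mul_le_mul_of_nonneg_left h3 (mul_nonneg hx.le hT.le)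
    have h5 : gd μ R x * Tg μ τ R x * (∑ A ∈ R.powerset, post μ τ R x A *
      ∑ M ∈ A.powerset, qc μ τ m M A R x * Real.log (gd μ A x / gd μ M x))
      = ∑ A ∈ R.powerset, bw τ R A * ∑ M ∈ A.powerset, gd μ A x * gd μ R x *
          qc μ τ m M A R x * Real.log (gd μ A x / gd μ M x) := by
      rw [mul_sum]
      refine sum_congr rfl fun A _ => ?_
      have h6 := Tg_mul_post h h0 h1 R x A
      calc gd μ R x * Tg μ τ R x * (post μ τ R x A *
            ∑ M ∈ A.powerset, qc μ τ m M A R x * Real.log (gd μ A x / gd μ M x))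
          = gd μ R x * (Tg μ τ R x * post μ τ R x A) *
            ∑ M ∈ A.powerset, qc μ τ m M A R x * Real.log (gd μ A x / gd μ M x) := by ring
        _ = bw τ R A * (gd μ A x * gd μ R x *
            ∑ M ∈ A.powerset, qc μ τ m M A R x * Real.log (gd μ A x / gd μ M x)) := by
            rw [h6]; ring
        _ = _ := by
            rw [mul_sum]
            congr 1
            exact sum_congr rfl fun M _ => by ring
    calc gd μ R x * (Tg μ τ R x * Real.log (Tg μ τ R x))
        = gd μ R x * Tg μ τ R x * Real.log (Tg μ τ R x) := by ring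
      _ ≤ _ := h4
      _ = _ := by rw [mul_add, h5]; ring
  have h7 : ∑ R ∈ (univ : Finset ι).powerset, bw t1 univ R *
        ∑ x, pw μ x * (gd μ R x * (Tg μ τ R x * Real.log (Tg μ τ R x)))
      ≤ ∑ R ∈ (univ : Finset ι).powerset, bw t1 univ R *
        ∑ x, pw μ x * ((∑ A ∈ R.powerset, bw τ R A * ∑ M ∈ A.powerset, gd μ A x * gd μ R x *
          qc μ τ m M A R x * Real.log (gd μ A x / gd μ M x))
        + gL * θ ^ m * Fintype.card ι * (gd μ R x * Tg μ τ R x)) :=
    sum_le_sum fun R hR => mul_le_mul_of_nonneg_left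
      (sum_le_sum fun x _ => mul_le_mul_of_nonneg_left (key R hR x) (pw_nonneg h x))
      (bw_nonneg' ht0 ht1.le _ _)
  refine h7.trans (le_of_eq ?_)
  have h8 : ∀ R ∈ (univ : Finset ι).powerset, bw t1 univ R *
        ∑ x, pw μ x * ((∑ A ∈ R.powerset, bw τ R A * ∑ M ∈ A.powerset, gd μ A x * gd μ R x *
          qc μ τ m M A R x * Real.log (gd μ A x / gd μ M x))
        + gL * θ ^ m * Fintype.card ι * (gd μ R x * Tg μ τ R x))
      = (∑ A ∈ R.powerset, ∑ M ∈ A.powerset, bw t1 univ R * bw τ R A * Th μ τ m M A R)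
        + gL * θ ^ m * Fintype.card ι *
          (bw t1 univ R * ∑ x, pw μ x * (gd μ R x * Tg μ τ R x)) := by
    intro R _
    have e1 : ∑ x, pw μ x * ((∑ A ∈ R.powerset, bw τ R A * ∑ M ∈ A.powerset,
          gd μ A x * gd μ R x * qc μ τ m M A R x * Real.log (gd μ A x / gd μ M x))
        + gL * θ ^ m * Fintype.card ι * (gd μ R x * Tg μ τ R x))
        = (∑ A ∈ R.powerset, ∑ M ∈ A.powerset, bw τ R A * Th μ τ m M A R)
          + gL * θ ^ m * Fintype.card ι * ∑ x, pw μ x * (gd μ R x * Tg μ τ R x) := by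
      have e2 : ∀ x, pw μ x * ((∑ A ∈ R.powerset, bw τ R A * ∑ M ∈ A.powerset,
          gd μ A x * gd μ R x * qc μ τ m M A R x * Real.log (gd μ A x / gd μ M x))
          + gL * θ ^ m * Fintype.card ι * (gd μ R x * Tg μ τ R x))
          = (∑ A ∈ R.powerset, ∑ M ∈ A.powerset, bw τ R A * (pw μ x * (gd μ A x * gd μ R x *
            qc μ τ m M A R x * Real.log (gd μ A x / gd μ M x))))
            + gL * θ ^ m * Fintype.card ι * (pw μ x * (gd μ R x * Tg μ τ R x)) := by
        intro x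
        rw [mul_add, mul_sum]
        congr 1
        · refine sum_congr rfl fun A _ => ?_
          rw [mul_sum, mul_sum]
          exact sum_congr rfl fun M _ => by ring
        · ring
      rw [sum_congr rfl fun x _ => e2 x, sum_add_distrib, ← mul_sum, sum_comm]
      congr 1
      refine sum_congr rfl fun A _ => ?_
      rw [sum_comm]
      refine sum_congr rfl fun M _ => ?_
      rw [← mul_sum]; rfl
    rw [e1, mul_add, mul_sum]
    congr 1
    · refine sum_congr rfl fun A _ => ?_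
      rw [mul_sum]
      exact sum_congr rfl fun M _ => by ring
    · ring
  rw [sum_congr rfl h8, sum_add_distrib, ← mul_sum, Gt_eq h]

lemma step45 (h : IsProb μ) {τ t1 L : ℝ} (h0 : 0 < τ) (ht0 : 0 ≤ t1)
    (ht1 : t1 < 1) {m : ℕ} (hm : 1 ≤ m) (hmτ : 16 * m * τ ≤ 1) (hL : 1 ≤ L)
    (hat : AtomBound μ L) :
    ∑ R ∈ (univ : Finset ι).powerset, ∑ A ∈ R.powerset,
        ∑ M ∈ A.powerset, bw t1 univ R * bw τ R A * Ps μ τ m M A R
      ≤ ∑ R ∈ (univ : Finset ι).powerset, bw t1 univ R * ∑ i ∈ univ \ R, ∑ x, pw μ x *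
        (gd μ R x * Tg μ τ R x * ((1100 * (m ^ 2 * L / τ)) * (phi (rt μ i x R) +
        ∑ A ∈ R.powerset, post μ τ R x A * phi (rt μ i x A)) + 4 * ((15 * τ) ^ m) ^ 2)) := by
  have hm' : (1 : ℝ) ≤ m := by exact_mod_cast hm
  have h1 : τ < 1 := by nlinarith
  refine sum_le_sum fun R _ => ?_
  have e1 : ∑ A ∈ R.powerset, ∑ M ∈ A.powerset, bw t1 univ R * bw τ R A * Ps μ τ m M A R
      = bw t1 univ R * ∑ i ∈ univ \ R, ∑ x, pw μ x * (gd μ R x * Tg μ τ R x *
        ∑ A ∈ R.powerset, post μ τ R x A * ∑ M ∈ A.powerset, qc μ τ m M A R x *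
        phi (gd μ (insert i A) x * gd μ (insert i R) x * qc μ τ m M (insert i A) (insert i R) x /
        (gd μ A x * gd μ R x * qc μ τ m M A R x))) := by
    have e2 : ∀ A ∈ R.powerset, ∀ M ∈ A.powerset, bw t1 univ R * bw τ R A * Ps μ τ m M A R
        = bw t1 univ R * ∑ i ∈ univ \ R, ∑ x, pw μ x * (gd μ R x * (bw τ R A * gd μ A x) *
          (qc μ τ m M A R x * phi (gd μ (insert i A) x * gd μ (insert i R) x *
          qc μ τ m M (insert i A) (insert i R) x /
          (gd μ A x * gd μ R x * qc μ τ m M A R x)))) := by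
      intro A _ M _
      unfold Ps
      rw [mul_assoc, mul_sum]
      congr 1
      refine sum_congr rfl fun i _ => ?_
      rw [mul_sum]
      exact sum_congr rfl fun x _ => by ring
    rw [sum_congr rfl fun A hA => sum_congr rfl fun M hM => e2 A hA M hM]
    simp only [← mul_sum]
    congr 1
    have e3 : ∀ A ∈ R.powerset, ∑ M ∈ A.powerset, ∑ i ∈ univ \ R, ∑ x, pw μ x *
          (gd μ R x * (bw τ R A * gd μ A x) *
          (qc μ τ m M A R x * phi (gd μ (insert i A) x * gd μ (insert i R) x *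
          qc μ τ m M (insert i A) (insert i R) x /
          (gd μ A x * gd μ R x * qc μ τ m M A R x))))
        = ∑ i ∈ univ \ R, ∑ x, pw μ x * (gd μ R x * Tg μ τ R x *
          (post μ τ R x A * ∑ M ∈ A.powerset, qc μ τ m M A R x *
          phi (gd μ (insert i A) x * gd μ (insert i R) x * qc μ τ m M (insert i A) (insert i R) x /
          (gd μ A x * gd μ R x * qc μ τ m M A R x)))) := by
      intro A _
      rw [sum_comm]
      refine sum_congr rfl fun i _ => ?_
      rw [sum_comm]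
      refine sum_congr rfl fun x _ => ?_
      rw [← mul_sum, ← mul_sum, ← Tg_mul_post h h0 h1]
      ring
    rw [sum_congr rfl e3, sum_comm]
    refine sum_congr rfl fun i _ => ?_
    rw [sum_comm]
    refine sum_congr rfl fun x _ => ?_
    rw [← mul_sum, ← mul_sum]
  rw [e1]
  refine mul_le_mul_of_nonneg_left ?_ (bw_nonneg' ht0 ht1.le _ _)
  refine sum_le_sum fun i hi => sum_le_sum fun x _ => ?_
  rw [mem_sdiff] at hi
  rcases (pw_nonneg h x).eq_or_lt with hpw | hpw
  · rw [← hpw]; simp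
  rcases (gd_nonneg h R x).eq_or_lt with hx | hx
  · rw [← hx]; simp
  have hT := Tg_pos h h0 h1 R x
  refine mul_le_mul_of_nonneg_left (mul_le_mul_of_nonneg_left ?_ (mul_nonneg hx.le hT.le)) hpw.le
  refine inner_bound h h0 hm hmτ hL hi.2 hx ?_
  rcases hat i (x i) with h2 | h2
  · exfalso
    unfold pw at hpw
    rw [prod_eq_zero (mem_univ i) h2] at hpw
    exact lt_irrefl _ hpw
  · exact h2

end

end Vale.Agent.P042.H779
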