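import Vale.Agent.P042.H779.Asm2

/-! Assembly, third part: the entropic independence bounds and the conclusion. -/

namespace Vale.Agent.P042.H779

open Finset

section
variable {ι : Type*} [Fintype ι] [DecidableEq ι] {V : ι → Type*} [∀ i, Fintype (V i)]
  [∀ i, DecidableEq (V i)] {μ : (∀ i, V i) → ℝ}

lemma rt_update (A : Finset ι) {i : ι} (hi : i ∉ A) (x : ∀ i, V i) (a : V i) :
    rt μ i (Function.update x i a) A
      = gd μ (insert i A) (Function.update x i a) / gd μ A x := by
  unfold rt; rw [gd_update A hi]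

/-- sum over the new coordinate against an independent weight -/
lemma pin_sum (h : IsProb μ) {lam gL : ℝ} (hP : PinBound μ lam gL) (hlam : 0 < lam)
    {A R : Finset ι} (hAR : A ⊆ R)
    (w : (∀ i, V i) → ℝ) (hw0 : ∀ x, 0 ≤ w x) (hwi : ∀ i ∈ univ \ R, Indep i w)
    (hwp : ∀ x, 0 < w x → 0 < gd μ A x) :
    ∑ i ∈ univ \ R, ∑ x, pw μ x * (w x * phi (rt μ i x A))
      ≤ (1 / lam) * ∑ x, pw μ x * (w x * (gL * A.card - Real.log (gd μ A x))) := by
  have e1 : ∀ i ∈ univ \ R, ∑ x, pw μ x * (w x * phi (rt μ i x A))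
      = ∑ x, pw μ x * (w x * ∑ a, m1 μ i a * phi (rt μ i (Function.update x i a) A)) := by
    intro i hi
    rw [pw_avg h i]
    refine sum_congr rfl fun x _ => ?_
    congr 1
    rw [mul_sum]
    refine sum_congr rfl fun a _ => ?_
    rw [hwi i hi x a]; ring
  rw [sum_congr rfl e1, sum_comm, mul_sum]
  refine sum_le_sum fun x _ => ?_
  have e2 : ∑ i ∈ univ \ R, pw μ x * (w x * ∑ a, m1 μ i a *
      phi (rt μ i (Function.update x i a) A))
      = pw μ x * (w x * ∑ i ∈ univ \ R, ∑ a, m1 μ i a *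
      phi (rt μ i (Function.update x i a) A)) := by
    rw [mul_sum, mul_sum]
  rw [e2, mul_left_comm (1 / lam) (pw μ x)]
  refine mul_le_mul_of_nonneg_left ?_ (pw_nonneg h x)
  rcases (hw0 x).eq_or_lt with hx | hx
  · rw [← hx]; simp
  have hgA := hwp x hx
  have h1 := hP A x hgA
  have h2 : ∑ i ∈ univ \ R, ∑ a, m1 μ i a * phi (rt μ i (Function.update x i a) A)
      ≤ ∑ i ∈ univ \ A, ∑ a, m1 μ i a * phi (rt μ i (Function.update x i a) A) := by
    refine sum_le_sum_of_subset_of_nonneg (sdiff_subset_sdiff le_rfl hAR) fun i _ _ => ?_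
    exact sum_nonneg fun a _ => mul_nonneg (m1_nonneg h i a) (phi_nonneg (rt_nonneg h _ _ _))
  rw [mul_left_comm (1 / lam) (w x)]
  refine mul_le_mul_of_nonneg_left ?_ hx.le
  rw [div_mul_eq_mul_div, one_mul, le_div_iff₀ hlam]
  calc (∑ i ∈ univ \ R, ∑ a, m1 μ i a * phi (rt μ i (Function.update x i a) A)) * lam
      ≤ (∑ i ∈ univ \ A, ∑ a, m1 μ i a * phi (rt μ i (Function.update x i a) A)) * lam :=
        mul_le_mul_of_nonneg_right h2 hlam.le
    _ = lam * ∑ i ∈ univ \ A, ∑ a, m1 μ i a * phi (rt μ i (Function.update x i a) A) :=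
        mul_comm _ _
    _ ≤ _ := h1

lemma mul_log_ge {y z : ℝ} (hy : 0 < y) (hz : 0 < z) : y - z ≤ y * Real.log (y / z) := by
  have h1 := Real.one_sub_inv_le_log_of_pos (show 0 < y / z by positivity)
  have h2 := mul_le_mul_of_nonneg_left h1 hy.le
  have h3 : y * (1 - (y / z)⁻¹) = y - z := by field_simp
  linarith

lemma log_nonneg_A (h : IsProb μ) {A R : Finset ι} (hAR : A ⊆ R) :
    0 ≤ ∑ x, pw μ x * (gd μ A x * gd μ R x * Real.log (gd μ A x)) := by
  have e1 : ∑ x, pw μ x * (gd μ A x * gd μ R x * Real.log (gd μ A x))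
      = ∑ x, pw μ x * (gd μ A x * Real.log (gd μ A x) * gd μ A x) := by
    have := pw_gd_subset h hAR (fun x => gd μ A x * Real.log (gd μ A x))
      (fun i _ hiA x a => by beta_reduce; rw [gd_update A hiA])
    rw [← this]
    exact sum_congr rfl fun x _ => by ring
  rw [e1]
  have e2 : ∑ x, pw μ x * (gd μ A x - 1) = 0 := by
    have : ∀ x, pw μ x * (gd μ A x - 1) = pw μ x * gd μ A x - pw μ x := fun x => by ring
    rw [sum_congr rfl fun x _ => this x, sum_sub_distrib, pw_gd_sum h, pw_sum h, sub_self]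
  rw [← e2]
  refine sum_le_sum fun x _ => mul_le_mul_of_nonneg_left ?_ (pw_nonneg h x)
  rcases (gd_nonneg h A x).eq_or_lt with hx | hx
  · rw [← hx]; simp
  · have h1 := mul_log_ge hx one_pos
    rw [div_one] at h1
    have h2 : gd μ A x * Real.log (gd μ A x) ≤ gd μ A x * Real.log (gd μ A x) * gd μ A x := by
      rcases le_total 1 (gd μ A x) with h3 | h3
      · have := Real.log_nonneg h3
        nlinarith [mul_nonneg hx.le this]
      · have := Real.log_nonpos hx.le h3
        nlinarith [mul_nonneg hx.le (neg_nonneg.mpr this)]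
    linarith

lemma log_nonneg_R (h : IsProb μ) {A R : Finset ι} (hAR : A ⊆ R) :
    0 ≤ ∑ x, pw μ x * (gd μ A x * gd μ R x * Real.log (gd μ R x)) := by
  have h1 := log_nonneg_A h hAR
  have h2 : 0 ≤ ∑ x, pw μ x * (gd μ A x * (gd μ R x - gd μ A x)) := by
    have e : ∀ x, pw μ x * (gd μ A x * (gd μ R x - gd μ A x))
        = pw μ x * (gd μ A x * gd μ R x) - pw μ x * gd μ A x ^ 2 := fun x => by ring
    rw [sum_congr rfl fun x _ => e x, sum_sub_distrib, pw_gd_gd h hAR]
    unfold Wq; simp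
  have h3 : ∑ x, pw μ x * (gd μ A x * (gd μ R x - gd μ A x))
      + ∑ x, pw μ x * (gd μ A x * gd μ R x * Real.log (gd μ A x))
      ≤ ∑ x, pw μ x * (gd μ A x * gd μ R x * Real.log (gd μ R x)) := by
    rw [← sum_add_distrib]
    refine sum_le_sum fun x _ => ?_
    rw [← mul_add]
    refine mul_le_mul_of_nonneg_left ?_ (pw_nonneg h x)
    rcases (gd_nonneg h R x).eq_or_lt with hx | hx
    · rw [← hx]
      have := gd_nonneg h A x
      nlinarith
    · have hA := gd_pos_mono h hAR hx
      have h4 := mul_le_mul_of_nonneg_left (mul_log_ge hx hA) hA.le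
      rw [Real.log_div hx.ne' hA.ne'] at h4
      nlinarith
  linarith

/-- Summed divergence bound. -/
lemma step6 (h : IsProb μ) {τ t1 lam gL : ℝ} (h0 : 0 < τ) (h1 : τ < 1) (ht0 : 0 ≤ t1)
    (ht1 : t1 ≤ 1 / 2) (hlam : 0 < lam) (hgL : 0 ≤ gL) (hP : PinBound μ lam gL) :
    ∑ R ∈ (univ : Finset ι).powerset, bw t1 univ R * ∑ i ∈ univ \ R, ∑ x, pw μ x *
        (gd μ R x * Tg μ τ R x * (phi (rt μ i x R) +
        ∑ A ∈ R.powerset, post μ τ R x A * phi (rt μ i x A)))
      ≤ (gL / lam) * (2 * ∑ A ∈ (univ : Finset ι).powerset, bw (τ * t1) univ A *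
        (Wq μ A * A.card) + 2 * t1 * Fintype.card ι * Gt μ (τ * t1)) := by
  have key : ∀ R ∈ (univ : Finset ι).powerset, ∑ i ∈ univ \ R, ∑ x, pw μ x *
        (gd μ R x * Tg μ τ R x * (phi (rt μ i x R) +
        ∑ A ∈ R.powerset, post μ τ R x A * phi (rt μ i x A)))
      ≤ (gL / lam) * ((∑ A ∈ R.powerset, bw τ R A * (Wq μ A * R.card))
        + ∑ A ∈ R.powerset, bw τ R A * (Wq μ A * A.card)) := by
    intro R _
    have hi' : ∀ i ∈ univ \ R, i ∉ R := fun i hi => (mem_sdiff.mp hi).2
    -- first part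
    have a1 : ∑ i ∈ univ \ R, ∑ x, pw μ x * (gd μ R x * Tg μ τ R x * phi (rt μ i x R))
        ≤ (1 / lam) * ∑ x, pw μ x * (gd μ R x * Tg μ τ R x *
          (gL * R.card - Real.log (gd μ R x))) := by
      refine pin_sum h hP hlam (subset_refl R) (fun x => gd μ R x * Tg μ τ R x)
        (fun x => mul_nonneg (gd_nonneg h R x) (Tg_pos h h0 h1 R x).le) ?_ ?_
      · intro i hi x a
        beta_reduce
        rw [gd_update R (hi' i hi), indep_Tg R (hi' i hi) x a]
      · intro x hx
        rcases (gd_nonneg h R x).eq_or_lt with h2 | h2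
        · rw [← h2] at hx; simp at hx
        · exact h2
    have a2 : ∑ x, pw μ x * (gd μ R x * Tg μ τ R x * (gL * R.card - Real.log (gd μ R x)))
        ≤ gL * ∑ A ∈ R.powerset, bw τ R A * (Wq μ A * R.card) := by
      have e1 : ∀ x, pw μ x * (gd μ R x * Tg μ τ R x * (gL * R.card - Real.log (gd μ R x)))
          = ∑ A ∈ R.powerset, bw τ R A * (gL * R.card * (pw μ x * (gd μ A x * gd μ R x))
            - pw μ x * (gd μ A x * gd μ R x * Real.log (gd μ R x))) := by
        intro x
        unfold Tg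
        rw [mul_sum, sum_mul, mul_sum]
        exact sum_congr rfl fun A _ => by ring
      rw [sum_congr rfl fun x _ => e1 x, sum_comm, mul_sum]
      refine sum_le_sum fun A hA => ?_
      have hAR := mem_powerset.mp hA
      rw [← mul_sum, sum_sub_distrib, ← mul_sum, pw_gd_gd h hAR]
      have h2 := log_nonneg_R h hAR
      have h3 := (bw_pos h0 h1 R A).le
      have h4 := mul_nonneg h3 h2
      nlinarith
    -- second part
    have b1 : ∑ i ∈ univ \ R, ∑ x, pw μ x * (gd μ R x * Tg μ τ R x *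
        ∑ A ∈ R.powerset, post μ τ R x A * phi (rt μ i x A))
        = ∑ A ∈ R.powerset, bw τ R A * ∑ i ∈ univ \ R, ∑ x, pw μ x *
          (gd μ A x * gd μ R x * phi (rt μ i x A)) := by
      have e1 : ∀ i ∈ univ \ R, ∀ x, pw μ x * (gd μ R x * Tg μ τ R x *
          ∑ A ∈ R.powerset, post μ τ R x A * phi (rt μ i x A))
          = ∑ A ∈ R.powerset, bw τ R A * (pw μ x *
          (gd μ A x * gd μ R x * phi (rt μ i x A))) := by
        intro i _ x
        rw [mul_sum, mul_sum]
        refine sum_congr rfl fun A _ => ?_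
        have h6 := Tg_mul_post h h0 h1 R x A
        calc pw μ x * (gd μ R x * Tg μ τ R x * (post μ τ R x A * phi (rt μ i x A)))
            = pw μ x * (gd μ R x * (Tg μ τ R x * post μ τ R x A) * phi (rt μ i x A)) := by ring
          _ = _ := by rw [h6]; ring
      rw [sum_congr rfl fun i hi => by rw [sum_congr rfl fun x _ => e1 i hi x, sum_comm]]
      rw [sum_comm]
      refine sum_congr rfl fun A _ => ?_
      rw [mul_sum]
      refine sum_congr rfl fun i _ => ?_
      rw [mul_sum]
    have b2 : ∀ A ∈ R.powerset, ∑ i ∈ univ \ R, ∑ x, pw μ x *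
          (gd μ A x * gd μ R x * phi (rt μ i x A)) ≤ (1 / lam) * (gL * (Wq μ A * A.card)) := by
      intro A hA
      have hAR := mem_powerset.mp hA
      have c1 := pin_sum h hP hlam hAR (fun x => gd μ A x * gd μ R x)
        (fun x => mul_nonneg (gd_nonneg h A x) (gd_nonneg h R x))
        (by
          intro i hi x a
          beta_reduce
          rw [gd_update R (hi' i hi), gd_update A (fun hc => hi' i hi (hAR hc))])
        (by
          intro x hx
          rcases (gd_nonneg h A x).eq_or_lt with h2 | h2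
          · rw [← h2] at hx; simp at hx
          · exact h2)
      refine c1.trans (mul_le_mul_of_nonneg_left ?_ (by positivity))
      have e1 : ∀ x, pw μ x * (gd μ A x * gd μ R x * (gL * A.card - Real.log (gd μ A x)))
          = gL * A.card * (pw μ x * (gd μ A x * gd μ R x))
            - pw μ x * (gd μ A x * gd μ R x * Real.log (gd μ A x)) := fun x => by ring
      rw [sum_congr rfl fun x _ => e1 x, sum_sub_distrib, ← mul_sum, pw_gd_gd h hAR]
      have := log_nonneg_A h hAR
      nlinarith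
    have b3 : ∑ A ∈ R.powerset, bw τ R A * ∑ i ∈ univ \ R, ∑ x, pw μ x *
          (gd μ A x * gd μ R x * phi (rt μ i x A))
        ≤ (1 / lam) * (gL * ∑ A ∈ R.powerset, bw τ R A * (Wq μ A * A.card)) := by
      rw [mul_sum, mul_sum]
      refine sum_le_sum fun A hA => ?_
      have := mul_le_mul_of_nonneg_left (b2 A hA) (bw_pos h0 h1 R A).le
      linarith
    have e3 : ∑ i ∈ univ \ R, ∑ x, pw μ x * (gd μ R x * Tg μ τ R x * (phi (rt μ i x R) +
        ∑ A ∈ R.powerset, post μ τ R x A * phi (rt μ i x A)))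
        = ∑ i ∈ univ \ R, ∑ x, pw μ x * (gd μ R x * Tg μ τ R x * phi (rt μ i x R))
          + ∑ i ∈ univ \ R, ∑ x, pw μ x * (gd μ R x * Tg μ τ R x *
        ∑ A ∈ R.powerset, post μ τ R x A * phi (rt μ i x A)) := by
      rw [← sum_add_distrib]
      refine sum_congr rfl fun i _ => ?_
      rw [← sum_add_distrib]
      exact sum_congr rfl fun x _ => by ring
    rw [e3, b1]
    have a3 := mul_le_mul_of_nonneg_left a2 (show 0 ≤ 1 / lam by positivity)
    calc _ ≤ (1 / lam) * (gL * ∑ A ∈ R.powerset, bw τ R A * (Wq μ A * R.card))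
          + (1 / lam) * (gL * ∑ A ∈ R.powerset, bw τ R A * (Wq μ A * A.card)) := by linarith
      _ = _ := by ring
  have h2 : ∑ R ∈ (univ : Finset ι).powerset, bw t1 univ R * ∑ i ∈ univ \ R, ∑ x, pw μ x *
        (gd μ R x * Tg μ τ R x * (phi (rt μ i x R) +
        ∑ A ∈ R.powerset, post μ τ R x A * phi (rt μ i x A)))
      ≤ ∑ R ∈ (univ : Finset ι).powerset, bw t1 univ R *
        ((gL / lam) * ((∑ A ∈ R.powerset, bw τ R A * (Wq μ A * R.card))
        + ∑ A ∈ R.powerset, bw τ R A * (Wq μ A * A.card))) :=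
    sum_le_sum fun R hR => mul_le_mul_of_nonneg_left (key R hR)
      (bw_nonneg' ht0 (by linarith) _ _)
  refine h2.trans ?_
  have e4 : ∑ R ∈ (univ : Finset ι).powerset, bw t1 univ R *
        ((gL / lam) * ((∑ A ∈ R.powerset, bw τ R A * (Wq μ A * R.card))
        + ∑ A ∈ R.powerset, bw τ R A * (Wq μ A * A.card)))
      = (gL / lam) * ((∑ R ∈ (univ : Finset ι).powerset, bw t1 univ R *
          ∑ A ∈ R.powerset, bw τ R A * (Wq μ A * R.card))
        + ∑ R ∈ (univ : Finset ι).powerset, bw t1 univ R *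
          ∑ A ∈ R.powerset, bw τ R A * (Wq μ A * A.card)) := by
    rw [← sum_add_distrib, mul_sum]
    exact sum_congr rfl fun R _ => by ring
  rw [e4, thinning univ t1 τ (fun A => Wq μ A * A.card)]
  have h3 := thinning_card (univ : Finset ι) h0.le h1.le ht0 ht1 (Wq μ)
    (fun A _ => Wq_nonneg h A)
  rw [card_univ] at h3
  refine mul_le_mul_of_nonneg_left ?_ (by positivity)
  unfold Gt
  linarith

/-- Mean size of the planted set. -/
lemma mean_size (h : IsProb μ) {t gL : ℝ} (ht0 : 0 ≤ t) (ht1 : t ≤ 1) (hgL : 0 ≤ gL)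
    (hlog : ∀ A x, 0 < gd μ A x → Real.log (gd μ A x) ≤ gL * A.card) :
    ∑ A ∈ (univ : Finset ι).powerset, bw t univ A * (Wq μ A * A.card)
      ≤ t * Fintype.card ι * Real.exp (gL + 1) * Gt μ t := by
  have hG1 := one_le_Gt (μ := μ) h ht0 ht1
  obtain ⟨G, hG⟩ : ∃ G, G = Gt μ t := ⟨_, rfl⟩
  rw [← hG] at hG1 ⊢
  have hG0 : 0 < G := by linarith
  have hW : ∀ A, Wq μ A ≤ Real.exp (gL * A.card) := by
    intro A
    have e : Real.exp (gL * A.card) = ∑ x, pw μ x * (Real.exp (gL * A.card) * gd μ A x) := by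
      have : ∀ x, pw μ x * (Real.exp (gL * A.card) * gd μ A x)
          = Real.exp (gL * A.card) * (pw μ x * gd μ A x) := fun x => by ring
      rw [sum_congr rfl fun x _ => this x, ← mul_sum, pw_gd_sum h, mul_one]
    rw [e]
    unfold Wq
    refine sum_le_sum fun x _ => mul_le_mul_of_nonneg_left ?_ (pw_nonneg h x)
    rw [sq]
    refine mul_le_mul_of_nonneg_right ?_ (gd_nonneg h A x)
    rcases (gd_nonneg h A x).eq_or_lt with hx | hx
    · rw [← hx]; exact Real.exp_nonneg _
    · rw [← Real.exp_log hx]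
      exact Real.exp_le_exp.mpr (hlog A x hx)
  obtain ⟨Z, hZ⟩ : ∃ Z, Z = ∑ A ∈ (univ : Finset ι).powerset,
    bw t univ A * Real.exp ((gL + 1) * A.card) := ⟨_, rfl⟩
  have hZe : Z = (t * Real.exp (gL + 1) + (1 - t)) ^ (Fintype.card ι) := by
    rw [hZ, ← card_univ, ← sum_pow_powerset]
    refine sum_congr rfl fun A _ => ?_
    unfold bw
    rw [mul_pow, ← Real.exp_nat_mul, mul_comm (A.card : ℝ)]; ring
  have hexp1 : 1 ≤ Real.exp (gL + 1) := Real.one_le_exp (by linarith)
  have hZ1 : 1 ≤ Z := by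
    rw [hZe]; exact one_le_pow₀ (by nlinarith)
  have hZ0 : 0 < Z := by linarith
  have hlogZ : Real.log Z ≤ t * Fintype.card ι * Real.exp (gL + 1) := by
    rw [hZe, Real.log_pow]
    have hb : 0 < t * Real.exp (gL + 1) + (1 - t) := by nlinarith
    have := Real.log_le_sub_one_of_pos hb
    have h2 : Real.log (t * Real.exp (gL + 1) + (1 - t)) ≤ t * Real.exp (gL + 1) := by
      nlinarith
    calc (Fintype.card ι : ℝ) * Real.log (t * Real.exp (gL + 1) + (1 - t))
        ≤ Fintype.card ι * (t * Real.exp (gL + 1)) :=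
          mul_le_mul_of_nonneg_left h2 (by positivity)
      _ = _ := by ring
  -- Gibbs
  have hpt : ∀ A ∈ (univ : Finset ι).powerset,
      bw t univ A * Wq μ A - bw t univ A * Real.exp ((gL + 1) * A.card) * (G / Z)
      ≤ bw t univ A * Wq μ A * (Real.log Z - Real.log G) - bw t univ A * (Wq μ A * A.card) := by
    intro A _
    have hb := bw_nonneg' ht0 ht1 (univ : Finset ι) A
    have hW1 : 0 < Wq μ A := by linarith [one_le_Wq h A]
    have h2 := Real.log_le_sub_one_of_pos
      (show 0 < Real.exp ((gL + 1) * A.card) * (G / Z) / Wq μ A by positivity)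
    rw [Real.log_div (by positivity) hW1.ne', Real.log_mul (Real.exp_pos _).ne' (by positivity),
      Real.log_exp, Real.log_div hG0.ne' hZ0.ne'] at h2
    have h3 : Real.log (Wq μ A) ≤ gL * A.card := by
      rw [Real.log_le_iff_le_exp hW1]; exact hW A
    have h4 : (A.card : ℝ) + Real.log G - Real.log Z
        ≤ Real.exp ((gL + 1) * A.card) * (G / Z) / Wq μ A - 1 := by linarith
    have h5 := mul_le_mul_of_nonneg_left h4 (mul_nonneg hb hW1.le)
    have h6 : bw t univ A * Wq μ A * (Real.exp ((gL + 1) * A.card) * (G / Z) / Wq μ A - 1)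
        = bw t univ A * Real.exp ((gL + 1) * A.card) * (G / Z) - bw t univ A * Wq μ A := by
      field_simp
    rw [h6] at h5
    nlinarith
  have hsum := sum_le_sum hpt
  rw [sum_sub_distrib, sum_sub_distrib, ← sum_mul, ← sum_mul, ← hZ] at hsum
  have hGs : ∑ A ∈ (univ : Finset ι).powerset, bw t univ A * Wq μ A = G := hG.symm
  rw [hGs, mul_div_cancel₀ _ hZ0.ne', sub_self] at hsum
  have hlG : 0 ≤ Real.log G := Real.log_nonneg hG1
  have h7 : G * (Real.log Z - Real.log G) ≤ G * (t * Fintype.card ι * Real.exp (gL + 1)) :=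
    mul_le_mul_of_nonneg_left (by linarith) hG0.le
  linarith

end

end Vale.Agent.P042.H779
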