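import Vale.Agent.P042.H779.Post

/-! Reindexing of sums over chains of finite sets. -/

namespace Vale.Agent.P042.H779

open Finset

section
variable {ι : Type*} [DecidableEq ι]

lemma chain2 (Ω : Finset ι) (f : Finset ι → Finset ι → ℝ) :
    ∑ R ∈ Ω.powerset, ∑ A ∈ R.powerset, f A R
      = ∑ A ∈ Ω.powerset, ∑ I ∈ (Ω \ A).powerset, f A (A ∪ I) := by
  rw [sum_sigma', sum_sigma']
  refine sum_bij' (fun p _ => (⟨p.2, p.1 \ p.2⟩ : (_ : Finset ι) × Finset ι))
    (fun p _ => (⟨p.1 ∪ p.2, p.1⟩ : (_ : Finset ι) × Finset ι)) ?_ ?_ ?_ ?_ ?_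
  · rintro ⟨R, A⟩ hp
    simp only [mem_sigma, mem_powerset] at hp ⊢
    exact ⟨hp.2.trans hp.1, sdiff_subset_sdiff hp.1 le_rfl⟩
  · rintro ⟨A, I⟩ hp
    simp only [mem_sigma, mem_powerset] at hp ⊢
    exact ⟨union_subset hp.1 (hp.2.trans sdiff_subset), subset_union_left⟩
  · rintro ⟨R, A⟩ hp
    simp only [mem_sigma, mem_powerset] at hp
    simp [union_sdiff_of_subset hp.2]
  · rintro ⟨A, I⟩ hp
    simp only [mem_sigma, mem_powerset] at hp
    have hd : Disjoint A I := by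
      rw [disjoint_left]; intro a ha hc
      exact (mem_sdiff.mp (hp.2 hc)).2 ha
    simp only [Sigma.mk.injEq, heq_eq_eq, true_and]
    exact union_sdiff_cancel_left hd
  · rintro ⟨R, A⟩ hp
    simp only [mem_sigma, mem_powerset] at hp
    simp only [union_sdiff_of_subset hp.2]

lemma swap2 (N : Finset ι) (g : Finset ι → Finset ι → ℝ) :
    ∑ U ∈ N.powerset, ∑ I ∈ (N \ U).powerset, g U I
      = ∑ I ∈ N.powerset, ∑ U ∈ (N \ I).powerset, g U I := by
  refine sum_comm' fun U I => ?_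
  simp only [mem_powerset, subset_sdiff]
  constructor
  · rintro ⟨h1, h2, h3⟩; exact ⟨⟨h1, h3.symm⟩, h2⟩
  · rintro ⟨⟨h1, h2⟩, h3⟩; exact ⟨h1, h3, h2.symm⟩

lemma chain3 (Ω : Finset ι) (H : Finset ι → Finset ι → Finset ι → ℝ) :
    ∑ R ∈ Ω.powerset, ∑ A ∈ R.powerset, ∑ M ∈ A.powerset, H M A R
      = ∑ M ∈ Ω.powerset, ∑ I ∈ (Ω \ M).powerset, ∑ U ∈ (Ω \ (M ∪ I)).powerset,
          H M (M ∪ U) (M ∪ U ∪ I) := by
  rw [chain2 Ω (fun A R => ∑ M ∈ A.powerset, H M A R)]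
  have e1 : ∀ A ∈ Ω.powerset, ∑ I ∈ (Ω \ A).powerset, ∑ M ∈ A.powerset, H M A (A ∪ I)
      = ∑ M ∈ A.powerset, ∑ I ∈ (Ω \ A).powerset, H M A (A ∪ I) := fun A _ => sum_comm
  rw [sum_congr rfl e1, chain2 Ω (fun M A => ∑ I ∈ (Ω \ A).powerset, H M A (A ∪ I))]
  refine sum_congr rfl fun M _ => ?_
  have e2 : ∀ U ∈ (Ω \ M).powerset, ∑ I ∈ (Ω \ (M ∪ U)).powerset, H M (M ∪ U) (M ∪ U ∪ I)
      = ∑ I ∈ ((Ω \ M) \ U).powerset, H M (M ∪ U) (M ∪ U ∪ I) := by
    intro U _; rw [sdiff_sdiff_left]; rfl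
  rw [sum_congr rfl e2, swap2 (Ω \ M) (fun U I => H M (M ∪ U) (M ∪ U ∪ I))]
  refine sum_congr rfl fun I _ => ?_
  rw [sdiff_sdiff_left]; rfl

/-- product of the two Bernoulli weights along a chain -/
lemma bw_chain {t1 τ : ℝ} {Ω A I : Finset ι} (hI : I ⊆ Ω \ A) :
    bw t1 Ω (A ∪ I) * bw τ (A ∪ I) A
      = (τ * t1) ^ A.card * ((t1 * (1 - τ)) ^ I.card * (1 - t1) ^ ((Ω \ A) \ I).card) := by
  have hd : Disjoint A I := by
    rw [disjoint_left]; intro a ha hc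
    exact (mem_sdiff.mp (hI hc)).2 ha
  unfold bw
  have e : (Ω \ A) \ I = Ω \ (A ∪ I) := by rw [sdiff_sdiff_left]; rfl
  rw [card_union_of_disjoint hd, union_sdiff_cancel_left hd, e, pow_add, mul_pow, mul_pow]
  ring

lemma sum_pow_powerset (S : Finset ι) (c d : ℝ) :
    ∑ I ∈ S.powerset, c ^ I.card * d ^ (S \ I).card = (c + d) ^ S.card := by
  have := Finset.prod_add (fun _ : ι => c) (fun _ => d) S
  simp only [prod_const] at this
  exact this.symm

lemma sum_card_pow_powerset (S : Finset ι) (c d : ℝ) :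
    (c + d) * ∑ I ∈ S.powerset, c ^ I.card * d ^ (S \ I).card * (I.card : ℝ)
      = S.card * c * (c + d) ^ S.card := by
  induction S using Finset.induction_on with
  | empty => simp
  | insert u S hu ih =>
    rw [sum_powerset_insert hu]
    have e1 : ∀ I ∈ S.powerset, c ^ I.card * d ^ (insert u S \ I).card * (I.card : ℝ)
        = d * (c ^ I.card * d ^ (S \ I).card * (I.card : ℝ)) := by
      intro I hI
      have huI : u ∉ I := fun hc => hu (mem_powerset.mp hI hc)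
      rw [insert_sdiff_of_notMem _ huI, card_insert_of_notMem (by simp [hu]), pow_succ]; ring
    have e2 : ∀ I ∈ S.powerset, c ^ (insert u I).card * d ^ (insert u S \ insert u I).card *
        ((insert u I).card : ℝ)
        = c * (c ^ I.card * d ^ (S \ I).card * (I.card : ℝ))
          + c * (c ^ I.card * d ^ (S \ I).card) := by
      intro I hI
      have huI : u ∉ I := fun hc => hu (mem_powerset.mp hI hc)
      have : insert u S \ insert u I = S \ I := by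
        ext j
        simp only [mem_sdiff, mem_insert, not_or]
        constructor
        · rintro ⟨h1 | h1, h2, h3⟩
          · exact absurd h1 h2
          · exact ⟨h1, h3⟩
        · rintro ⟨h1, h2⟩
          exact ⟨Or.inr h1, fun hc => hu (hc ▸ h1), h2⟩
      rw [this, card_insert_of_notMem huI, pow_succ]; push_cast; ring
    rw [sum_congr rfl e1, sum_congr rfl e2, sum_add_distrib, ← mul_sum, ← mul_sum, ← mul_sum,
      sum_pow_powerset, card_insert_of_notMem hu, pow_succ]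
    push_cast
    linear_combination (c + d) * ih

/-- thinning -/
lemma thinning (Ω : Finset ι) (t1 τ : ℝ) (W : Finset ι → ℝ) :
    ∑ R ∈ Ω.powerset, bw t1 Ω R * ∑ A ∈ R.powerset, bw τ R A * W A
      = ∑ A ∈ Ω.powerset, bw (τ * t1) Ω A * W A := by
  have e0 : ∀ R ∈ Ω.powerset, bw t1 Ω R * ∑ A ∈ R.powerset, bw τ R A * W A
      = ∑ A ∈ R.powerset, bw t1 Ω R * bw τ R A * W A := by
    intro R _; rw [mul_sum]; exact sum_congr rfl fun A _ => by ring
  rw [sum_congr rfl e0, chain2 Ω (fun A R => bw t1 Ω R * bw τ R A * W A)]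
  refine sum_congr rfl fun A _ => ?_
  have e1 : ∀ I ∈ (Ω \ A).powerset, bw t1 Ω (A ∪ I) * bw τ (A ∪ I) A * W A
      = (τ * t1) ^ A.card * W A *
        ((t1 * (1 - τ)) ^ I.card * (1 - t1) ^ ((Ω \ A) \ I).card) := by
    intro I hI
    rw [bw_chain (mem_powerset.mp hI)]; ring
  rw [sum_congr rfl e1, ← mul_sum, sum_pow_powerset]
  unfold bw
  have : t1 * (1 - τ) + (1 - t1) = 1 - τ * t1 := by ring
  rw [this]; ring

/-- thinning with the size of the outer set -/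
lemma thinning_card (Ω : Finset ι) {t1 τ : ℝ} (h0 : 0 ≤ τ) (h1 : τ ≤ 1) (ht : 0 ≤ t1)
    (ht2 : t1 ≤ 1 / 2) (W : Finset ι → ℝ) (hW : ∀ A ∈ Ω.powerset, 0 ≤ W A) :
    ∑ R ∈ Ω.powerset, bw t1 Ω R * ∑ A ∈ R.powerset, bw τ R A * (W A * R.card)
      ≤ ∑ A ∈ Ω.powerset, bw (τ * t1) Ω A * (W A * A.card)
        + 2 * t1 * Ω.card * ∑ A ∈ Ω.powerset, bw (τ * t1) Ω A * W A := by
  have e0 : ∀ R ∈ Ω.powerset, bw t1 Ω R * ∑ A ∈ R.powerset, bw τ R A * (W A * R.card)
      = ∑ A ∈ R.powerset, bw t1 Ω R * bw τ R A * (W A * R.card) := by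
    intro R _; rw [mul_sum]; exact sum_congr rfl fun A _ => by ring
  rw [sum_congr rfl e0, chain2 Ω (fun A R => bw t1 Ω R * bw τ R A * (W A * R.card)), mul_sum,
    ← sum_add_distrib]
  refine sum_le_sum fun A hA => ?_
  have e1 : ∀ I ∈ (Ω \ A).powerset, bw t1 Ω (A ∪ I) * bw τ (A ∪ I) A * (W A * (A ∪ I).card)
      = (τ * t1) ^ A.card * W A * A.card *
        ((t1 * (1 - τ)) ^ I.card * (1 - t1) ^ ((Ω \ A) \ I).card)
        + (τ * t1) ^ A.card * W A *
        ((t1 * (1 - τ)) ^ I.card * (1 - t1) ^ ((Ω \ A) \ I).card * (I.card : ℝ)) := by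
    intro I hI
    have hd : Disjoint A I := by
      rw [disjoint_left]; intro a ha hc
      exact (mem_sdiff.mp (mem_powerset.mp hI hc)).2 ha
    rw [bw_chain (mem_powerset.mp hI), card_union_of_disjoint hd]; push_cast; ring
  rw [sum_congr rfl e1, sum_add_distrib, ← mul_sum, ← mul_sum, sum_pow_powerset]
  have hcd : t1 * (1 - τ) + (1 - t1) = 1 - τ * t1 := by ring
  have e2 := sum_card_pow_powerset (Ω \ A) (t1 * (1 - τ)) (1 - t1)
  rw [hcd] at e2 ⊢
  have hge : 1 / 2 ≤ 1 - τ * t1 := by nlinarith [mul_nonneg h0 ht]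
  obtain ⟨Sg, hSg⟩ : ∃ Sg, Sg = ∑ I ∈ (Ω \ A).powerset,
    (t1 * (1 - τ)) ^ I.card * (1 - t1) ^ ((Ω \ A) \ I).card * (I.card : ℝ) := ⟨_, rfl⟩
  rw [← hSg] at e2 ⊢
  have hSg0 : 0 ≤ Sg := by
    rw [hSg]
    refine sum_nonneg fun I _ => ?_
    have : 0 ≤ 1 - t1 := by linarith
    have : 0 ≤ 1 - τ := by linarith
    positivity
  have hcard : ((Ω \ A).card : ℝ) ≤ Ω.card := by exact_mod_cast card_le_card sdiff_subset
  have hP0 : 0 ≤ (1 - τ * t1) ^ (Ω \ A).card := pow_nonneg (by linarith) _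
  have e3 : Sg ≤ 2 * t1 * Ω.card * (1 - τ * t1) ^ (Ω \ A).card := by
    have h5 : 1 / 2 * Sg ≤ (1 - τ * t1) * Sg := mul_le_mul_of_nonneg_right hge hSg0
    have h6 : ((Ω \ A).card : ℝ) * (t1 * (1 - τ)) ≤ Ω.card * t1 := by
      apply mul_le_mul hcard _ _ (by positivity)
      · nlinarith [mul_nonneg h0 ht]
      · exact mul_nonneg ht (by linarith)
    have h7 := mul_le_mul_of_nonneg_right h6 hP0
    linarith
  have hWA := hW A hA
  have h8 : 0 ≤ (τ * t1) ^ A.card * W A := by positivity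
  have h9 := mul_le_mul_of_nonneg_left e3 h8
  unfold bw
  have h10 : (τ * t1) ^ A.card * W A * A.card * (1 - τ * t1) ^ (Ω \ A).card
      = (τ * t1) ^ A.card * (1 - τ * t1) ^ (Ω \ A).card * (W A * A.card) := by ring
  have h11 : (τ * t1) ^ A.card * W A * (2 * t1 * Ω.card * (1 - τ * t1) ^ (Ω \ A).card)
      = 2 * t1 * Ω.card * ((τ * t1) ^ A.card * (1 - τ * t1) ^ (Ω \ A).card * W A) := by ring
  linarith

end

end Vale.Agent.P042.H779
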