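import Vale.Agent.P042.H779.Post

/-! The entropy step for one outer configuration. -/

namespace Vale.Agent.P042.H779

open Finset

section
variable {ι : Type*} [Fintype ι] [DecidableEq ι] {V : ι → Type*} [∀ i, Fintype (V i)]
  [∀ i, DecidableEq (V i)] {μ : (∀ i, V i) → ℝ}

/-- posterior membership probability -/
noncomputable def pu (μ : (∀ i, V i) → ℝ) (τ : ℝ) (R : Finset ι) (x : ∀ i, V i) (u : ι) : ℝ :=
  ∑ A ∈ R.powerset, post μ τ R x A * (if u ∈ A then 1 else 0)

lemma pu_nonneg (h : IsProb μ) {τ : ℝ} (h0 : 0 < τ) (h1 : τ < 1) (R : Finset ι)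
    (x : ∀ i, V i) (u : ι) : 0 ≤ pu μ τ R x u :=
  sum_nonneg fun A _ => mul_nonneg (post_nonneg h h0 h1 R x A) (by split_ifs <;> norm_num)

lemma pu_le_one (h : IsProb μ) {τ : ℝ} (h0 : 0 < τ) (h1 : τ < 1) (R : Finset ι)
    (x : ∀ i, V i) (u : ι) : pu μ τ R x u ≤ 1 := by
  rw [← post_sum h h0 h1 R x]
  refine sum_le_sum fun A _ => ?_
  have := post_nonneg h h0 h1 R x A
  split_ifs <;> simp [this]

lemma sum_post_mem (R : Finset ι) (x : ∀ i, V i) (τ : ℝ) (c : ι → ℝ) :
    ∑ A ∈ R.powerset, post μ τ R x A * ∑ u ∈ A, c u = ∑ u ∈ R, pu μ τ R x u * c u := by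
  have h1 : ∀ A ∈ R.powerset, post μ τ R x A * ∑ u ∈ A, c u
      = ∑ u ∈ R, post μ τ R x A * (if u ∈ A then 1 else 0) * c u := by
    intro A hA
    rw [mem_powerset] at hA
    rw [mul_sum, ← sum_subset hA]
    · refine sum_congr rfl fun u hu => by simp [hu]
    · intro u _ hu; simp [hu]
  rw [sum_congr rfl h1, sum_comm]
  refine sum_congr rfl fun u _ => ?_
  rw [← sum_mul]; rfl

/-- Lower bound of the relative entropy of the posterior by its likely elements. -/
lemma kl_lower (h : IsProb μ) {τ θ : ℝ} (h0 : 0 < τ) (h1 : τ < 1) (hθ : 0 < θ)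
    {R : Finset ι} {x : ∀ i, V i} (hx : 0 < gd μ R x) :
    ∑ u ∈ R.filter (fun u => θ ≤ pu μ τ R x u), pu μ τ R x u * (Real.log (θ / τ) - 1)
      ≤ ∑ A ∈ R.powerset, post μ τ R x A * Real.log (post μ τ R x A / bw τ R A) := by
  have hpos : ∀ u ∈ R.filter (fun u => θ ≤ pu μ τ R x u), 0 < pu μ τ R x u := by
    intro u hu; exact lt_of_lt_of_le hθ (mem_filter.mp hu).2
  obtain ⟨c, hc⟩ : ∃ c : ι → ℝ, c = fun u => if θ ≤ pu μ τ R x u then
    Real.log (pu μ τ R x u / τ) else 0 := ⟨_, rfl⟩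
  have hτ' : 0 < 1 - τ := by linarith
  have hfac : ∀ u, 0 < 1 - τ + τ * Real.exp (c u) := fun u => by positivity
  obtain ⟨Z, hZ⟩ : ∃ Z, Z = ∑ u ∈ R, Real.log (1 - τ + τ * Real.exp (c u)) := ⟨_, rfl⟩
  have hexpZ : Real.exp Z = ∏ u ∈ R, (1 - τ + τ * Real.exp (c u)) := by
    rw [hZ, Real.exp_sum]
    exact prod_congr rfl fun u _ => Real.exp_log (hfac u)
  have hsum1 : ∑ A ∈ R.powerset, bw τ R A * Real.exp (∑ u ∈ A, c u - Z) = 1 := by
    have h2 : ∀ A ∈ R.powerset, bw τ R A * Real.exp (∑ u ∈ A, c u - Z)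
        = ((∏ u ∈ A, τ * Real.exp (c u)) * ∏ _u ∈ R \ A, (1 - τ)) / Real.exp Z := by
      intro A _
      rw [Real.exp_sub, Real.exp_sum, prod_mul_distrib, prod_const, prod_const]
      unfold bw; ring
    rw [sum_congr rfl h2, ← sum_div, ← Finset.prod_add, hexpZ]
    have : ∏ i ∈ R, (τ * Real.exp (c i) + (1 - τ)) = ∏ i ∈ R, (1 - τ + τ * Real.exp (c i)) :=
      prod_congr rfl fun i _ => by ring
    rw [this]
    exact div_self (prod_pos fun u _ => hfac u).ne'
  have hpt : ∀ A ∈ R.powerset, post μ τ R x A * (∑ u ∈ A, c u - Z) + post μ τ R x A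
      - bw τ R A * Real.exp (∑ u ∈ A, c u - Z)
      ≤ post μ τ R x A * Real.log (post μ τ R x A / bw τ R A) := by
    intro A hA
    have hA' := mem_powerset.mp hA
    have hpA : 0 < post μ τ R x A := post_pos h h0 h1 (gd_pos_mono h hA' hx)
    have hbA := bw_pos h0 h1 R A
    have h3 := Real.log_le_sub_one_of_pos
      (show 0 < bw τ R A * Real.exp (∑ u ∈ A, c u - Z) / post μ τ R x A by positivity)
    rw [Real.log_div (by positivity) hpA.ne', Real.log_mul hbA.ne' (Real.exp_pos _).ne',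
      Real.log_exp] at h3
    have h4 := mul_le_mul_of_nonneg_left h3 hpA.le
    have h5 : post μ τ R x A * (bw τ R A * Real.exp (∑ u ∈ A, c u - Z) / post μ τ R x A - 1)
        = bw τ R A * Real.exp (∑ u ∈ A, c u - Z) - post μ τ R x A := by
      field_simp
    rw [h5] at h4
    rw [Real.log_div hpA.ne' hbA.ne']
    nlinarith
  have hsum := sum_le_sum hpt
  rw [sum_sub_distrib, sum_add_distrib, hsum1, post_sum h h0 h1 R x] at hsum
  have h6 : ∑ A ∈ R.powerset, post μ τ R x A * (∑ u ∈ A, c u - Z)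
      = ∑ u ∈ R, pu μ τ R x u * c u - Z := by
    have : ∀ A ∈ R.powerset, post μ τ R x A * (∑ u ∈ A, c u - Z)
        = post μ τ R x A * ∑ u ∈ A, c u - Z * post μ τ R x A := fun A _ => by ring
    rw [sum_congr rfl this, sum_sub_distrib, sum_post_mem, ← mul_sum, post_sum h h0 h1, mul_one]
  rw [h6] at hsum
  have h7 : ∑ u ∈ R.filter (fun u => θ ≤ pu μ τ R x u), pu μ τ R x u * (Real.log (θ / τ) - 1)
      ≤ ∑ u ∈ R, pu μ τ R x u * c u - Z := by
    rw [hZ, ← sum_sub_distrib, sum_filter]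
    refine sum_le_sum fun u _ => ?_
    split_ifs with hu
    · have hpu : 0 < pu μ τ R x u := lt_of_lt_of_le hθ hu
      have hcu : c u = Real.log (pu μ τ R x u / τ) := by rw [hc]; simp [hu]
      rw [hcu, Real.exp_log (by positivity), mul_div_cancel₀ _ h0.ne']
      have h8 := Real.log_le_sub_one_of_pos (show 0 < 1 - τ + pu μ τ R x u by linarith)
      have h9 : Real.log (θ / τ) ≤ Real.log (pu μ τ R x u / τ) :=
        Real.log_le_log (by positivity) (by gcongr)
      have h10 := mul_le_mul_of_nonneg_left h9 hpu.le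
      linarith
    · have hcu : c u = 0 := by rw [hc]; simp [hu]
      rw [hcu]; simp
  linarith

/-- expected size of the core -/
lemma core_size {τ : ℝ} (m : ℕ)
    (R : Finset ι) (x : ∀ i, V i) :
    ∑ A ∈ R.powerset, post μ τ R x A * ∑ α ∈ reps m R.powerset,
      (∏ j, post μ τ R x (α j)) * ((A ∩ inter α).card : ℝ)
      = ∑ u ∈ R, pu μ τ R x u ^ (m + 1) := by
  have e1 : ∀ A ∈ R.powerset, ∀ α ∈ reps m R.powerset, ((A ∩ inter α).card : ℝ)
      = ∑ u ∈ R, (if u ∈ A then (1 : ℝ) else 0) * ∏ j, (if u ∈ α j then (1 : ℝ) else 0) := by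
    intro A hA α _
    rw [mem_powerset] at hA
    have hsub : A ∩ inter α ⊆ R := inter_subset_left.trans hA
    rw [card_eq_sum_ones, Nat.cast_sum, ← sum_subset hsub]
    · refine sum_congr rfl fun u hu => ?_
      rw [mem_inter] at hu
      have h2 : ∀ j, u ∈ α j := by simpa [inter] using hu.2
      rw [if_pos hu.1, prod_eq_one fun j _ => if_pos (h2 j)]; simp
    · intro u _ hu
      rw [mem_inter, not_and_or] at hu
      rcases hu with hu | hu
      · simp [hu]
      · have : ∃ j, u ∉ α j := by simpa [inter] using hu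
        obtain ⟨j, hj⟩ := this
        rw [prod_eq_zero (mem_univ j) (if_neg hj)]; simp
  have e2 : ∀ A ∈ R.powerset, post μ τ R x A * ∑ α ∈ reps m R.powerset,
      (∏ j, post μ τ R x (α j)) * ((A ∩ inter α).card : ℝ)
      = ∑ u ∈ R, (post μ τ R x A * (if u ∈ A then (1 : ℝ) else 0)) * pu μ τ R x u ^ m := by
    intro A hA
    have e3 : ∑ α ∈ reps m R.powerset, (∏ j, post μ τ R x (α j)) * ((A ∩ inter α).card : ℝ)
        = ∑ u ∈ R, (if u ∈ A then (1 : ℝ) else 0) * pu μ τ R x u ^ m := by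
      rw [sum_congr rfl fun α hα => by rw [e1 A hA α hα, mul_sum], sum_comm]
      refine sum_congr rfl fun u _ => ?_
      have e4 := pi_sum_prod (m := m) R.powerset (post μ τ R x)
        (fun _ B => if u ∈ B then (1 : ℝ) else 0)
      have e5 : ∏ _j : Fin m, ∑ B ∈ R.powerset, post μ τ R x B * (if u ∈ B then (1 : ℝ) else 0)
          = pu μ τ R x u ^ m := by simp [pu]
      rw [e5] at e4
      rw [← e4, mul_sum]
      exact sum_congr rfl fun α _ => by ring
    rw [e3, mul_sum]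
    exact sum_congr rfl fun u _ => by ring
  rw [sum_congr rfl e2, sum_comm]
  refine sum_congr rfl fun u _ => ?_
  rw [← sum_mul, pow_succ']
  rfl

/-- Step 2 for one outer configuration. -/
lemma log_Tg_le (h : IsProb μ) {τ θ gL : ℝ} (h0 : 0 < τ) (h1 : τ < 1) (hθ : 0 < θ)
    (hgL : 0 ≤ gL) (hbig : gL + 1 ≤ Real.log (θ / τ)) (m : ℕ)
    {R : Finset ι} {x : ∀ i, V i} (hx : 0 < gd μ R x)
    (hlog : ∀ M ⊆ R, Real.log (gd μ M x) ≤ gL * M.card) :
    Real.log (Tg μ τ R x) ≤ (∑ A ∈ R.powerset, post μ τ R x A * ∑ α ∈ reps m R.powerset,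
      (∏ j, post μ τ R x (α j)) * Real.log (gd μ A x / gd μ (A ∩ inter α) x))
      + gL * θ ^ m * R.card := by
  have hT := Tg_pos h h0 h1 R x
  have hps := post_sum h h0 h1 R x
  have hgA : ∀ A ∈ R.powerset, 0 < gd μ A x := fun A hA => gd_pos_mono h (mem_powerset.mp hA) hx
  have hone : ∑ α ∈ reps m R.powerset, (∏ j, post μ τ R x (α j)) = 1 :=
    pi_sum_one R.powerset (post μ τ R x) hps
  -- split of log T
  have e1 : Real.log (Tg μ τ R x) = ∑ A ∈ R.powerset, post μ τ R x A * Real.log (gd μ A x)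
      - ∑ A ∈ R.powerset, post μ τ R x A * Real.log (post μ τ R x A / bw τ R A) := by
    rw [← sum_sub_distrib]
    have : ∀ A ∈ R.powerset, post μ τ R x A * Real.log (gd μ A x)
        - post μ τ R x A * Real.log (post μ τ R x A / bw τ R A)
        = post μ τ R x A * Real.log (Tg μ τ R x) := by
      intro A hA
      have hpA : 0 < post μ τ R x A := post_pos h h0 h1 (hgA A hA)
      have hbA := bw_pos h0 h1 R A
      have h2 : Real.log (Tg μ τ R x * post μ τ R x A) = Real.log (bw τ R A * gd μ A x) := by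
        rw [Tg_mul_post h h0 h1]
      rw [Real.log_mul hT.ne' hpA.ne', Real.log_mul hbA.ne' (hgA A hA).ne'] at h2
      rw [Real.log_div hpA.ne' hbA.ne']
      have h3 : Real.log (Tg μ τ R x) = Real.log (bw τ R A) + Real.log (gd μ A x)
        - Real.log (post μ τ R x A) := by linarith
      rw [h3]; ring
    rw [sum_congr rfl this, ← sum_mul, hps, one_mul]
  have e2 : ∑ A ∈ R.powerset, post μ τ R x A * ∑ α ∈ reps m R.powerset,
      (∏ j, post μ τ R x (α j)) * Real.log (gd μ A x / gd μ (A ∩ inter α) x)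
      = ∑ A ∈ R.powerset, post μ τ R x A * Real.log (gd μ A x)
        - ∑ A ∈ R.powerset, post μ τ R x A * ∑ α ∈ reps m R.powerset,
      (∏ j, post μ τ R x (α j)) * Real.log (gd μ (A ∩ inter α) x) := by
    rw [← sum_sub_distrib]
    refine sum_congr rfl fun A hA => ?_
    rw [← mul_sub]
    congr 1
    have : ∀ α ∈ reps m R.powerset,
        (∏ j, post μ τ R x (α j)) * Real.log (gd μ A x / gd μ (A ∩ inter α) x)
        = Real.log (gd μ A x) * (∏ j, post μ τ R x (α j))
          - (∏ j, post μ τ R x (α j)) * Real.log (gd μ (A ∩ inter α) x) := by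
      intro α _
      have hM : A ∩ inter α ∈ R.powerset :=
        mem_powerset.mpr (inter_subset_left.trans (mem_powerset.mp hA))
      rw [Real.log_div (hgA A hA).ne' (hgA _ hM).ne']; ring
    rw [sum_congr rfl this, sum_sub_distrib, ← mul_sum, hone, mul_one]
  have e3 : ∑ A ∈ R.powerset, post μ τ R x A * ∑ α ∈ reps m R.powerset,
      (∏ j, post μ τ R x (α j)) * Real.log (gd μ (A ∩ inter α) x)
      ≤ gL * ∑ u ∈ R, pu μ τ R x u ^ (m + 1) := by
    rw [← core_size m R x, mul_sum]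
    refine sum_le_sum fun A hA => ?_
    rw [mul_comm gL, mul_assoc]
    refine mul_le_mul_of_nonneg_left ?_ (post_nonneg h h0 h1 R x A)
    rw [sum_mul]
    refine sum_le_sum fun α _ => ?_
    rw [mul_assoc]
    refine mul_le_mul_of_nonneg_left ?_ (prod_nonneg fun j _ => post_nonneg h h0 h1 _ _ _)
    have := hlog (A ∩ inter α) (inter_subset_left.trans (mem_powerset.mp hA))
    linarith
  have e4 : ∑ u ∈ R, pu μ τ R x u ^ (m + 1)
      ≤ (∑ u ∈ R.filter (fun u => θ ≤ pu μ τ R x u), pu μ τ R x u) + θ ^ m * R.card := by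
    have h2 : ∀ u ∈ R, pu μ τ R x u ^ (m + 1)
        ≤ (if θ ≤ pu μ τ R x u then pu μ τ R x u else 0) + θ ^ m := by
      intro u _
      have hp0 := pu_nonneg h h0 h1 R x u
      have hp1 := pu_le_one h h0 h1 R x u
      have hθm : 0 ≤ θ ^ m := by positivity
      split_ifs with hu
      · have : pu μ τ R x u ^ (m + 1) ≤ pu μ τ R x u ^ 1 :=
          pow_le_pow_of_le_one hp0 hp1 (by omega)
        rw [pow_one] at this; linarith
      · have hlt : pu μ τ R x u ≤ θ := (not_le.mp hu).le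
        calc pu μ τ R x u ^ (m + 1) = pu μ τ R x u ^ m * pu μ τ R x u := pow_succ _ _
          _ ≤ θ ^ m * 1 := mul_le_mul (pow_le_pow_left₀ hp0 hlt m) hp1 hp0 hθm
          _ = 0 + θ ^ m := by ring
    refine (sum_le_sum h2).trans ?_
    rw [sum_add_distrib, sum_filter, sum_const, nsmul_eq_mul]
    linarith
  have e5 := kl_lower h h0 h1 hθ hx
  rw [← sum_mul] at e5
  have hH0 : 0 ≤ ∑ u ∈ R.filter (fun u => θ ≤ pu μ τ R x u), pu μ τ R x u :=
    sum_nonneg fun u _ => pu_nonneg h h0 h1 R x u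
  have e6 := mul_le_mul_of_nonneg_left e4 hgL
  have e7 : gL * (∑ u ∈ R.filter (fun u => θ ≤ pu μ τ R x u), pu μ τ R x u)
      ≤ (∑ u ∈ R.filter (fun u => θ ≤ pu μ τ R x u), pu μ τ R x u) * (Real.log (θ / τ) - 1) := by
    rw [mul_comm]
    exact mul_le_mul_of_nonneg_left (by linarith) hH0
  rw [e1, e2]
  nlinarith

end

end Vale.Agent.P042.H779
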