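import Vale.Agent.P042.H779.LcCore

/-! Individual rates: the planted law over a genuine law. -/

namespace Vale.Agent.P042.H779.Ab.Lc

open Finset

set_option linter.unusedSectionVars false

section
variable {ι : Type*} [Fintype ι] [DecidableEq ι] {V : ι → Type*} [∀ i, Fintype (V i)]
  [∀ i, DecidableEq (V i)] {w : ∀ i, V i → ℝ} {μ : (∀ i, V i) → ℝ} {β β' : Finset ι → ℝ}

/-! The true law `T` and the planted law `J`. -/

/-- unnormalised expectation under the true law: `β(R) bw(R,A) μ(x)` -/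
noncomputable def ET (μ : (∀ i, V i) → ℝ) (β : Finset ι → ℝ) (τ : ι → ℝ)
    (f : Finset ι → Finset ι → (∀ i, V i) → ℝ) : ℝ :=
  ∑ R ∈ (univ : Finset ι).powerset, β R * ∑ A ∈ R.powerset, bw τ R A * ∑ x, μ x * f A R x

/-- unnormalised expectation under the planted law -/
noncomputable def JJ (w : ∀ i, V i → ℝ) (μ : (∀ i, V i) → ℝ) (β : Finset ι → ℝ) (τ : ι → ℝ)
    (f : Finset ι → Finset ι → (∀ i, V i) → ℝ) : ℝ :=
  ET μ β τ (fun A R x => gdw w μ A x * f A R x)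

lemma JJ_eq_EJ (H : Ref w μ) (β : Finset ι → ℝ) (τ : ι → ℝ)
    {f : Finset ι → Finset ι → (∀ i, V i) → ℝ} (hf : ∀ A R, A ⊆ R → Loc R (f A R)) :
    JJ w μ β τ f = EJ w (gdw w μ) β τ f := by
  unfold JJ ET EJ
  refine sum_congr rfl fun R _ => ?_
  congr 1
  refine sum_congr rfl fun A hA => ?_
  have hAR := mem_powerset.mp hA
  congr 1
  rw [H.mu_sum (R := R) (((loc_gdw (w := w) (μ := μ) A).mono hAR).mul (hf A R hAR))]
  exact sum_congr rfl fun x _ => by ring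

lemma JJ_congr {τ : ι → ℝ} {f f' : Finset ι → Finset ι → (∀ i, V i) → ℝ}
    (hff : ∀ R, β R ≠ 0 → ∀ A ⊆ R, ∀ x, μ x ≠ 0 → f A R x = f' A R x) :
    JJ w μ β τ f = JJ w μ β τ f' := by
  unfold JJ ET
  refine sum_congr rfl fun R _ => ?_
  by_cases hR : β R = 0
  · rw [hR]; simp
  congr 1
  refine sum_congr rfl fun A hA => ?_
  congr 1
  refine sum_congr rfl fun x _ => ?_
  by_cases hx : μ x = 0
  · rw [hx]; simp
  beta_reduce
  rw [hff R hR A (mem_powerset.mp hA) x hx]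

lemma JJ_mono (H : Ref w μ) (hβ : ∀ R, 0 ≤ β R) {τ : ι → ℝ} (h0 : ∀ i, 0 < τ i) (h1 : ∀ i, τ i < 1)
    {f f' : Finset ι → Finset ι → (∀ i, V i) → ℝ}
    (hff : ∀ R, β R ≠ 0 → ∀ A ⊆ R, ∀ x, 0 < μ x → f A R x ≤ f' A R x) :
    JJ w μ β τ f ≤ JJ w μ β τ f' := by
  unfold JJ ET
  refine sum_le_sum fun R _ => ?_
  by_cases hR : β R = 0
  · rw [hR]; simp
  refine mul_le_mul_of_nonneg_left ?_ (hβ R)
  refine sum_le_sum fun A hA => mul_le_mul_of_nonneg_left ?_ (bw_pos h0 h1 R A).le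
  refine sum_le_sum fun x _ => ?_
  rcases (H.prob.nonneg x).eq_or_lt with hx | hx
  · rw [← hx]; simp
  exact mul_le_mul_of_nonneg_left (mul_le_mul_of_nonneg_left
    (hff R hR A (mem_powerset.mp hA) x hx) (H.famT.g_nonneg A x)) hx.le

lemma JJ_nonneg (H : Ref w μ) (hβ : ∀ R, 0 ≤ β R) {τ : ι → ℝ} (h0 : ∀ i, 0 < τ i) (h1 : ∀ i, τ i < 1)
    {f : Finset ι → Finset ι → (∀ i, V i) → ℝ}
    (hf : ∀ R, β R ≠ 0 → ∀ A ⊆ R, ∀ x, 0 < μ x → 0 ≤ f A R x) : 0 ≤ JJ w μ β τ f := by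
  have := JJ_mono H hβ h0 h1 (f := fun _ _ _ => 0) (f' := f) hf
  have h2 : JJ w μ β τ (fun _ _ _ => 0) = 0 := by unfold JJ ET; simp
  linarith

lemma JJ_add (w : ∀ i, V i → ℝ) (μ : (∀ i, V i) → ℝ) (β : Finset ι → ℝ) (τ : ι → ℝ)
    (f f' : Finset ι → Finset ι → (∀ i, V i) → ℝ) :
    JJ w μ β τ (fun A R x => f A R x + f' A R x) = JJ w μ β τ f + JJ w μ β τ f' := by
  unfold JJ ET
  rw [← sum_add_distrib]
  refine sum_congr rfl fun R _ => ?_
  rw [← mul_add, ← sum_add_distrib]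
  congr 1
  refine sum_congr rfl fun A _ => ?_
  rw [← mul_add, ← sum_add_distrib]
  congr 1
  exact sum_congr rfl fun x _ => by ring

lemma JJ_smul (w : ∀ i, V i → ℝ) (μ : (∀ i, V i) → ℝ) (β : Finset ι → ℝ) (τ : ι → ℝ) (c : ℝ)
    (f : Finset ι → Finset ι → (∀ i, V i) → ℝ) :
    JJ w μ β τ (fun A R x => c * f A R x) = c * JJ w μ β τ f := by
  unfold JJ ET
  simp only [mul_sum]
  refine sum_congr rfl fun R _ => sum_congr rfl fun A _ => sum_congr rfl fun x _ => by ring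

lemma JJ_sub (w : ∀ i, V i → ℝ) (μ : (∀ i, V i) → ℝ) (β : Finset ι → ℝ) (τ : ι → ℝ)
    (f f' : Finset ι → Finset ι → (∀ i, V i) → ℝ) :
    JJ w μ β τ (fun A R x => f A R x - f' A R x) = JJ w μ β τ f - JJ w μ β τ f' := by
  have h1 := JJ_add w μ β τ f (fun A R x => (-1) * f' A R x)
  rw [JJ_smul w μ β τ (-1) f'] at h1
  have h2 : JJ w μ β τ (fun A R x => f A R x - f' A R x)
      = JJ w μ β τ (fun A R x => f A R x + (-1) * f' A R x) := by
    congr 1; funext A R x; ring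
  rw [h2, h1]; ring

lemma JJ_sum {κ : Type*} (w : ∀ i, V i → ℝ) (μ : (∀ i, V i) → ℝ) (β : Finset ι → ℝ) (τ : ι → ℝ)
    (s : Finset κ) (f : κ → Finset ι → Finset ι → (∀ i, V i) → ℝ) :
    JJ w μ β τ (fun A R x => ∑ k ∈ s, f k A R x) = ∑ k ∈ s, JJ w μ β τ (f k) := by
  classical
  induction s using Finset.induction_on with
  | empty => simp [JJ, ET]
  | insert k s hk ih =>
    rw [sum_insert hk, ← ih, ← JJ_add]
    congr 1
    funext A R x
    rw [sum_insert hk]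

/-- constants -/
lemma JJ_one (H : Ref w μ) (β : Finset ι → ℝ) (τ : ι → ℝ) :
    JJ w μ β τ (fun _ _ _ => 1) = Gm w (gdw w μ) β τ := by
  rw [JJ_eq_EJ H β τ (fun _ _ _ => fun _ _ _ => rfl)]
  unfold EJ Gm
  refine sum_congr rfl fun R _ => ?_
  congr 1
  refine sum_congr rfl fun A hA => ?_
  simp only [mul_one]
  rw [pw_g_g H.famT (mem_powerset.mp hA) trivial]

lemma JJ_const (H : Ref w μ) (β : Finset ι → ℝ) (τ : ι → ℝ) (c : ℝ) :
    JJ w μ β τ (fun _ _ _ => c) = c * Gm w (gdw w μ) β τ := by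
  rw [← JJ_one H β τ, ← JJ_smul]; simp

/-- The entropy of the planted law relative to the true law, times the mass. -/
noncomputable def KK (w : ∀ i, V i → ℝ) (μ : (∀ i, V i) → ℝ) (β : Finset ι → ℝ) (τ : ι → ℝ) : ℝ :=
  JJ w μ β τ (fun A _ x => Real.log (gdw w μ A x))
    - Gm w (gdw w μ) β τ * Real.log (Gm w (gdw w μ) β τ)

/-- **Donsker-Varadhan transfer.** -/
theorem dv_transfer (H : Ref w μ) (hβ : ∀ R, 0 ≤ β R) {τ : ι → ℝ} (h0 : ∀ i, 0 < τ i) (h1 : ∀ i, τ i < 1)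
    (hG : 0 < Gm w (gdw w μ) β τ) (Z : Finset ι → (∀ i, V i) → ℝ)
    (hZ0 : ∀ R x, β R ≠ 0 → 0 < μ x → 0 < Z R x)
    (hZ : ∑ R ∈ (univ : Finset ι).powerset, β R * ∑ x, μ x * Z R x ≤ 1) :
    JJ w μ β τ (fun _ R x => Real.log (Z R x)) ≤ KK w μ β τ := by
  obtain ⟨G, hGd⟩ : ∃ G, G = Gm w (gdw w μ) β τ := ⟨_, rfl⟩
  unfold KK
  rw [← hGd] at hG ⊢
  have key : ∀ R ∈ (univ : Finset ι).powerset, ∀ A ∈ R.powerset, ∀ x : ∀ i, V i,
      β R * (bw τ R A * (μ x * (gdw w μ A x * Real.log (Z R x))))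
      ≤ β R * (bw τ R A * (μ x * (gdw w μ A x * Real.log (gdw w μ A x))))
        - Real.log G * (β R * (bw τ R A * (μ x * (gdw w μ A x * 1))))
        + (G * (β R * (bw τ R A * (μ x * Z R x)))
        - β R * (bw τ R A * (μ x * (gdw w μ A x * 1)))) := by
    intro R _ A _ x
    rcases (hβ R).eq_or_lt with hR | hR
    · rw [← hR]; simp
    rcases (H.prob.nonneg x).eq_or_lt with hx | hx
    · rw [← hx]; simp
    have hb := bw_pos h0 h1 R A
    have hg := H.g_pos hx A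
    have hz := hZ0 R x hR.ne' hx
    have h2 := Real.log_le_sub_one_of_pos (show 0 < Z R x * G / gdw w μ A x by positivity)
    rw [Real.log_div (by positivity) hg.ne', Real.log_mul hz.ne' hG.ne'] at h2
    have h3 := mul_le_mul_of_nonneg_left h2 hg.le
    have h4 : gdw w μ A x * (Z R x * G / gdw w μ A x - 1) = Z R x * G - gdw w μ A x := by
      field_simp
    rw [h4] at h3
    have h5 : gdw w μ A x * Real.log (Z R x) ≤ gdw w μ A x * Real.log (gdw w μ A x)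
        - Real.log G * (gdw w μ A x * 1) + (G * Z R x - gdw w μ A x * 1) := by linarith
    have h6 := mul_le_mul_of_nonneg_left h5 (mul_nonneg hR.le (mul_nonneg hb.le hx.le))
    linarith
  have hsum : JJ w μ β τ (fun _ R x => Real.log (Z R x))
      ≤ JJ w μ β τ (fun A _ x => Real.log (gdw w μ A x)) - Real.log G * JJ w μ β τ (fun _ _ _ => 1)
        + (G * ET μ β τ (fun _ R x => Z R x) - JJ w μ β τ (fun _ _ _ => 1)) := by
    unfold JJ ET
    simp only [mul_sum]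
    rw [← sum_sub_distrib, ← sum_sub_distrib, ← sum_add_distrib]
    refine sum_le_sum fun R hR => ?_
    rw [← sum_sub_distrib, ← sum_sub_distrib, ← sum_add_distrib]
    refine sum_le_sum fun A hA => ?_
    rw [← sum_sub_distrib, ← sum_sub_distrib, ← sum_add_distrib]
    exact sum_le_sum fun x _ => key R hR A hA x
  have hET : ET μ β τ (fun _ R x => Z R x) ≤ 1 := by
    refine le_trans (le_of_eq ?_) hZ
    unfold ET
    refine sum_congr rfl fun R _ => ?_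
    rw [← sum_mul, bw_sum, one_mul]
  rw [JJ_one H β τ, ← hGd] at hsum
  have := mul_le_mul_of_nonneg_left hET hG.le
  linarith

/-- densities are not small on average -/
lemma neg_log_le (H : Ref w μ) (hβ0 : ∀ R, 0 ≤ β R)
    (hβ1 : ∑ R ∈ (univ : Finset ι).powerset, β R ≤ 1) {τ : ι → ℝ} (ht0 : ∀ i, 0 < τ i) (ht1 : ∀ i, τ i < 1)
    (hG : 0 < Gm w (gdw w μ) β τ) (P : Finset ι → Finset ι) :
    JJ w μ β τ (fun _ R x => - Real.log (gdw w μ (P R) x)) ≤ KK w μ β τ := by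
  have hZ1 : ∑ R ∈ (univ : Finset ι).powerset, β R * ∑ x, μ x * (gdw w μ (P R) x)⁻¹ ≤ 1 := by
    refine le_trans (sum_le_sum fun R _ => ?_) hβ1
    refine mul_le_of_le_one_right (hβ0 R) ?_
    have hloc : Loc (P R) (fun x => (gdw w μ (P R) x)⁻¹) := by
      intro x y hxy; beta_reduce; rw [loc_gdw (P R) x y hxy]
    rw [H.mu_sum hloc, ← pw_sum H.famT]
    refine sum_le_sum fun x _ => ?_
    refine mul_le_of_le_one_right (pw_nonneg H.famT x) ?_
    exact inv_mul_le_one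
  have := dv_transfer H hβ0 ht0 ht1 hG (fun R x => (gdw w μ (P R) x)⁻¹)
    (fun R x _ hx => inv_pos.mpr (H.g_pos hx _)) hZ1
  simpa [Real.log_inv] using this

end

end Vale.Agent.P042.H779.Ab.Lc
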