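import Vale.Agent.P042.H779.LcAsm2

/-! Individual rates: the core inequality for an abstract family, in functional form. -/

namespace Vale.Agent.P042.H779.Ab.Lc

open Finset

set_option linter.unusedSectionVars false

section
variable {ι : Type*} [Fintype ι] [DecidableEq ι] {V : ι → Type*} [∀ i, Fintype (V i)]
  {w : ∀ i, V i → ℝ} {g : Finset ι → (∀ i, V i) → ℝ} {ok : Finset ι → Prop} {β : Finset ι → ℝ}

/-- The functional of the freshly inserted coordinates, weights `b`. -/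
noncomputable def DD (w : ∀ i, V i → ℝ) (g : Finset ι → (∀ i, V i) → ℝ) (β : Finset ι → ℝ)
    (τ b : ι → ℝ) : ℝ :=
  ∑ R ∈ (univ : Finset ι).powerset, ∑ i ∈ univ \ R, b i * β (insert i R) *
    ∑ A ∈ R.powerset, bw τ R A *
      ∑ x, pw w x * (g A x * g R x * (Di w g i R x + Di w g i A x))

/-- The total insertion rate, weights `b`. -/
noncomputable def SS (w : ∀ i, V i → ℝ) (g : Finset ι → (∀ i, V i) → ℝ) (β : Finset ι → ℝ)
    (τ b : ι → ℝ) : ℝ :=
  ∑ R ∈ (univ : Finset ι).powerset, ∑ i ∈ univ \ R, b i * β (insert i R) *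
    ∑ A ∈ R.powerset, bw τ R A * Wq w g A

/-- Steps 3, 4, 5: the separation functional is bounded by the insertion functional. -/
theorem kappa_le (F : Fam w g ok) (B : Wt ok β) {τ L : ι → ℝ} (h0 : ∀ i, 0 < τ i) {m : ℕ}
    (hm : 1 ≤ m) (hmτ : ∀ i, 16 * m * τ i ≤ 1) (hL : ∀ i, 1 ≤ L i)
    (hat : ∀ i a, w i a = 0 ∨ Real.exp (-(L i)) ≤ w i a) :
    ∑ R ∈ (univ : Finset ι).powerset, ∑ A ∈ R.powerset, ∑ M ∈ A.powerset,
        β R * bw τ R A * Th w g τ m M A R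
      ≤ DD w g β τ (fun i => 1100 * m ^ 2 * L i)
        + SS w g β τ (fun i => 4 * τ i * ((15 * τ i) ^ m) ^ 2) := by
  have hm' : (1 : ℝ) ≤ m := by exact_mod_cast hm
  have h1 : ∀ i, τ i < 1 := fun i => by nlinarith [h0 i, hmτ i]
  refine (sep_sum F B h0 h1 hm).trans ((step45 F B h0 hm hmτ hL hat).trans (le_of_eq ?_))
  unfold DD SS
  rw [← sum_add_distrib]
  refine sum_congr rfl fun R _ => ?_
  rw [← sum_add_distrib]
  refine sum_congr rfl fun i hi => ?_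
  rw [mem_sdiff] at hi
  by_cases hR : β (insert i R) = 0
  · rw [hR]; simp
  have hok := B.okb _ hR
  have hokR : ok R := F.ok_down _ _ (subset_insert _ _) hok
  have e1 : ∑ x, pw w x *
        (g R x * (Tg g τ R x * ((1100 * (m ^ 2 * L i / τ i)) * (phi (rt g i x R) +
        ∑ A ∈ R.powerset, post g τ R x A * phi (rt g i x A)) + 4 * ((15 * τ i) ^ m) ^ 2)))
      = (1100 * (m ^ 2 * L i / τ i)) * (∑ A ∈ R.powerset, bw τ R A *
        ∑ x, pw w x * (g A x * g R x * (Di w g i R x + Di w g i A x)))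
        + 4 * ((15 * τ i) ^ m) ^ 2 * ∑ A ∈ R.powerset, bw τ R A * Wq w g A := by
    have e2 : ∀ x, pw w x *
        (g R x * (Tg g τ R x * ((1100 * (m ^ 2 * L i / τ i)) * (phi (rt g i x R) +
        ∑ A ∈ R.powerset, post g τ R x A * phi (rt g i x A)) + 4 * ((15 * τ i) ^ m) ^ 2)))
        = (1100 * (m ^ 2 * L i / τ i)) * (pw w x * (g R x * (Tg g τ R x * phi (rt g i x R)))
          + pw w x * (g R x * (Tg g τ R x *
            ∑ A ∈ R.powerset, post g τ R x A * phi (rt g i x A))))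
          + 4 * ((15 * τ i) ^ m) ^ 2 * (pw w x * (g R x * Tg g τ R x)) := fun x => by ring
    rw [sum_congr rfl fun x _ => e2 x, sum_add_distrib, ← mul_sum, ← mul_sum, sum_add_distrib,
      sum_g_Tg_f F h0 h1 R (fun A x => phi (rt g i x A)),
      sum_g_Tg_h R τ (fun x => phi (rt g i x R)), sum_g_Tg F τ hokR, ← sum_add_distrib]
    congr 2
    refine sum_congr rfl fun A hA => ?_
    have hAR := mem_powerset.mp hA
    have hiA : i ∉ A := fun hc => hi.2 (hAR hc)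
    have hind : Indep i (fun x => g A x * g R x) := by
      intro x a
      beta_reduce
      rw [g_update F A hiA, g_update F R hi.2]
    rw [sum_phi_rt F i R (fun x => g A x * g R x) hind,
      sum_phi_rt F i A (fun x => g A x * g R x) hind, ← mul_add, ← sum_add_distrib]
    congr 1
    exact sum_congr rfl fun x _ => by ring
  rw [e1]
  have hτi := (h0 i).ne'
  field_simp

lemma Hs_mono (F : Fam w g ok) {τ : ι → ℝ} (h0 : ∀ i, 0 < τ i) (h1 : ∀ i, τ i < 1) (θ : ι → ℝ)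
    {b b' : ι → ℝ} (hb : ∀ i, b i ≤ b' i) (R : Finset ι) (x : ∀ i, V i) :
    Hs g τ θ b R x ≤ Hs g τ θ b' R x :=
  sum_le_sum fun u _ => mul_le_mul_of_nonneg_left (hb u) (pu_nonneg F h0 h1 R x u)

lemma EJ_Hs_mono (F : Fam w g ok) (B : Wt ok β) {τ : ι → ℝ} (h0 : ∀ i, 0 < τ i)
    (h1 : ∀ i, τ i < 1) (θ : ι → ℝ) {b b' : ι → ℝ} (hb : ∀ i, b i ≤ b' i) :
    EJ w g β τ (fun _ R x => Hs g τ θ b R x) ≤ EJ w g β τ (fun _ R x => Hs g τ θ b' R x) :=
  EJ_mono F B h0 h1 fun R _ _ _ x _ => Hs_mono F h0 h1 θ hb R x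

lemma Hs_smul (g : Finset ι → (∀ i, V i) → ℝ) (τ θ b : ι → ℝ) (c : ℝ) (R : Finset ι)
    (x : ∀ i, V i) : Hs g τ θ (fun i => c * b i) R x = c * Hs g τ θ b R x := by
  unfold Hs
  rw [mul_sum]
  exact sum_congr rfl fun u _ => by ring

/-- **Abstract core inequality, individual rates.** -/
theorem abs_core (F : Fam w g ok) (B : Wt ok β) {τ θ gL L : ι → ℝ} (h0 : ∀ i, 0 < τ i) {m : ℕ}
    (hm : 1 ≤ m) (hmτ : ∀ i, 16 * m * τ i ≤ 1) (hL : ∀ i, 1 ≤ L i)
    (hat : ∀ i a, w i a = 0 ∨ Real.exp (-(L i)) ≤ w i a)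
    (hθ : ∀ i, 0 < θ i) (hgL : ∀ i, 0 ≤ gL i) (hbig : ∀ i, 2 * gL i + 1 ≤ Real.log (θ i / τ i))
    (hlog : ∀ M, ok M → ∀ x, 0 < g M x → Real.log (g M x) ≤ ∑ i ∈ M, gL i)
    (hG1 : 1 ≤ Gm w g β τ) :
    EJ w g β τ (fun A _ x => Real.log (g A x))
      ≤ 2 * (EJ w g β τ (fun _ R _ => ∑ i ∈ R, gL i * θ i ^ m)
        + DD w g β τ (fun i => 1100 * m ^ 2 * L i)
        + SS w g β τ (fun i => 4 * τ i * ((15 * τ i) ^ m) ^ 2)) := by
  have hm' : (1 : ℝ) ≤ m := by exact_mod_cast hm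
  have h1 : ∀ i, τ i < 1 := fun i => by nlinarith [h0 i, hmτ i]
  have h2 := gibbs F B h0 h1 hθ (by linarith)
  have h3 := step2 F B h0 h1 hθ hgL hlog m
  have h4 := kappa_le F B h0 hm hmτ hL hat
  have hlG : 0 ≤ Real.log (Gm w g β τ) := Real.log_nonneg hG1
  have hGG : 0 ≤ Gm w g β τ * Real.log (Gm w g β τ) := mul_nonneg (by linarith) hlG
  have h5 : EJ w g β τ (fun _ R x => Hs g τ θ (fun i => 2 * gL i) R x)
      ≤ EJ w g β τ (fun _ R x => Hs g τ θ (fun u => Real.log (θ u / τ u) - 1) R x) :=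
    EJ_Hs_mono F B h0 h1 θ fun i => by linarith [hbig i]
  have h6 : EJ w g β τ (fun _ R x => Hs g τ θ (fun i => 2 * gL i) R x)
      = 2 * EJ w g β τ (fun _ R x => Hs g τ θ gL R x) := by
    rw [← EJ_smul]
    congr 1
    funext A R x
    rw [Hs_smul]
  linarith

end

end Vale.Agent.P042.H779.Ab.Lc
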