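import Vale.Agent.P042.H779.LcMain

/-! **A.LOCAL**: the planted mass is small, all constants scale by scale. -/

namespace Vale.Agent.P042.H779.Ab.Lc

open Finset

set_option linter.unusedSectionVars false

section
variable {ι : Type*} [Fintype ι] [DecidableEq ι] {V : ι → Type*} [∀ i, Fintype (V i)]
  [∀ i, DecidableEq (V i)] {w : ∀ i, V i → ℝ} {μ : (∀ i, V i) → ℝ} {β' : Finset ι → ℝ}
  {t u K Lc τ : ι → ℝ} {L0 : ℝ} {sc : ι → ℕ} {ns : ℕ} {qb : ℕ → ℝ}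
  {ok ok' : Finset ι → Prop} {ε : ℝ} {lam a : ℕ → ℝ} {c : ℕ → ι → ℝ}

lemma DD_le (H : Ref w μ) {β : Finset ι → ℝ} (hβ0 : ∀ R, 0 ≤ β R) {b : ι → ℝ}
    (hb : ∀ i, 0 ≤ b i) (hins : ∀ R i, i ∉ R → β (insert i R) ≤ 2 * t i * β R)
    (h0 : ∀ i, 0 < τ i) (h1 : ∀ i, τ i < 1) :
    DD w (gdw w μ) β τ b ≤ ∑ i, 4 * b i * (t i * Vi w μ β τ i) := by
  have hmain : ∀ R ∈ (univ : Finset ι).powerset,
      ∑ i ∈ univ \ R, b i * β (insert i R) * ∑ A ∈ R.powerset, bw τ R A *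
        ∑ x, pw w x * (gdw w μ A x * gdw w μ R x *
          (Di w (gdw w μ) i R x + Di w (gdw w μ) i A x))
      ≤ ∑ i, 4 * b i * (t i * (β R * ∑ A ∈ R.powerset, bw τ R A *
        ∑ x, μ x * (gdw w μ A x * (if i ∈ R then 0 else Di w (gdw w μ) i R x)))) := by
    intro R _
    have e0 : ∑ i, 4 * b i * (t i * (β R * ∑ A ∈ R.powerset, bw τ R A *
        ∑ x, μ x * (gdw w μ A x * (if i ∈ R then 0 else Di w (gdw w μ) i R x))))
        = ∑ i ∈ univ \ R, 4 * b i * (t i * (β R * ∑ A ∈ R.powerset, bw τ R A *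
        ∑ x, μ x * (gdw w μ A x * (if i ∈ R then 0 else Di w (gdw w μ) i R x)))) := by
      symm
      refine sum_subset sdiff_subset fun i _ hi => ?_
      have : i ∈ R := by simpa using hi
      simp [this]
    rw [e0]
    refine sum_le_sum fun i hi => ?_
    have hiR : i ∉ R := (mem_sdiff.mp hi).2
    have hA : ∀ A ∈ R.powerset, bw τ R A *
        ∑ x, pw w x * (gdw w μ A x * gdw w μ R x *
          (Di w (gdw w μ) i R x + Di w (gdw w μ) i A x))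
        ≤ 2 * (bw τ R A * ∑ x, μ x * (gdw w μ A x *
          (if i ∈ R then 0 else Di w (gdw w μ) i R x))) := by
      intro A hA
      have hAR := mem_powerset.mp hA
      rw [← mul_assoc, mul_comm 2, mul_assoc]
      refine mul_le_mul_of_nonneg_left ?_ (bw_pos h0 h1 R A).le
      have e1 : ∑ x, pw w x * (gdw w μ A x * gdw w μ R x *
          (Di w (gdw w μ) i R x + Di w (gdw w μ) i A x))
          = ∑ x, μ x * (gdw w μ A x * Di w (gdw w μ) i R x)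
            + ∑ x, μ x * (gdw w μ A x * Di w (gdw w μ) i A x) := by
        rw [H.mu_sum (R := R) (((loc_gdw A).mono hAR).mul (loc_Di i R)),
          H.mu_sum (R := R) (((loc_gdw A).mono hAR).mul ((loc_Di i A).mono hAR)),
          ← sum_add_distrib]
        exact sum_congr rfl fun x _ => by ring
      rw [e1]
      have h2 := Di_mono H (R \ A) (P := A) (i := i) sdiff_disjoint
        (by rw [union_sdiff_of_subset hAR]; exact hiR) (loc_gdw (w := w) (μ := μ) A)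
        (fun x => H.famT.g_nonneg A x)
      rw [union_sdiff_of_subset hAR] at h2
      simp only [if_neg hiR]
      linarith
    have h3 := sum_le_sum hA
    rw [← mul_sum] at h3
    have hnn : 0 ≤ ∑ A ∈ R.powerset, bw τ R A * ∑ x, μ x * (gdw w μ A x *
          (if i ∈ R then 0 else Di w (gdw w μ) i R x)) := by
      refine sum_nonneg fun A _ => mul_nonneg (bw_pos h0 h1 R A).le (sum_nonneg fun x _ =>
        mul_nonneg (H.prob.nonneg x) (mul_nonneg (H.famT.g_nonneg _ _) ?_))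
      rw [if_neg hiR]
      exact Di_nonneg H.famT _ _ _
    have hbi := hb i
    have hβi : 0 ≤ b i * β (insert i R) := mul_nonneg hbi (hβ0 _)
    calc b i * β (insert i R) * ∑ A ∈ R.powerset, bw τ R A *
        ∑ x, pw w x * (gdw w μ A x * gdw w μ R x *
          (Di w (gdw w μ) i R x + Di w (gdw w μ) i A x))
        ≤ b i * β (insert i R) * (2 * ∑ A ∈ R.powerset, bw τ R A * ∑ x, μ x * (gdw w μ A x *
          (if i ∈ R then 0 else Di w (gdw w μ) i R x))) := mul_le_mul_of_nonneg_left h3 hβi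
      _ ≤ b i * (2 * t i * β R) * (2 * ∑ A ∈ R.powerset, bw τ R A * ∑ x, μ x * (gdw w μ A x *
          (if i ∈ R then 0 else Di w (gdw w μ) i R x))) :=
        mul_le_mul_of_nonneg_right (mul_le_mul_of_nonneg_left (hins R i hiR) hbi) (by linarith)
      _ = _ := by ring
  unfold DD
  refine (sum_le_sum hmain).trans (le_of_eq ?_)
  rw [sum_comm]
  refine sum_congr rfl fun i _ => ?_
  unfold Vi JJ ET
  rw [mul_sum, mul_sum]

lemma SS_le (H : Ref w μ) {β : Finset ι → ℝ} (hβ0 : ∀ R, 0 ≤ β R) (ht0 : ∀ i, 0 ≤ t i)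
    {b : ι → ℝ} (hb : ∀ i, 0 ≤ b i)
    (hins : ∀ R i, i ∉ R → β (insert i R) ≤ 2 * t i * β R)
    (h0 : ∀ i, 0 < τ i) (h1 : ∀ i, τ i < 1) :
    SS w (gdw w μ) β τ b ≤ 2 * (∑ i, b i * t i) * Gm w (gdw w μ) β τ := by
  unfold SS Gm
  rw [mul_sum]
  refine sum_le_sum fun R _ => ?_
  have hq : 0 ≤ ∑ A ∈ R.powerset, bw τ R A * Wq w (gdw w μ) A :=
    sum_nonneg fun A _ => mul_nonneg (bw_pos h0 h1 R A).le (Wq_nonneg H.famT A)
  have e1 : ∑ i ∈ univ \ R, b i * β (insert i R) * ∑ A ∈ R.powerset,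
      bw τ R A * Wq w (gdw w μ) A
      ≤ ∑ i ∈ univ \ R, b i * (2 * t i * β R) *
        ∑ A ∈ R.powerset, bw τ R A * Wq w (gdw w μ) A :=
    sum_le_sum fun i hi => mul_le_mul_of_nonneg_right
      (mul_le_mul_of_nonneg_left (hins R i (mem_sdiff.mp hi).2) (hb i)) hq
  have e2 : ∑ i ∈ univ \ R, b i * (2 * t i * β R) *
        ∑ A ∈ R.powerset, bw τ R A * Wq w (gdw w μ) A
      ≤ ∑ i, b i * (2 * t i * β R) * ∑ A ∈ R.powerset, bw τ R A * Wq w (gdw w μ) A :=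
    sum_le_sum_of_subset_of_nonneg sdiff_subset fun i _ _ =>
      mul_nonneg (mul_nonneg (hb i)
        (mul_nonneg (mul_nonneg (by norm_num) (ht0 i)) (hβ0 R))) hq
  refine (e1.trans e2).trans (le_of_eq ?_)
  rw [← sum_mul]
  have e3 : ∑ i, b i * (2 * t i * β R) = 2 * (∑ i, b i * t i) * β R := by
    rw [mul_sum, sum_mul]
    exact sum_congr rfl fun i _ => by ring
  rw [e3]
  ring

/-- weighted number of background points -/
lemma JJ_wt_le (H : Ref w μ) {β : Finset ι → ℝ} (ht0 : ∀ i, 0 ≤ t i) (ht1 : ∀ i, t i ≤ 1)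
    (hβ0 : ∀ R, 0 ≤ β R) (hβ : ∀ R, β R ≤ bt t R) (h0 : ∀ i, 0 < τ i) (h1 : ∀ i, τ i < 1)
    (hG : 0 < Gm w (gdw w μ) β τ) {b : ι → ℝ} (hb : ∀ i, 0 ≤ b i) {c0 : ℝ} (hc0 : 0 < c0)
    (hbc : ∀ i, b i ≤ c0) :
    JJ w μ β τ (fun _ R _ => ∑ i ∈ R, b i)
      ≤ c0 * KK w μ β τ + 2 * (∑ i, t i * b i) * Gm w (gdw w μ) β τ := by
  obtain ⟨f, hf⟩ : ∃ f : ι → ℝ, f = fun i => b i / c0 := ⟨_, rfl⟩
  have hf0 : ∀ i, 0 ≤ f i := fun i => by rw [hf]; exact div_nonneg (hb i) hc0.le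
  have hf1 : ∀ i, f i ≤ 1 := fun i => by
    rw [hf]; beta_reduce; rw [div_le_one hc0]; exact hbc i
  obtain ⟨C, hC⟩ : ∃ C, C = 2 * ∑ i, t i * f i := ⟨_, rfl⟩
  have hZ : ∑ R ∈ (univ : Finset ι).powerset,
      β R * ∑ x, μ x * Real.exp (∑ i ∈ R, f i - C) ≤ 1 := by
    have e1 : ∀ R ∈ (univ : Finset ι).powerset, β R * ∑ x, μ x *
        Real.exp (∑ i ∈ R, f i - C) ≤ (bt t R * Real.exp (∑ i ∈ R, f i)) *
          Real.exp (-C) := by
      intro R _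
      rw [← sum_mul, H.prob.sum_eq, one_mul, sub_eq_add_neg, Real.exp_add, ← mul_assoc]
      exact mul_le_mul_of_nonneg_right (mul_le_mul_of_nonneg_right (hβ R) (Real.exp_nonneg _))
        (Real.exp_nonneg _)
    refine (sum_le_sum e1).trans ?_
    rw [← sum_mul]
    have h3 := mul_le_mul_of_nonneg_right (bt_exp_wt' ht0 ht1 hf0 hf1) (Real.exp_nonneg (-C))
    rwa [← hC, ← Real.exp_add, add_neg_cancel, Real.exp_zero] at h3
  have hdv := dv_transfer H hβ0 h0 h1 hG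
    (fun R _ => Real.exp (∑ i ∈ R, f i - C)) (fun _ _ _ _ => Real.exp_pos _) hZ
  simp only [Real.log_exp] at hdv
  rw [JJ_sub w μ β τ (fun _ R _ => ∑ i ∈ R, f i) (fun _ _ _ => C), JJ_const H] at hdv
  have h4 : JJ w μ β τ (fun _ R _ => ∑ i ∈ R, b i)
      = c0 * JJ w μ β τ (fun _ R _ => ∑ i ∈ R, f i) := by
    rw [← JJ_smul]
    congr 1
    funext A R x
    rw [mul_sum, hf]
    exact sum_congr rfl fun i _ => by field_simp
  have h5 : c0 * C = 2 * ∑ i, t i * b i := by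
    rw [hC, hf, mul_left_comm, mul_sum]
    congr 1
    exact sum_congr rfl fun i _ => by field_simp
  have h6 := mul_le_mul_of_nonneg_left hdv hc0.le
  rw [h4]
  have h7 : 2 * (∑ i, t i * b i) * Gm w (gdw w μ) β τ = c0 * C * Gm w (gdw w μ) β τ := by
    rw [h5]
  rw [h7]
  linarith

/-- the final error -/
noncomputable def XL (t u gH τ θ : ι → ℝ) (L0 A0 : ℝ) (sc : ι → ℕ) (ns : ℕ) (qb : ℕ → ℝ)
    (ε : ℝ) (m : ℕ) (lam a : ℕ → ℝ) (c : ℕ → ι → ℝ) : ℝ :=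
  4 * (∑ i, t i * (gH i * θ i ^ m)) + 16 * (∑ i, τ i * ((15 * τ i) ^ m) ^ 2 * t i)
    + (L0 * ε + ∑ s ∈ range ns, qb s * Hn (At sc s).card / lam s *
      (2 * ε + 2 * ∑ i ∈ Lo sc (s + 1), (t i + u i) * c s i + a s)) / A0

/-- **A.LOCAL.** -/
theorem multiL (H : Ref w μ) (A : RatesL t u K Lc L0 sc ns qb) (hL0 : 0 < L0)
    (P : PinsL w μ sc ok' Lc lam a c) [DecidablePred ok]
    (hok : ∀ R S : Finset ι, R ⊆ S → ok S → ok R)
    (B : Wts (rw' t ok) β' t u ok' ε) (hε : 0 ≤ ε)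
    {m : ℕ} (hm : 1 ≤ m) (h0 : ∀ i, 0 < τ i) (hmτ : ∀ i, 16 * m * τ i ≤ 1)
    {θ gH : ι → ℝ} (hθ : ∀ i, 0 < θ i) (hgH : ∀ i, 0 ≤ gH i)
    (hlog : ∀ M, ok M → ∀ x, 0 < gdw w μ M x → Real.log (gdw w μ M x) ≤ ∑ i ∈ M, gH i)
    (hbig : ∀ i, 2 * gH i + 1 ≤ Real.log (θ i / τ i))
    {c0 A0 : ℝ} (hc0 : 0 < c0) (hcθ : ∀ i, gH i * θ i ^ m ≤ c0) (hA0 : 0 < A0)
    (hK : ∀ i, A0 * (17600 * m ^ 2 * Lc i) ≤ K i)
    (hα : 2 * c0 + (1 + L0 + 2 * ∑ s ∈ range ns, qb s * Hn (At sc s).card / lam s) / A0 ≤ 1) :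
    Real.log (Gm w (gdw w μ) (rw' t ok) τ)
      ≤ XL t u gH τ θ L0 A0 sc ns qb ε m lam a c := by
  obtain ⟨β, hβ⟩ : ∃ β, β = rw' t ok := ⟨_, rfl⟩
  rw [← hβ] at B ⊢
  obtain ⟨G, hGd⟩ : ∃ G, G = Gm w (gdw w μ) β τ := ⟨_, rfl⟩
  have hm' : (1 : ℝ) ≤ m := by exact_mod_cast hm
  have h1 : ∀ i, τ i < 1 := fun i => by nlinarith [h0 i, hmτ i]
  have hE0 : ∀ s, 0 ≤ 2 * ε + 2 * ∑ i ∈ Lo sc (s + 1), (t i + u i) * c s i + a s := by
    intro s
    refine add_nonneg (add_nonneg (by linarith) ?_) (P.a0 s)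
    refine mul_nonneg (by norm_num) (sum_nonneg fun i _ => mul_nonneg ?_ (P.c0 s i))
    exact add_nonneg (A.t0 i) (A.u0 i)
  have hX0 : 0 ≤ XL t u gH τ θ L0 A0 sc ns qb ε m lam a c := by
    unfold XL
    refine add_nonneg (add_nonneg ?_ ?_) (div_nonneg (add_nonneg (mul_nonneg hL0.le hε)
      (sum_nonneg fun s _ => mul_nonneg (div_nonneg (mul_nonneg (A.qb0 s) (Hn_nonneg _))
        (P.lam0 s).le) (hE0 s))) hA0.le)
    · exact mul_nonneg (by norm_num) (sum_nonneg fun i _ => mul_nonneg (A.t0 i)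
        (mul_nonneg (hgH i) (pow_nonneg (hθ i).le _)))
    · exact mul_nonneg (by norm_num) (sum_nonneg fun i _ => mul_nonneg
        (mul_nonneg (h0 i).le (sq_nonneg _)) (A.t0 i))
  rw [← hGd]
  rcases lt_or_ge G 1 with hG | hG
  · have : Real.log G ≤ 0 := by
      refine Real.log_nonpos ?_ hG.le
      rw [hGd]
      unfold Gm
      exact sum_nonneg fun R _ => mul_nonneg (B.b0 R) (sum_nonneg fun A _ =>
        mul_nonneg (bw_pos h0 h1 R A).le (Wq_nonneg H.famT A))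
    linarith
  have hG1 : 1 ≤ Gm w (gdw w μ) β τ := by rw [← hGd]; exact hG
  have hG0 : 0 < G := by linarith
  have hGp : 0 < Gm w (gdw w μ) β τ := by linarith
  have hKK0 := KK_nonneg H B.b0 B.sum1 h0 h1 hGp
  obtain ⟨k, hk⟩ : ∃ k, k = KK w μ β τ := ⟨_, rfl⟩
  have ht1 : ∀ i, t i ≤ 1 := fun i => (A.t1 i).trans (by norm_num)
  have hins : ∀ R i, i ∉ R → β (insert i R) ≤ 2 * t i * β R := by
    intro R i hi
    rw [hβ]; exact rw'_insert_le t A.t0 A.t1 hok hi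
  have hwt : Wt ok β := by rw [hβ]; exact wt_rw' t A.t0 ht1
  have hF : Fam w (gdw w μ) ok := H.fam hok
  have hc := abs_core hF hwt h0 hm hmτ P.L1 P.atoms hθ hgH hbig hlog hG1
  -- entropy
  have e1 : EJ w (gdw w μ) β τ (fun A _ x => Real.log (gdw w μ A x)) = k + G * Real.log G := by
    rw [← JJ_eq_EJ H β τ (f := fun A _ x => Real.log (gdw w μ A x)) fun A' R' hAR => by
      refine Loc.mono hAR ?_
      intro x y hxy
      beta_reduce
      rw [loc_gdw A' x y hxy], hk, hGd]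
    unfold KK; ring
  have e2 : EJ w (gdw w μ) β τ (fun _ R _ => ∑ i ∈ R, gH i * θ i ^ m)
      ≤ c0 * k + 2 * (∑ i, t i * (gH i * θ i ^ m)) * G := by
    rw [← JJ_eq_EJ H β τ (f := fun _ R _ => ∑ i ∈ R, gH i * θ i ^ m) fun A' R' hAR => by
      intro x y hxy; rfl]
    have := JJ_wt_le (τ := τ) H A.t0 ht1 B.b0 B.b1 h0 h1 hGp (b := fun i => gH i * θ i ^ m)
      (fun i => mul_nonneg (hgH i) (pow_nonneg (hθ i).le _)) hc0 hcθ
    rw [hk, hGd]; exact this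
  have hb1 : ∀ i, 0 ≤ 1100 * (m : ℝ) ^ 2 * Lc i := fun i => by
    have := P.L1 i
    positivity
  have hb2 : ∀ i, 0 ≤ 4 * τ i * ((15 * τ i) ^ m) ^ 2 := fun i => by
    have := h0 i
    positivity
  have e3 := DD_le (b := fun i => 1100 * (m : ℝ) ^ 2 * Lc i) H B.b0 hb1 hins h0 h1
  have e4 := SS_le (b := fun i => 4 * τ i * ((15 * τ i) ^ m) ^ 2) H B.b0 A.t0 hb2 hins h0 h1
  have e5 := insertionL H A hL0 P B hε h0 h1 hGp
  rw [e1] at hc
  rw [← hGd] at e4 e5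
  rw [← hk] at e5
  -- comparison of the insertion functional
  have e7 : A0 * (2 * ∑ i, 4 * (1100 * (m : ℝ) ^ 2 * Lc i) * (t i * Vi w μ β τ i))
      ≤ ∑ i, K i / 2 * (t i * Vi w μ β τ i) := by
    rw [mul_sum, mul_sum]
    refine sum_le_sum fun i _ => ?_
    have h2 := hK i
    have h3 : 0 ≤ t i * Vi w μ β τ i := mul_nonneg (A.t0 i) (Vi_nonneg H B.b0 h0 h1 i)
    have h4 := mul_le_mul_of_nonneg_right h2 h3
    linarith
  -- expand the scales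
  have e6 : ∑ s ∈ range ns, qb s * BsL w μ β τ t u sc ε lam a c s * Hn (At sc s).card
      = 2 * k * ∑ s ∈ range ns, qb s * Hn (At sc s).card / lam s
        + G * ∑ s ∈ range ns, qb s * Hn (At sc s).card / lam s *
      (2 * ε + 2 * ∑ i ∈ Lo sc (s + 1), (t i + u i) * c s i + a s) := by
    rw [mul_sum, mul_sum, ← sum_add_distrib]
    refine sum_congr rfl fun s _ => ?_
    unfold BsL
    rw [← hk, ← hGd]
    ring
  rw [e6] at e5
  obtain ⟨Q1, hQ1⟩ : ∃ Q1, Q1 = ∑ s ∈ range ns, qb s * Hn (At sc s).card / lam s := ⟨_, rfl⟩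
  obtain ⟨Q2, hQ2⟩ : ∃ Q2, Q2 = ∑ s ∈ range ns, qb s * Hn (At sc s).card / lam s *
      (2 * ε + 2 * ∑ i ∈ Lo sc (s + 1), (t i + u i) * c s i + a s) := ⟨_, rfl⟩
  obtain ⟨Q3, hQ3⟩ : ∃ Q3, Q3 = ∑ i, t i * (gH i * θ i ^ m) := ⟨_, rfl⟩
  obtain ⟨Q4, hQ4⟩ : ∃ Q4, Q4 = ∑ i, τ i * ((15 * τ i) ^ m) ^ 2 * t i := ⟨_, rfl⟩
  have hXe : XL t u gH τ θ L0 A0 sc ns qb ε m lam a c
      = 4 * Q3 + 16 * Q4 + (L0 * ε + Q2) / A0 := by
    unfold XL; rw [← hQ2, ← hQ3, ← hQ4]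
  have hS4 : ∑ i, 4 * τ i * ((15 * τ i) ^ m) ^ 2 * t i = 4 * Q4 := by
    rw [hQ4, mul_sum]; exact sum_congr rfl fun i _ => by ring
  rw [← hQ1, ← hQ2] at e5
  rw [← hQ1] at hα
  rw [← hQ3] at e2
  rw [hS4] at e4
  rw [hXe]
  rw [← hk] at hKK0
  obtain ⟨Y, hY⟩ : ∃ Y, Y = ∑ i, 4 * (1100 * (m : ℝ) ^ 2 * Lc i) * (t i * Vi w μ β τ i) :=
    ⟨_, rfl⟩
  rw [← hY] at e3 e7
  have e8 : 2 * Y ≤ (k + L0 * (k + ε * G) + (2 * k * Q1 + G * Q2)) / A0 := by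
    rw [le_div_iff₀ hA0]
    linarith
  have f6 := mul_le_mul_of_nonneg_left hα hKK0
  have hfin : G * Real.log G ≤ G * (4 * Q3 + 16 * Q4 + (L0 * ε + Q2) / A0) := by
    have g1 : k + G * Real.log G ≤ 2 * (c0 * k + 2 * Q3 * G)
        + (k + L0 * (k + ε * G) + (2 * k * Q1 + G * Q2)) / A0
        + 2 * (2 * (4 * Q4) * G) := by linarith
    have g2 : 2 * (c0 * k + 2 * Q3 * G)
        + (k + L0 * (k + ε * G) + (2 * k * Q1 + G * Q2)) / A0
        + 2 * (2 * (4 * Q4) * G)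
        = k * (2 * c0 + (1 + L0 + 2 * Q1) / A0)
          + G * (4 * Q3 + 16 * Q4 + (L0 * ε + Q2) / A0) := by
      field_simp
      ring
    linarith
  exact le_of_mul_le_mul_left hfin hG0

end

end Vale.Agent.P042.H779.Ab.Lc
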