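import Vale.Agent.P042.H779.LcBase

/-! Individual rates: inserting an additional random set. -/

namespace Vale.Agent.P042.H779.Ab.Lc

open Finset

set_option linter.unusedSectionVars false

section
variable {ι : Type*} [Fintype ι] [DecidableEq ι] {V : ι → Type*} [∀ i, Fintype (V i)]
  [∀ i, DecidableEq (V i)] {w : ∀ i, V i → ℝ} {μ : (∀ i, V i) → ℝ} {β β' : Finset ι → ℝ}

/-- **Donsker-Varadhan transfer**, general mass. -/
theorem dv_gen (H : Ref w μ) (hβ : ∀ R, 0 ≤ β R) {τ : ι → ℝ} (h0 : ∀ i, 0 < τ i) (h1 : ∀ i, τ i < 1)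
    (hG : 0 < Gm w (gdw w μ) β τ) (Z : Finset ι → (∀ i, V i) → ℝ)
    (hZ0 : ∀ R x, β R ≠ 0 → 0 < μ x → 0 < Z R x) :
    JJ w μ β τ (fun _ R x => Real.log (Z R x)) ≤ KK w μ β τ
      + Gm w (gdw w μ) β τ *
        (∑ R ∈ (univ : Finset ι).powerset, β R * ∑ x, μ x * Z R x - 1) := by
  obtain ⟨G, hGd⟩ : ∃ G, G = Gm w (gdw w μ) β τ := ⟨_, rfl⟩
  unfold KK
  rw [← hGd] at hG ⊢
  have key : ∀ R ∈ (univ : Finset ι).powerset, ∀ A ∈ R.powerset, ∀ x : ∀ i, V i,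
      β R * (bw τ R A * (μ x * (gdw w μ A x * Real.log (Z R x))))
      ≤ β R * (bw τ R A * (μ x * (gdw w μ A x * Real.log (gdw w μ A x))))
        - Real.log G * (β R * (bw τ R A * (μ x * (gdw w μ A x * 1))))
        + (G * (β R * (bw τ R A * (μ x * Z R x)))
        - β R * (bw τ R A * (μ x * (gdw w μ A x * 1)))) := by
    intro R _ A _ x
    rcases (hβ R).eq_or_lt with hR | hR
    · rw [← hR]; simp
    rcases (H.prob.nonneg x).eq_or_lt with hx | hx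
    · rw [← hx]; simp
    have hb := bw_pos h0 h1 R A
    have hg := H.g_pos hx A
    have hz := hZ0 R x hR.ne' hx
    have h2 := Real.log_le_sub_one_of_pos (show 0 < Z R x * G / gdw w μ A x by positivity)
    rw [Real.log_div (by positivity) hg.ne', Real.log_mul hz.ne' hG.ne'] at h2
    have h3 := mul_le_mul_of_nonneg_left h2 hg.le
    have h4 : gdw w μ A x * (Z R x * G / gdw w μ A x - 1) = Z R x * G - gdw w μ A x := by
      field_simp
    rw [h4] at h3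
    have h5 : gdw w μ A x * Real.log (Z R x) ≤ gdw w μ A x * Real.log (gdw w μ A x)
        - Real.log G * (gdw w μ A x * 1) + (G * Z R x - gdw w μ A x * 1) := by linarith
    have h6 := mul_le_mul_of_nonneg_left h5 (mul_nonneg hR.le (mul_nonneg hb.le hx.le))
    linarith
  have hsum : JJ w μ β τ (fun _ R x => Real.log (Z R x))
      ≤ JJ w μ β τ (fun A _ x => Real.log (gdw w μ A x)) - Real.log G * JJ w μ β τ (fun _ _ _ => 1)
        + (G * ET μ β τ (fun _ R x => Z R x) - JJ w μ β τ (fun _ _ _ => 1)) := by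
    unfold JJ ET
    simp only [mul_sum]
    rw [← sum_sub_distrib, ← sum_sub_distrib, ← sum_add_distrib]
    refine sum_le_sum fun R hR => ?_
    rw [← sum_sub_distrib, ← sum_sub_distrib, ← sum_add_distrib]
    refine sum_le_sum fun A hA => ?_
    rw [← sum_sub_distrib, ← sum_sub_distrib, ← sum_add_distrib]
    exact sum_le_sum fun x _ => key R hR A hA x
  have hET : ET μ β τ (fun _ R x => Z R x)
      = ∑ R ∈ (univ : Finset ι).powerset, β R * ∑ x, μ x * Z R x := by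
    unfold ET
    refine sum_congr rfl fun R _ => ?_
    rw [← sum_mul, bw_sum, one_mul]
  rw [JJ_one H β τ, ← hGd, hET] at hsum
  linarith

/-- the planted law with an additional inserted set -/
noncomputable def JP (w : ∀ i, V i → ℝ) (μ : (∀ i, V i) → ℝ) (β : Finset ι → ℝ) (τ : ι → ℝ)
    (β' : Finset ι → ℝ) (f : Finset ι → Finset ι → Finset ι → (∀ i, V i) → ℝ) : ℝ :=
  ∑ S ∈ (univ : Finset ι).powerset, β' S * JJ w μ β τ (f S)

lemma JP_mono (H : Ref w μ) (hβ : ∀ R, 0 ≤ β R) (hβ' : ∀ S, 0 ≤ β' S) {τ : ι → ℝ} (h0 : ∀ i, 0 < τ i)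
    (h1 : ∀ i, τ i < 1) {f f' : Finset ι → Finset ι → Finset ι → (∀ i, V i) → ℝ}
    (hff : ∀ S, β' S ≠ 0 → ∀ R, β R ≠ 0 → ∀ A ⊆ R, ∀ x, 0 < μ x → f S A R x ≤ f' S A R x) :
    JP w μ β τ β' f ≤ JP w μ β τ β' f' := by
  refine sum_le_sum fun S _ => ?_
  by_cases hS : β' S = 0
  · rw [hS]; simp
  exact mul_le_mul_of_nonneg_left (JJ_mono H hβ h0 h1 (hff S hS)) (hβ' S)

lemma JP_nonneg (H : Ref w μ) (hβ : ∀ R, 0 ≤ β R) (hβ' : ∀ S, 0 ≤ β' S) {τ : ι → ℝ} (h0 : ∀ i, 0 < τ i)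
    (h1 : ∀ i, τ i < 1) {f : Finset ι → Finset ι → Finset ι → (∀ i, V i) → ℝ}
    (hf : ∀ S, β' S ≠ 0 → ∀ R, β R ≠ 0 → ∀ A ⊆ R, ∀ x, 0 < μ x → 0 ≤ f S A R x) :
    0 ≤ JP w μ β τ β' f := by
  refine sum_nonneg fun S _ => ?_
  by_cases hS : β' S = 0
  · rw [hS]; simp
  exact mul_nonneg (hβ' S) (JJ_nonneg H hβ h0 h1 (hf S hS))

lemma JP_add (w : ∀ i, V i → ℝ) (μ : (∀ i, V i) → ℝ) (β : Finset ι → ℝ) (τ : ι → ℝ)
    (β' : Finset ι → ℝ) (f f' : Finset ι → Finset ι → Finset ι → (∀ i, V i) → ℝ) :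
    JP w μ β τ β' (fun S A R x => f S A R x + f' S A R x)
      = JP w μ β τ β' f + JP w μ β τ β' f' := by
  unfold JP
  rw [← sum_add_distrib]
  refine sum_congr rfl fun S _ => ?_
  rw [JJ_add]; ring

lemma JP_sub (w : ∀ i, V i → ℝ) (μ : (∀ i, V i) → ℝ) (β : Finset ι → ℝ) (τ : ι → ℝ)
    (β' : Finset ι → ℝ) (f f' : Finset ι → Finset ι → Finset ι → (∀ i, V i) → ℝ) :
    JP w μ β τ β' (fun S A R x => f S A R x - f' S A R x)
      = JP w μ β τ β' f - JP w μ β τ β' f' := by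
  unfold JP
  rw [← sum_sub_distrib]
  refine sum_congr rfl fun S _ => ?_
  rw [JJ_sub]; ring

lemma JP_smul (w : ∀ i, V i → ℝ) (μ : (∀ i, V i) → ℝ) (β : Finset ι → ℝ) (τ : ι → ℝ) (c : ℝ)
    (β' : Finset ι → ℝ) (f : Finset ι → Finset ι → Finset ι → (∀ i, V i) → ℝ) :
    JP w μ β τ β' (fun S A R x => c * f S A R x) = c * JP w μ β τ β' f := by
  unfold JP
  rw [mul_sum]
  refine sum_congr rfl fun S _ => ?_
  rw [JJ_smul]; ring

lemma JP_sum {κ : Type*} (w : ∀ i, V i → ℝ) (μ : (∀ i, V i) → ℝ) (β : Finset ι → ℝ) (τ : ι → ℝ)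
    (β' : Finset ι → ℝ) (s : Finset κ)
    (f : κ → Finset ι → Finset ι → Finset ι → (∀ i, V i) → ℝ) :
    JP w μ β τ β' (fun S A R x => ∑ k ∈ s, f k S A R x) = ∑ k ∈ s, JP w μ β τ β' (f k) := by
  unfold JP
  rw [sum_comm]
  refine sum_congr rfl fun S _ => ?_
  rw [JJ_sum, mul_sum]

lemma JP_const (H : Ref w μ) (β : Finset ι → ℝ) (τ : ι → ℝ) (c : ℝ) (β' : Finset ι → ℝ) :
    JP w μ β τ β' (fun _ _ _ _ => c)
      = c * Gm w (gdw w μ) β τ * ∑ S ∈ (univ : Finset ι).powerset, β' S := by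
  unfold JP
  rw [mul_sum]
  refine sum_congr rfl fun S _ => ?_
  rw [JJ_const H]; ring

/-- transfer for the extended law -/
theorem JP_dv (H : Ref w μ) (hβ : ∀ R, 0 ≤ β R) (hβ' : ∀ S, 0 ≤ β' S) {τ : ι → ℝ} (h0 : ∀ i, 0 < τ i)
    (h1 : ∀ i, τ i < 1) (hG : 0 < Gm w (gdw w μ) β τ) (hK : 0 ≤ KK w μ β τ)
    (hc1 : ∑ S ∈ (univ : Finset ι).powerset, β' S ≤ 1) {ε : ℝ}
    (hc2 : 1 - ε ≤ ∑ S ∈ (univ : Finset ι).powerset, β' S)
    (Z : Finset ι → Finset ι → (∀ i, V i) → ℝ)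
    (hZ0 : ∀ S R x, 0 < μ x → 0 < Z S R x)
    (hZ : ∑ S ∈ (univ : Finset ι).powerset, β' S * ∑ R ∈ (univ : Finset ι).powerset,
      β R * ∑ x, μ x * Z S R x ≤ 1) :
    JP w μ β τ β' (fun S _ R x => Real.log (Z S R x))
      ≤ KK w μ β τ + ε * Gm w (gdw w μ) β τ := by
  have h2 : JP w μ β τ β' (fun S _ R x => Real.log (Z S R x))
      ≤ ∑ S ∈ (univ : Finset ι).powerset, β' S * (KK w μ β τ
      + Gm w (gdw w μ) β τ *
        (∑ R ∈ (univ : Finset ι).powerset, β R * ∑ x, μ x * Z S R x - 1)) :=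
    sum_le_sum fun S _ => mul_le_mul_of_nonneg_left
      (dv_gen H hβ h0 h1 hG (Z S) fun R x _ hx => hZ0 S R x hx) (hβ' S)
  have h3 : ∑ S ∈ (univ : Finset ι).powerset, β' S * (KK w μ β τ
      + Gm w (gdw w μ) β τ *
        (∑ R ∈ (univ : Finset ι).powerset, β R * ∑ x, μ x * Z S R x - 1))
      = KK w μ β τ * ∑ S ∈ (univ : Finset ι).powerset, β' S
        + Gm w (gdw w μ) β τ * (∑ S ∈ (univ : Finset ι).powerset, β' S *
          ∑ R ∈ (univ : Finset ι).powerset, β R * ∑ x, μ x * Z S R x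
          - ∑ S ∈ (univ : Finset ι).powerset, β' S) := by
    rw [← sum_sub_distrib, mul_sum, mul_sum, ← sum_add_distrib]
    exact sum_congr rfl fun S _ => by ring
  rw [h3] at h2
  have h4 := mul_le_mul_of_nonneg_left hc1 hK
  have h5 : Gm w (gdw w μ) β τ * (∑ S ∈ (univ : Finset ι).powerset, β' S *
          ∑ R ∈ (univ : Finset ι).powerset, β R * ∑ x, μ x * Z S R x
          - ∑ S ∈ (univ : Finset ι).powerset, β' S) ≤ Gm w (gdw w μ) β τ * ε :=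
    mul_le_mul_of_nonneg_left (by linarith) hG.le
  linarith

/-- the entropy of the planted law is nonnegative -/
lemma KK_nonneg (H : Ref w μ) (hβ : ∀ R, 0 ≤ β R)
    (hβ1 : ∑ R ∈ (univ : Finset ι).powerset, β R ≤ 1) {τ : ι → ℝ} (h0 : ∀ i, 0 < τ i) (h1 : ∀ i, τ i < 1)
    (hG : 0 < Gm w (gdw w μ) β τ) : 0 ≤ KK w μ β τ := by
  have h := dv_transfer H hβ h0 h1 hG (fun _ _ => 1) (fun _ _ _ _ => one_pos)
    (by simpa [H.prob.sum_eq] using hβ1)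
  have h2 : JJ w μ β τ (fun _ _ _ => Real.log 1) = 0 := by
    rw [Real.log_one]; unfold JJ ET; simp
  linarith

lemma JP_CDl (w : ∀ i, V i → ℝ) (μ : (∀ i, V i) → ℝ) (β : Finset ι → ℝ) (τ : ι → ℝ)
    (β' : Finset ι → ℝ) (q : ι → ℝ) (l : List ι) : ∀ T : Finset ι,
    JP w μ β τ β' (fun S _ R x => CDl w μ q ∅ T l (R ∪ S) x)
      = gc q (fun T j => JP w μ β τ β' (fun S _ R x => Di w (gdw w μ) j ((R ∪ S) ∩ T) x)) T l := by
  induction l with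
  | nil =>
    intro T
    simp only [CDl, gc]
    unfold JP JJ ET
    simp
  | cons j l ih =>
    intro T
    simp only [CDl, gc, empty_union]
    rw [← ih (insert j T), ← JP_smul, ← JP_add]

/-- number of points of the union in a set of coordinates -/
lemma JP_card_le (H : Ref w μ) {t u : ι → ℝ} (ht0 : ∀ i, 0 ≤ t i) (ht1 : ∀ i, t i ≤ 1)
    (hu0 : ∀ i, 0 ≤ u i) (hu1 : ∀ i, u i ≤ 1)
    (hβ0 : ∀ R, 0 ≤ β R) (hβ : ∀ R, β R ≤ bt t R)
    (hβ'0 : ∀ R, 0 ≤ β' R) (hβ' : ∀ R, β' R ≤ bt u R) {τ : ι → ℝ} (h0 : ∀ i, 0 < τ i)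
    (h1 : ∀ i, τ i < 1) (hG : 0 < Gm w (gdw w μ) β τ) (hK : 0 ≤ KK w μ β τ)
    (hc1 : ∑ S ∈ (univ : Finset ι).powerset, β' S ≤ 1) {ε : ℝ}
    (hc2 : 1 - ε ≤ ∑ S ∈ (univ : Finset ι).powerset, β' S) {c : ι → ℝ}
    (hc0 : ∀ i, 0 ≤ c i) (hcc : ∀ i, c i ≤ 1) (U : Finset ι) :
    JP w μ β τ β' (fun S _ R _ => ∑ i ∈ (R ∪ S) ∩ U, c i)
      ≤ KK w μ β τ + (ε + 2 * ∑ i ∈ U, (t i + u i) * c i) * Gm w (gdw w μ) β τ := by
  obtain ⟨q, hq⟩ : ∃ q : ι → ℝ, q = fun i => t i + u i - t i * u i := ⟨_, rfl⟩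
  have hq0 : ∀ i, 0 ≤ q i := fun i => by
    rw [hq]; have := mul_nonneg (hu0 i) (sub_nonneg.mpr (ht1 i)); have := ht0 i; beta_reduce; nlinarith
  have hq1 : ∀ i, q i ≤ 1 := fun i => by
    rw [hq]
    have := mul_nonneg (sub_nonneg.mpr (ht1 i)) (sub_nonneg.mpr (hu1 i)); beta_reduce; nlinarith
  obtain ⟨C, hC⟩ : ∃ C, C = 2 * ∑ i ∈ U, q i * c i := ⟨_, rfl⟩
  have hZ : ∑ S ∈ (univ : Finset ι).powerset, β' S * ∑ R ∈ (univ : Finset ι).powerset,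
      β R * ∑ x, μ x * Real.exp (∑ i ∈ (R ∪ S) ∩ U, c i - C) ≤ 1 := by
    have h2 := joint_le (F := fun Q => ∑ x, μ x * Real.exp (∑ i ∈ Q ∩ U, c i - C)) H hβ0 hβ hβ'0 hβ'
      (fun Q => sum_nonneg fun x _ => mul_nonneg (H.prob.nonneg x) (Real.exp_nonneg _))
    refine h2.trans ?_
    rw [← hq]
    have e1 : ∀ Q ∈ (univ : Finset ι).powerset, bt q Q * ∑ x, μ x *
        Real.exp (∑ i ∈ Q ∩ U, c i - C) = (bt q Q * Real.exp (∑ i ∈ Q ∩ U, c i)) *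
          Real.exp (-C) := by
      intro Q _
      rw [← sum_mul, H.prob.sum_eq, one_mul, sub_eq_add_neg, Real.exp_add]; ring
    rw [sum_congr rfl e1, ← sum_mul]
    have h3 := mul_le_mul_of_nonneg_right (bt_exp_wt hq0 hq1 hc0 hcc U) (Real.exp_nonneg (-C))
    rwa [← hC, ← Real.exp_add, add_neg_cancel, Real.exp_zero] at h3
  have hdv := JP_dv H hβ0 hβ'0 h0 h1 hG hK hc1 hc2
    (fun S R _ => Real.exp (∑ i ∈ (R ∪ S) ∩ U, c i - C)) (fun _ _ _ _ => Real.exp_pos _) hZ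
  simp only [Real.log_exp] at hdv
  rw [JP_sub (f := fun S _ R _ => ∑ i ∈ (R ∪ S) ∩ U, c i) (f' := fun _ _ _ _ => C),
    JP_const H] at hdv
  have hC2 : C ≤ 2 * ∑ i ∈ U, (t i + u i) * c i := by
    rw [hC]
    refine mul_le_mul_of_nonneg_left (sum_le_sum fun i _ => ?_) (by norm_num)
    refine mul_le_mul_of_nonneg_right ?_ (hc0 i)
    rw [hq]; have := mul_nonneg (ht0 i) (hu0 i); beta_reduce; linarith
  have hC0 : 0 ≤ C := by
    rw [hC]
    exact mul_nonneg (by norm_num) (sum_nonneg fun i _ => mul_nonneg (hq0 i) (hc0 i))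
  have h4 : C * Gm w (gdw w μ) β τ * ∑ S ∈ (univ : Finset ι).powerset, β' S
      ≤ C * Gm w (gdw w μ) β τ * 1 := mul_le_mul_of_nonneg_left hc1 (mul_nonneg hC0 hG.le)
  have h5 := mul_le_mul_of_nonneg_right hC2 hG.le
  nlinarith

end

end Vale.Agent.P042.H779.Ab.Lc
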