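import Vale.Agent.P042.H779.LcKl

/-! Individual rates: Jensen over the replicas and the bound for one outer configuration (steps 4 and 5). -/

namespace Vale.Agent.P042.H779.Ab.Lc

open Finset

set_option linter.unusedSectionVars false

section
variable {ι : Type*} [Fintype ι] [DecidableEq ι] {V : ι → Type*} [∀ i, Fintype (V i)]
  {w : ∀ i, V i → ℝ} {g : Finset ι → (∀ i, V i) → ℝ} {ok : Finset ι → Prop}

/-- Jensen over the replicas compatible with the core `M`, summed over the cores. -/
lemma jensen_cores (F : Fam w g ok) {τ : ι → ℝ} (h0 : ∀ i, 0 < τ i) (h1 : ∀ i, τ i < 1) {m : ℕ} (hm : 1 ≤ m)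
    {A R : Finset ι} (hAR : A ⊆ R) {i : ι} (hi : i ∉ R) (hok : ok R) {x : ∀ i, V i}
    (hx : 0 < g R x) :
    ∑ M ∈ A.powerset, qc g τ m M A R x *
      phi (g (insert i A) x * g (insert i R) x * qc g τ m M (insert i A) (insert i R) x /
        (g A x * g R x * qc g τ m M A R x))
      ≤ ∑ α ∈ reps m R.powerset, (∏ j, post g τ R x (α j)) *
        phi (rt g i x R * rt g i x A * PiQ (τ i) (rbar g τ i x R) (fun j => rt g i x (α j))) := by
  have hA : 0 < g A x := g_mono F hAR hok hx
  have hrb := rbar_nonneg F h0 h1 i x R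
  have hz : ∀ α ∈ reps m R.powerset, 0 ≤ rt g i x R * rt g i x A *
      PiQ (τ i) (rbar g τ i x R) (fun j => rt g i x (α j)) := fun α _ =>
    mul_nonneg (mul_nonneg (rt_nonneg F _ _ _) (rt_nonneg F _ _ _))
      (PiQ_nonneg _ _ (h0 i) (h1 i).le hrb fun j => rt_nonneg F _ _ _)
  have hstep : ∀ M ∈ A.powerset, qc g τ m M A R x *
      phi (g (insert i A) x * g (insert i R) x * qc g τ m M (insert i A) (insert i R) x /
        (g A x * g R x * qc g τ m M A R x))
      ≤ ∑ α ∈ reps m R.powerset, (∏ j, post g τ R x (α j)) *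
        (if A ∩ inter α = M then (1 : ℝ) else 0) *
        phi (rt g i x R * rt g i x A * PiQ (τ i) (rbar g τ i x R) (fun j => rt g i x (α j))) := by
    intro M hM
    have hMA := mem_powerset.mp hM
    have hq := qc_pos F h0 h1 hm hMA hAR hok hx
    have hj := phi_jensen_div (reps m R.powerset)
      (fun α => (∏ j, post g τ R x (α j)) * (if A ∩ inter α = M then (1 : ℝ) else 0))
      (fun α => rt g i x R * rt g i x A * PiQ (τ i) (rbar g τ i x R) (fun j => rt g i x (α j)))
      (fun α _ => mul_nonneg (prod_nonneg fun j _ => post_nonneg F h0 h1 _ _ _)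
        (by split_ifs <;> norm_num)) hz hq
    have e1 : g (insert i A) x * g (insert i R) x *
        qc g τ m M (insert i A) (insert i R) x / (g A x * g R x * qc g τ m M A R x)
        = (∑ α ∈ reps m R.powerset, (∏ j, post g τ R x (α j)) *
          (if A ∩ inter α = M then (1 : ℝ) else 0) *
          (rt g i x R * rt g i x A * PiQ (τ i) (rbar g τ i x R) (fun j => rt g i x (α j)))) /
          ∑ α ∈ reps m R.powerset, (∏ j, post g τ R x (α j)) *
          (if A ∩ inter α = M then (1 : ℝ) else 0) := by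
      rw [qc_insert F h0 h1 hMA hAR hi hok hx]
      have e2 : ∑ α ∈ reps m R.powerset, (∏ j, post g τ R x (α j)) *
          (if A ∩ inter α = M then (1 : ℝ) else 0) *
          (rt g i x R * rt g i x A * PiQ (τ i) (rbar g τ i x R) (fun j => rt g i x (α j)))
          = rt g i x R * rt g i x A * ∑ α ∈ reps m R.powerset, (∏ j, post g τ R x (α j)) *
          ((if A ∩ inter α = M then 1 else 0) *
          PiQ (τ i) (rbar g τ i x R) (fun j => rt g i x (α j))) := by
        rw [mul_sum]; exact sum_congr rfl fun α _ => by ring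
      rw [e2]
      change _ = _ / qc g τ m M A R x
      unfold rt
      have := hq.ne'
      have := hA.ne'
      have := hx.ne'
      field_simp
    rw [e1]
    exact hj
  refine (sum_le_sum hstep).trans ?_
  rw [sum_comm]
  refine sum_le_sum fun α _ => ?_
  have hmem : A ∩ inter α ∈ A.powerset := mem_powerset.mpr inter_subset_left
  have e3 : ∑ M ∈ A.powerset, (∏ j, post g τ R x (α j)) *
        (if A ∩ inter α = M then (1 : ℝ) else 0) *
        phi (rt g i x R * rt g i x A * PiQ (τ i) (rbar g τ i x R) (fun j => rt g i x (α j)))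
      = (∏ j, post g τ R x (α j)) *
        phi (rt g i x R * rt g i x A * PiQ (τ i) (rbar g τ i x R) (fun j => rt g i x (α j))) *
        ∑ M ∈ A.powerset, (if A ∩ inter α = M then (1 : ℝ) else 0) := by
    rw [mul_sum]; exact sum_congr rfl fun M _ => by ring
  rw [e3, sum_ite_eq, if_pos hmem, mul_one]

/-- Steps 4 and 5 for one outer configuration and one new coordinate. -/
lemma inner_bound (F : Fam w g ok) {τ : ι → ℝ} {L : ℝ} (h0 : ∀ i, 0 < τ i) {m : ℕ}
    (hm : 1 ≤ m) (hmτ : ∀ i, 16 * m * τ i ≤ 1) (hL : 1 ≤ L)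
    {R : Finset ι} {i : ι} (hi : i ∉ R) (hok : ok (insert i R)) {x : ∀ i, V i} (hx : 0 < g R x)
    (hat : Real.exp (-L) ≤ w i (x i)) :
    ∑ A ∈ R.powerset, post g τ R x A * ∑ M ∈ A.powerset, qc g τ m M A R x *
      phi (g (insert i A) x * g (insert i R) x * qc g τ m M (insert i A) (insert i R) x /
        (g A x * g R x * qc g τ m M A R x))
      ≤ (1100 * (m ^ 2 * L / τ i)) * (phi (rt g i x R) +
        ∑ A ∈ R.powerset, post g τ R x A * phi (rt g i x A)) + 4 * ((15 * τ i) ^ m) ^ 2 := by
  have hm' : (1 : ℝ) ≤ m := by exact_mod_cast hm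
  have h1 : ∀ i, τ i < 1 := fun i => by nlinarith [h0 i, hmτ i]
  have hiA : ∀ A ∈ R.powerset, i ∉ A := fun A hA hc => hi (mem_powerset.mp hA hc)
  have hokR : ok R := F.ok_down _ _ (subset_insert _ _) hok
  have hokA : ∀ A ∈ R.powerset, ok (insert i A) := fun A hA =>
    F.ok_down _ _ (insert_subset_insert _ (mem_powerset.mp hA)) hok
  refine le_trans (sum_le_sum fun A hA => mul_le_mul_of_nonneg_left
    (jensen_cores F h0 h1 hm (mem_powerset.mp hA) hi hokR hx) (post_nonneg F h0 h1 R x A)) ?_
  exact star R.powerset (post g τ R x) (rt g i x) hm hL (h0 i) (hmτ i)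
    (fun A _ => post_nonneg F h0 h1 R x A) (post_sum F h0 h1 R x)
    (fun A _ => rt_nonneg F i x A) (fun A hA => rt_le_exp F hat (hiA A hA) (hokA A hA))
    (rt_nonneg F i x R) (rt_le_exp F hat hi hok)

end

end Vale.Agent.P042.H779.Ab.Lc
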