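import Vale.Agent.P042.H779.LcJP

/-! Individual rates: exponent of the martingale independent of the atoms. -/

namespace Vale.Agent.P042.H779.Ab.Lc

open Finset

set_option linter.unusedSectionVars false

lemma exp_quad (u : ℝ) : Real.exp u ≤ 1 + u + u ^ 2 * Real.exp (max u 0) := by
  rcases le_total 0 u with h | h
  · rw [max_eq_left h]
    have h1 := Real.one_sub_le_exp_neg u
    have h2 := Real.exp_pos u
    have h3 := mul_le_mul_of_nonneg_left h1 h2.le
    rw [← Real.exp_add, add_neg_cancel, Real.exp_zero] at h3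
    -- exp u - 1 ≤ u * exp u
    have h4 : Real.exp u - 1 ≤ u * Real.exp u := by linarith
    have h5 := mul_le_mul_of_nonneg_left h4 h
    have h6 : u * (u * Real.exp u) = u ^ 2 * Real.exp u := by ring
    nlinarith
  · rw [max_eq_right h, Real.exp_zero, mul_one]
    rcases le_or_gt (-1) u with h' | h'
    · have := Real.abs_exp_sub_one_sub_id_le (abs_le.mpr ⟨h', by linarith⟩)
      have := (abs_le.mp this).2
      linarith
    · have : Real.exp u ≤ 1 := Real.exp_le_one_iff.mpr (by linarith)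
      nlinarith

/-- `r^{1+1/L₀}` with an exponent independent of the size `e^{Lj}` of `r` -/
lemma rpow_scalar' {r L0 Lj : ℝ} (hr : 0 ≤ r) (hL0 : 0 < L0) (hLj : 1 ≤ Lj)
    (hrL : r ≤ Real.exp Lj) :
    r * r ^ (1 / L0) ≤ r + (1 / L0) * (r - 1) + 65 * Real.exp (2 * Lj / L0) / L0 * phi r := by
  have hE1 : 1 ≤ Real.exp (2 * Lj / L0) := Real.one_le_exp (by positivity)
  have hi : 0 < 1 / L0 := by positivity
  rcases hr.eq_or_lt with rfl | hr
  · simp only [zero_mul, phi, zero_sub]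
    have h2 : 65 * Real.exp (2 * Lj / L0) / L0 = (1 / L0) * (65 * Real.exp (2 * Lj / L0)) := by
      ring
    rw [h2]
    have h3 : (1 / L0) * 1 ≤ (1 / L0) * (65 * Real.exp (2 * Lj / L0)) :=
      mul_le_mul_of_nonneg_left (by linarith) hi.le
    linarith
  obtain ⟨u, hu⟩ : ∃ u, u = Real.log r / L0 := ⟨_, rfl⟩
  have h1 : r ^ (1 / L0) = Real.exp u := by
    rw [Real.rpow_def_of_pos hr, hu]; congr 1; ring
  have hlr : Real.log r ≤ Lj := by
    have := Real.log_le_log hr hrL
    rwa [Real.log_exp] at this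
  have hmax : max u 0 ≤ Lj / L0 := by
    refine max_le ?_ (by positivity)
    rw [hu]; exact div_le_div_of_nonneg_right hlr hL0.le
  have h2 := exp_quad u
  have hEe : Real.exp (max u 0) ≤ Real.exp (Lj / L0) := Real.exp_le_exp.mpr hmax
  have h3 : Real.exp u ≤ 1 + u + u ^ 2 * Real.exp (Lj / L0) := by
    have := mul_le_mul_of_nonneg_left hEe (sq_nonneg u)
    linarith
  rw [h1]
  have h4 := mul_le_mul_of_nonneg_left h3 hr.le
  have hphi := phi_nonneg hr.le
  have h5 : r * Real.log r = phi r + r - 1 := by unfold phi; ring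
  have h6 := r_log_sq_le hr hLj hrL
  have h7 : r * u ^ 2 ≤ (1 / L0) ^ 2 * (64 * Lj * phi r) := by
    have : r * u ^ 2 = (1 / L0) ^ 2 * (r * Real.log r ^ 2) := by rw [hu]; field_simp
    rw [this]
    exact mul_le_mul_of_nonneg_left h6 (sq_nonneg _)
  have h8 : r * (1 + u + u ^ 2 * Real.exp (Lj / L0))
      = r + (1 / L0) * (r * Real.log r) + (r * u ^ 2) * Real.exp (Lj / L0) := by
    rw [hu]; field_simp
  rw [h8, h5] at h4
  have h9 := mul_le_mul_of_nonneg_right h7 (Real.exp_nonneg (Lj / L0))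
  -- `(Lj/L0) e^{Lj/L0} ≤ e^{2 Lj/L0}`
  have h10 : (Lj / L0) * Real.exp (Lj / L0) ≤ Real.exp (2 * Lj / L0) := by
    have e1 : Real.exp (2 * Lj / L0) = Real.exp (Lj / L0) * Real.exp (Lj / L0) := by
      rw [← Real.exp_add]; congr 1; ring
    rw [e1]
    refine mul_le_mul_of_nonneg_right ?_ (Real.exp_nonneg _)
    have := Real.add_one_le_exp (Lj / L0)
    linarith
  have h11 : (1 / L0) ^ 2 * (64 * Lj * phi r) * Real.exp (Lj / L0)
      = (1 / L0) * (64 * phi r) * ((Lj / L0) * Real.exp (Lj / L0)) := by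
    field_simp
  have h12 : (1 / L0) * (64 * phi r) * ((Lj / L0) * Real.exp (Lj / L0))
      ≤ (1 / L0) * (64 * phi r) * Real.exp (2 * Lj / L0) :=
    mul_le_mul_of_nonneg_left h10 (by positivity)
  have h13 : (1 / L0) * phi r * 1 ≤ (1 / L0) * phi r * Real.exp (2 * Lj / L0) :=
    mul_le_mul_of_nonneg_left hE1 (by positivity)
  have h14 : 65 * Real.exp (2 * Lj / L0) / L0 * phi r
      = (1 / L0) * (64 * phi r) * Real.exp (2 * Lj / L0)
        + (1 / L0) * phi r * Real.exp (2 * Lj / L0) := by ring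
  rw [h14]
  have h15 : (1 / L0) * (phi r + r - 1) = (1 / L0) * (r - 1) + (1 / L0) * phi r * 1 := by ring
  rw [h15] at h4
  linarith

/-- the local constant of the revealing inequality -/
noncomputable def Cc {ι : Type*} (Lc : ι → ℝ) (L0 : ℝ) (j : ι) : ℝ :=
  65 * Real.exp (2 * Lc j / L0)

section
variable {ι : Type*} [Fintype ι] [DecidableEq ι] {V : ι → Type*} [∀ i, Fintype (V i)]
  [∀ i, DecidableEq (V i)] {w : ∀ i, V i → ℝ} {μ : (∀ i, V i) → ℝ} {β β' : Finset ι → ℝ}

/-- the atoms bound the ratios -/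
lemma rt_le' (H : Ref w μ) {L : ℝ} {i : ι} (hat : ∀ a, w i a = 0 ∨ Real.exp (-L) ≤ w i a)
    {P : Finset ι} (hi : i ∉ P) (x : ∀ i, V i) (a : V i) :
    rt (gdw w μ) i (Function.update x i a) P ≤ Real.exp L := by
  rcases hat a with h0 | h0
  · have h1 : gdw w μ (insert i P) (Function.update x i a) = 0 := by
      by_contra hne
      have hpos : 0 < gdw w μ (insert i P) (Function.update x i a) :=
        lt_of_le_of_ne (H.famT.g_nonneg _ _) (Ne.symm hne)
      rw [gdw_pos_iff H.prob H.w_nonneg H.ac] at hpos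
      have h3 := marg_eq_zero_of_w H.prob H.ac (mem_insert_self i P)
        (x := Function.update x i a) (by simpa using h0)
      exact hpos.ne' h3
    unfold rt
    rw [h1, zero_div]
    exact Real.exp_nonneg _
  · exact rt_le_exp H.famT (by simpa using h0) hi trivial

lemma log_cj_le' (H : Ref w μ) {t : ι → ℝ} (h0 : ∀ i, 0 ≤ t i) (h1 : ∀ i, t i < 1) {L0 : ℝ}
    (hL0 : 0 < L0) {Lc : ι → ℝ} {j : ι} (hL : 1 ≤ Lc j)
    (hat : ∀ a, w j a = 0 ∨ Real.exp (-(Lc j)) ≤ w j a) {P : Finset ι}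
    (hj : j ∉ P) {x : ∀ i, V i} (hx : 0 < gdw w μ P x) :
    L0 * Real.log (cj w μ t L0 j P x) ≤ Cc Lc L0 j * (t j * Di w (gdw w μ) j P x) := by
  have h2 := Real.log_le_sub_one_of_pos (cj_pos H h0 h1 L0 j P x)
  obtain ⟨C, hC⟩ : ∃ C, C = Cc Lc L0 j := ⟨_, rfl⟩
  have h3 : avr w μ (fun r => r ^ (1 / L0)) j P x ≤ 1 + C / L0 * Di w (gdw w μ) j P x := by
    have h4 : avr w μ (fun r => r ^ (1 / L0)) j P x
        ≤ ∑ a, w j a * (rt (gdw w μ) j (Function.update x j a) P
          + (1 / L0) * (rt (gdw w μ) j (Function.update x j a) P - 1)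
          + C / L0 * phi (rt (gdw w μ) j (Function.update x j a) P)) := by
      unfold avr
      rw [hC]
      exact sum_le_sum fun a _ => mul_le_mul_of_nonneg_left
        (rpow_scalar' (rt_nonneg H.famT _ _ _) hL0 hL (rt_le' H hat hj x a)) (H.w_nonneg j a)
    have h5 : ∑ a, w j a * (rt (gdw w μ) j (Function.update x j a) P
          + (1 / L0) * (rt (gdw w μ) j (Function.update x j a) P - 1)
          + C / L0 * phi (rt (gdw w μ) j (Function.update x j a) P))
        = (1 + 1 / L0) * (∑ a, w j a * rt (gdw w μ) j (Function.update x j a) P)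
          - (1 / L0) * (∑ a, w j a) + C / L0 * Di w (gdw w μ) j P x := by
      unfold Di
      rw [mul_sum, mul_sum, mul_sum, ← sum_sub_distrib, ← sum_add_distrib]
      exact sum_congr rfl fun a _ => by ring
    rw [h5, sum_w_rt H hj hx, H.w_sum] at h4
    linarith
  have h6 : cj w μ t L0 j P x - 1 ≤ t j * (C / L0 * Di w (gdw w μ) j P x) := by
    unfold cj
    have := mul_le_mul_of_nonneg_left h3 (h0 j)
    linarith
  have h7 := mul_le_mul_of_nonneg_left (h2.trans h6) hL0.le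
  have h8 : L0 * (t j * (C / L0 * Di w (gdw w μ) j P x)) = C * (t j * Di w (gdw w μ) j P x) := by
    field_simp
  rw [← hC]
  linarith

lemma log_Zl_ge' (H : Ref w μ) {t : ι → ℝ} (h0 : ∀ i, 0 ≤ t i) (h1 : ∀ i, t i < 1) {L0 : ℝ}
    (hL0 : 0 < L0) {Lc : ι → ℝ} (hL : ∀ i, 1 ≤ Lc i)
    (hat : ∀ i a, w i a = 0 ∨ Real.exp (-(Lc i)) ≤ w i a)
    (W : Finset ι) (l : List ι) : ∀ (T : Finset ι), l.Nodup → (∀ j ∈ l, j ∉ T) →
    (∀ j ∈ l, j ∉ W) → ∀ (R : Finset ι) (x : ∀ i, V i), 0 < μ x →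
    LR w μ W T l R x - CDl w μ (fun j => Cc Lc L0 j * t j) W T l R x
      ≤ L0 * Real.log (Zl w μ t L0 W T l R x) := by
  induction l with
  | nil => intro T _ _ _ R x _; simp [LR, CDl, Zl]
  | cons j l ih =>
    intro T hnd hT hW R x hx
    have hjT : j ∉ T := hT j (by simp)
    have hjW : j ∉ W := hW j (by simp)
    have hjl : j ∉ l := (List.nodup_cons.mp hnd).1
    have hjP : j ∉ W ∪ R ∩ T := by simp [hjW, hjT]
    have ih' := ih (insert j T) (List.nodup_cons.mp hnd).2
      (by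
        intro k hk hc
        rcases mem_insert.mp hc with rfl | hc
        · exact hjl hk
        · exact hT k (List.mem_cons_of_mem _ hk) hc)
      (fun k hk => hW k (List.mem_cons_of_mem _ hk)) R x hx
    simp only [LR, CDl, Zl]
    have hg := H.g_pos hx (W ∪ R ∩ T)
    have hrt : 0 < rt (gdw w μ) j x (W ∪ R ∩ T) := div_pos (H.g_pos hx _) hg
    have hc := cj_pos H h0 h1 L0 j (W ∪ R ∩ T) x
    have hZ := Zl_pos H h0 h1 L0 W l (insert j T) R x hx
    have hcj := log_cj_le' H h0 h1 hL0 (hL j) (hat j) hjP hg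
    rw [← mul_assoc] at hcj
    unfold fac
    by_cases hj : j ∈ R
    · rw [if_pos hj, if_pos hj]
      have hp : 0 < rt (gdw w μ) j x (W ∪ R ∩ T) ^ (1 / L0) := Real.rpow_pos_of_pos hrt _
      rw [Real.log_mul (div_pos hp hc).ne' hZ.ne', Real.log_div hp.ne' hc.ne',
        Real.log_rpow hrt]
      have : L0 * (1 / L0 * Real.log (rt (gdw w μ) j x (W ∪ R ∩ T)))
          = Real.log (rt (gdw w μ) j x (W ∪ R ∩ T)) := by field_simp
      nlinarith
    · rw [if_neg hj, if_neg hj]
      rw [Real.log_mul (div_pos one_pos hc).ne' hZ.ne', Real.log_div one_ne_zero hc.ne',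
        Real.log_one]
      nlinarith

end

end Vale.Agent.P042.H779.Ab.Lc
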