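import Vale.Agent.P042.H779.MuMain

/-! The planted mass is small: several scales. -/

namespace Vale.Agent.P042.H779.Ab

open Finset

set_option linter.unusedSectionVars false

section
variable {ι : Type*} [Fintype ι] [DecidableEq ι] {V : ι → Type*} [∀ i, Fintype (V i)]
  [∀ i, DecidableEq (V i)] {w : ∀ i, V i → ℝ} {μ : (∀ i, V i) → ℝ} {β' : Finset ι → ℝ}
  {t u : ι → ℝ} {sc : ι → ℕ} {ns : ℕ} {K : ℝ} {qb : ℕ → ℝ} {ok ok' : Finset ι → Prop}
  {D : ℕ} {L gH δ ε τ : ℝ} {lam a : ℕ → ℝ} {c : ℕ → ι → ℝ}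

lemma DD_le (H : Ref w μ) {β : Finset ι → ℝ} (hβ0 : ∀ R, 0 ≤ β R) (ht0 : ∀ i, 0 ≤ t i)
    (hins : ∀ R i, i ∉ R → β (insert i R) ≤ 2 * t i * β R) (h0 : 0 < τ) (h1 : τ < 1) :
    DD w (gdw w μ) β τ ≤ 4 * ∑ i, t i * Vi w μ β τ i := by
  have hmain : ∀ R ∈ (univ : Finset ι).powerset,
      ∑ i ∈ univ \ R, β (insert i R) * ∑ A ∈ R.powerset, bw τ R A *
        ∑ x, pw w x * (gdw w μ A x * gdw w μ R x *
          (Di w (gdw w μ) i R x + Di w (gdw w μ) i A x))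
      ≤ ∑ i, 4 * (t i * (β R * ∑ A ∈ R.powerset, bw τ R A *
        ∑ x, μ x * (gdw w μ A x * (if i ∈ R then 0 else Di w (gdw w μ) i R x)))) := by
    intro R _
    have e0 : ∑ i, 4 * (t i * (β R * ∑ A ∈ R.powerset, bw τ R A *
        ∑ x, μ x * (gdw w μ A x * (if i ∈ R then 0 else Di w (gdw w μ) i R x))))
        = ∑ i ∈ univ \ R, 4 * (t i * (β R * ∑ A ∈ R.powerset, bw τ R A *
        ∑ x, μ x * (gdw w μ A x * (if i ∈ R then 0 else Di w (gdw w μ) i R x)))) := by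
      symm
      refine sum_subset sdiff_subset fun i _ hi => ?_
      have : i ∈ R := by simpa using hi
      simp [this]
    rw [e0]
    refine sum_le_sum fun i hi => ?_
    have hiR : i ∉ R := (mem_sdiff.mp hi).2
    have hA : ∀ A ∈ R.powerset, bw τ R A *
        ∑ x, pw w x * (gdw w μ A x * gdw w μ R x *
          (Di w (gdw w μ) i R x + Di w (gdw w μ) i A x))
        ≤ 2 * (bw τ R A * ∑ x, μ x * (gdw w μ A x *
          (if i ∈ R then 0 else Di w (gdw w μ) i R x))) := by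
      intro A hA
      have hAR := mem_powerset.mp hA
      rw [← mul_assoc, mul_comm 2, mul_assoc]
      refine mul_le_mul_of_nonneg_left ?_ (bw_pos h0 h1 R A).le
      have e1 : ∑ x, pw w x * (gdw w μ A x * gdw w μ R x *
          (Di w (gdw w μ) i R x + Di w (gdw w μ) i A x))
          = ∑ x, μ x * (gdw w μ A x * Di w (gdw w μ) i R x)
            + ∑ x, μ x * (gdw w μ A x * Di w (gdw w μ) i A x) := by
        rw [H.mu_sum (R := R) (((loc_gdw A).mono hAR).mul (loc_Di i R)),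
          H.mu_sum (R := R) (((loc_gdw A).mono hAR).mul ((loc_Di i A).mono hAR)),
          ← sum_add_distrib]
        exact sum_congr rfl fun x _ => by ring
      rw [e1]
      have h2 := Di_mono H (R \ A) (P := A) (i := i) sdiff_disjoint
        (by rw [union_sdiff_of_subset hAR]; exact hiR) (loc_gdw (w := w) (μ := μ) A)
        (fun x => H.famT.g_nonneg A x)
      rw [union_sdiff_of_subset hAR] at h2
      simp only [if_neg hiR]
      linarith
    have h3 := sum_le_sum hA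
    rw [← mul_sum] at h3
    have hnn : 0 ≤ ∑ A ∈ R.powerset, bw τ R A * ∑ x, μ x * (gdw w μ A x *
          (if i ∈ R then 0 else Di w (gdw w μ) i R x)) := by
      refine sum_nonneg fun A _ => mul_nonneg (bw_pos h0 h1 R A).le (sum_nonneg fun x _ =>
        mul_nonneg (H.prob.nonneg x) (mul_nonneg (H.famT.g_nonneg _ _) ?_))
      rw [if_neg hiR]
      exact Di_nonneg H.famT _ _ _
    have hb : 0 ≤ β (insert i R) := hβ0 _
    calc β (insert i R) * ∑ A ∈ R.powerset, bw τ R A *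
        ∑ x, pw w x * (gdw w μ A x * gdw w μ R x *
          (Di w (gdw w μ) i R x + Di w (gdw w μ) i A x))
        ≤ β (insert i R) * (2 * ∑ A ∈ R.powerset, bw τ R A * ∑ x, μ x * (gdw w μ A x *
          (if i ∈ R then 0 else Di w (gdw w μ) i R x))) := mul_le_mul_of_nonneg_left h3 hb
      _ ≤ (2 * t i * β R) * (2 * ∑ A ∈ R.powerset, bw τ R A * ∑ x, μ x * (gdw w μ A x *
          (if i ∈ R then 0 else Di w (gdw w μ) i R x))) :=
        mul_le_mul_of_nonneg_right (hins R i hiR) (by linarith)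
      _ = _ := by ring
  unfold DD
  refine (sum_le_sum hmain).trans (le_of_eq ?_)
  rw [sum_comm, mul_sum]
  refine sum_congr rfl fun i _ => ?_
  unfold Vi JJ ET
  rw [mul_sum, mul_sum]

lemma SS_le (H : Ref w μ) {β : Finset ι → ℝ} (hβ0 : ∀ R, 0 ≤ β R) (ht0 : ∀ i, 0 ≤ t i)
    (hins : ∀ R i, i ∉ R → β (insert i R) ≤ 2 * t i * β R) (h0 : 0 < τ) (h1 : τ < 1) :
    SS w (gdw w μ) β τ ≤ 2 * (∑ i, t i) * Gm w (gdw w μ) β τ := by
  unfold SS Gm
  rw [mul_sum]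
  refine sum_le_sum fun R _ => ?_
  have hq : 0 ≤ ∑ A ∈ R.powerset, bw τ R A * Wq w (gdw w μ) A :=
    sum_nonneg fun A _ => mul_nonneg (bw_pos h0 h1 R A).le (Wq_nonneg H.famT A)
  have e1 : ∑ i ∈ univ \ R, β (insert i R) * ∑ A ∈ R.powerset, bw τ R A * Wq w (gdw w μ) A
      ≤ ∑ i ∈ univ \ R, (2 * t i * β R) * ∑ A ∈ R.powerset, bw τ R A * Wq w (gdw w μ) A :=
    sum_le_sum fun i hi => mul_le_mul_of_nonneg_right (hins R i (mem_sdiff.mp hi).2) hq
  have e2 : ∑ i ∈ univ \ R, (2 * t i * β R) * ∑ A ∈ R.powerset, bw τ R A * Wq w (gdw w μ) A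
      ≤ ∑ i, (2 * t i * β R) * ∑ A ∈ R.powerset, bw τ R A * Wq w (gdw w μ) A :=
    sum_le_sum_of_subset_of_nonneg sdiff_subset fun i _ _ =>
      mul_nonneg (mul_nonneg (mul_nonneg (by norm_num) (ht0 i)) (hβ0 R)) hq
  refine (e1.trans e2).trans (le_of_eq ?_)
  rw [← sum_mul, ← sum_mul, ← mul_sum]
  ring

/-- the final error -/
noncomputable def XX (t u : ι → ℝ) (sc : ι → ℕ) (ns : ℕ) (K : ℝ) (qb : ℕ → ℝ) (D : ℕ)
    (L gH δ ε τ θ : ℝ) (m : ℕ) (lam a : ℕ → ℝ) (c : ℕ → ι → ℝ) : ℝ :=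
  4 * gH * θ ^ m * (∑ i, t i) + 16 * τ * ((15 * τ) ^ m) ^ 2 * (∑ i, t i)
    + 17600 * m ^ 2 * L / K * (L * ε + 65 * ∑ s ∈ range ns, qb s * Hn (At sc s).card / lam s *
      (ε + 2 * ∑ i ∈ Lo sc (s + 1), (t i + u i) * c s i + a s
        + Fintype.card ι * (lam s * (1 + L) + gH) * (Real.exp (gH * D + L * D) * δ)))

/-- the coefficient of the entropy -/
noncomputable def αα (sc : ι → ℕ) (ns : ℕ) (K : ℝ) (qb : ℕ → ℝ)
    (L gH θ : ℝ) (m : ℕ) (lam : ℕ → ℝ) : ℝ :=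
  2 * gH * θ ^ m + 17600 * m ^ 2 * L / K *
    (1 + L + 130 * ∑ s ∈ range ns, qb s * Hn (At sc s).card / lam s)

/-- **MULTI**: the planted mass of a law satisfying the density and pin hypotheses. -/
theorem multi (H : Ref w μ) (A : Rates t u sc ns K qb)
    (P : Pins w μ sc ok' D L gH δ lam a c) [DecidablePred ok]
    (hok : ∀ R S : Finset ι, R ⊆ S → ok S → ok R) (hoko : ∀ R, ok R → ok' R)
    (B : Wts (rw' t ok) β' t u ok' ε) (hε : 0 ≤ ε)
    {m : ℕ} (hm : 1 ≤ m) (h0 : 0 < τ) (hmτ : 16 * m * τ ≤ 1) {θ : ℝ} (hθ : 0 < θ)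
    (hbig : 2 * gH + 1 ≤ Real.log (θ / τ))
    (hα : αα sc ns K qb L gH θ m lam ≤ 1) :
    Real.log (Gm w (gdw w μ) (rw' t ok) τ)
      ≤ XX t u sc ns K qb D L gH δ ε τ θ m lam a c := by
  obtain ⟨β, hβ⟩ : ∃ β, β = rw' t ok := ⟨_, rfl⟩
  rw [← hβ] at B ⊢
  obtain ⟨G, hGd⟩ : ∃ G, G = Gm w (gdw w μ) β τ := ⟨_, rfl⟩
  have hm' : (1 : ℝ) ≤ m := by exact_mod_cast hm
  have h1 : τ < 1 := by nlinarith
  have hL0 : 0 ≤ L := by linarith [P.L1]
  have hK := A.K0
  have hN0 : 0 ≤ ∑ i, t i := sum_nonneg fun i _ => A.t0 i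
  have hE0 : ∀ s, 0 ≤ ε + 2 * ∑ i ∈ Lo sc (s + 1), (t i + u i) * c s i + a s
        + Fintype.card ι * (lam s * (1 + L) + gH) * (Real.exp (gH * D + L * D) * δ) := by
    intro s
    refine add_nonneg (add_nonneg (add_nonneg hε ?_) (P.a0 s)) ?_
    · refine mul_nonneg (by norm_num) (sum_nonneg fun i _ => mul_nonneg ?_ (P.c0 s i))
      exact add_nonneg (A.t0 i) (A.u0 i)
    · refine mul_nonneg (mul_nonneg (by positivity) ?_)
        (mul_nonneg (Real.exp_nonneg _) P.δ0)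
      exact add_nonneg (mul_nonneg (P.lam0 s).le (by linarith)) P.gH0
  have hX0 : 0 ≤ XX t u sc ns K qb D L gH δ ε τ θ m lam a c := by
    unfold XX
    have hgH := P.gH0
    refine add_nonneg (add_nonneg (by positivity) (by positivity)) ?_
    refine mul_nonneg (by positivity) (add_nonneg (mul_nonneg hL0 hε) (mul_nonneg (by norm_num)
      (sum_nonneg fun s _ => mul_nonneg (div_nonneg (mul_nonneg (A.qb0 s) (Hn_nonneg _))
        (P.lam0 s).le) (hE0 s))))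
  rw [← hGd]
  rcases lt_or_ge G 1 with hG | hG
  · have : Real.log G ≤ 0 := by
      refine Real.log_nonpos ?_ hG.le
      rw [hGd]
      unfold Gm
      exact sum_nonneg fun R _ => mul_nonneg (B.b0 R) (sum_nonneg fun A _ =>
        mul_nonneg (bw_pos h0 h1 R A).le (Wq_nonneg H.famT A))
    linarith
  have hG1 : 1 ≤ Gm w (gdw w μ) β τ := by rw [← hGd]; exact hG
  have hG0 : 0 < G := by linarith
  have hGp : 0 < Gm w (gdw w μ) β τ := by linarith
  have hKK0 := KK_nonneg H B.b0 B.sum1 h0 h1 hGp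
  obtain ⟨k, hk⟩ : ∃ k, k = KK w μ β τ := ⟨_, rfl⟩
  have ht1 : ∀ i, t i ≤ 1 := fun i => (A.t1 i).trans (by norm_num)
  have hins : ∀ R i, i ∉ R → β (insert i R) ≤ 2 * t i * β R := by
    intro R i hi
    rw [hβ]; exact rw'_insert_le t A.t0 A.t1 hok hi
  have hwt : Wt ok β := by rw [hβ]; exact wt_rw' t A.t0 ht1
  have hF : Fam w (gdw w μ) ok := H.fam hok
  have hc := (abs_core' hF hwt h0 hm hmτ P.L1 P.atoms hθ P.gH0 hbig
    (fun M hM x hx => P.hlog M (hoko M hM) x hx) hG1).2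
  -- entropy
  have e1 : EJ w (gdw w μ) β τ (fun A _ x => Real.log (gdw w μ A x)) = k + G * Real.log G := by
    rw [← JJ_eq_EJ H β τ (f := fun A _ x => Real.log (gdw w μ A x)) fun A' R' hAR => by
      refine Loc.mono hAR ?_
      intro x y hxy
      beta_reduce
      rw [loc_gdw A' x y hxy], hk, hGd]
    unfold KK; ring
  have e2 : EJ w (gdw w μ) β τ (fun _ R _ => (R.card : ℝ)) ≤ k + 2 * (∑ i, t i) * G := by
    rw [← JJ_eq_EJ H β τ (f := fun _ R _ => (R.card : ℝ)) fun A' R' hAR => by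
      intro x y hxy; rfl]
    have := card_le H A.t0 (fun i => lt_of_le_of_lt (A.t1 i) (by norm_num)) B.b0 B.b1 h0 h1 hGp univ
    simp only [inter_univ] at this
    rw [hk, hGd]; exact this
  have e3 := DD_le H B.b0 A.t0 hins h0 h1
  have e4 := SS_le H B.b0 A.t0 hins h0 h1
  have e5 := insertion H A P B hε h0 h1 hG1
  rw [e1] at hc
  rw [← hGd] at e4 e5
  rw [← hk] at e5
  have hgθ : 0 ≤ gH * θ ^ m := mul_nonneg P.gH0 (by positivity)
  have f2 := mul_le_mul_of_nonneg_left e2 hgθ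
  have f3 : 1100 * m ^ 2 * L * DD w (gdw w μ) β τ
      ≤ 1100 * m ^ 2 * L * (4 * ∑ i, t i * Vi w μ β τ i) :=
    mul_le_mul_of_nonneg_left e3 (by positivity)
  have f4 : 4 * τ * ((15 * τ) ^ m) ^ 2 * SS w (gdw w μ) β τ
      ≤ 4 * τ * ((15 * τ) ^ m) ^ 2 * (2 * (∑ i, t i) * G) :=
    mul_le_mul_of_nonneg_left e4 (by positivity)
  have f5 : 1100 * m ^ 2 * L * (4 * ∑ i, t i * Vi w μ β τ i)
      ≤ 1100 * m ^ 2 * L * (4 * (2 / K * (k + L * (k + ε * G)
        + 65 * ∑ s ∈ range ns, qb s * Bs w μ β τ t u sc D L gH δ ε lam a c s *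
          Hn (At sc s).card))) :=
    mul_le_mul_of_nonneg_left (by linarith) (by positivity)
  -- expand the scales
  have e6 : ∑ s ∈ range ns, qb s * Bs w μ β τ t u sc D L gH δ ε lam a c s * Hn (At sc s).card
      = 2 * k * ∑ s ∈ range ns, qb s * Hn (At sc s).card / lam s
        + G * ∑ s ∈ range ns, qb s * Hn (At sc s).card / lam s *
      (ε + 2 * ∑ i ∈ Lo sc (s + 1), (t i + u i) * c s i + a s
        + Fintype.card ι * (lam s * (1 + L) + gH) * (Real.exp (gH * D + L * D) * δ)) := by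
    rw [mul_sum, mul_sum, ← sum_add_distrib]
    refine sum_congr rfl fun s _ => ?_
    unfold Bs
    rw [← hk, ← hGd]
    ring
  rw [e6] at f5
  obtain ⟨Q1, hQ1⟩ : ∃ Q1, Q1 = ∑ s ∈ range ns, qb s * Hn (At sc s).card / lam s := ⟨_, rfl⟩
  obtain ⟨Q2, hQ2⟩ : ∃ Q2, Q2 = ∑ s ∈ range ns, qb s * Hn (At sc s).card / lam s *
      (ε + 2 * ∑ i ∈ Lo sc (s + 1), (t i + u i) * c s i + a s
        + Fintype.card ι * (lam s * (1 + L) + gH) * (Real.exp (gH * D + L * D) * δ)) := ⟨_, rfl⟩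
  have hXe : XX t u sc ns K qb D L gH δ ε τ θ m lam a c
      = 4 * gH * θ ^ m * (∑ i, t i) + 16 * τ * ((15 * τ) ^ m) ^ 2 * (∑ i, t i)
        + 17600 * m ^ 2 * L / K * (L * ε + 65 * Q2) := by
    unfold XX; rw [← hQ2]
  have hαe : αα sc ns K qb L gH θ m lam
      = 2 * gH * θ ^ m + 17600 * m ^ 2 * L / K * (1 + L + 130 * Q1) := by
    unfold αα; rw [← hQ1]
  rw [← hQ1, ← hQ2] at f5
  rw [hXe]
  rw [hαe] at hα
  rw [← hk] at hKK0
  have f6 := mul_le_mul_of_nonneg_left hα hKK0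
  have hfin : G * Real.log G ≤ G * (4 * gH * θ ^ m * (∑ i, t i)
      + 16 * τ * ((15 * τ) ^ m) ^ 2 * (∑ i, t i)
        + 17600 * m ^ 2 * L / K * (L * ε + 65 * Q2)) := by
    have g1 : k + G * Real.log G ≤ 2 * (gH * θ ^ m * (k + 2 * (∑ i, t i) * G)
        + 1100 * m ^ 2 * L * (4 * (2 / K * (k + L * (k + ε * G)
        + 65 * (2 * k * Q1 + G * Q2)))) + 4 * τ * ((15 * τ) ^ m) ^ 2 * (2 * (∑ i, t i) * G)) := by
      linarith
    have g2 : 2 * (gH * θ ^ m * (k + 2 * (∑ i, t i) * G)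
        + 1100 * m ^ 2 * L * (4 * (2 / K * (k + L * (k + ε * G)
        + 65 * (2 * k * Q1 + G * Q2)))) + 4 * τ * ((15 * τ) ^ m) ^ 2 * (2 * (∑ i, t i) * G))
        = k * (2 * gH * θ ^ m + 17600 * m ^ 2 * L / K * (1 + L + 130 * Q1))
          + G * (4 * gH * θ ^ m * (∑ i, t i)
      + 16 * τ * ((15 * τ) ^ m) ^ 2 * (∑ i, t i)
        + 17600 * m ^ 2 * L / K * (L * ε + 65 * Q2)) := by
      field_simp
      ring
    linarith
  exact le_of_mul_le_mul_left hfin hG0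

end

end Vale.Agent.P042.H779.Ab
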