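import Vale.Agent.P042.H779.MuBase

/-! Revealing the coordinates one by one: an exponential martingale for the true law. -/

namespace Vale.Agent.P042.H779.Ab

open Finset

set_option linter.unusedSectionVars false

/-! scalar part -/

lemma log_sq_le {r : ℝ} (hr : 0 < r) : r * Real.log r ^ 2 ≤ 4 * (r - 1) ^ 2 := by
  obtain ⟨s, hs, rfl⟩ : ∃ s : ℝ, 0 < s ∧ r = s ^ 2 :=
    ⟨Real.sqrt r, Real.sqrt_pos.mpr hr, (Real.sq_sqrt hr.le).symm⟩
  have h1 : Real.log (s ^ 2) = 2 * Real.log s := by rw [Real.log_pow]; norm_num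
  rw [h1]
  have h2 := Real.log_le_sub_one_of_pos hs
  have h3 := Real.one_sub_inv_le_log_of_pos hs
  have h4 : s * Real.log s ≤ s * (s - 1) := mul_le_mul_of_nonneg_left h2 hs.le
  have h5 : s * (1 - s⁻¹) ≤ s * Real.log s := mul_le_mul_of_nonneg_left h3 hs.le
  have h6 : s * (1 - s⁻¹) = s - 1 := by field_simp
  rw [h6] at h5
  -- |s log s| ≤ |s² - 1|
  have h7 : (s * Real.log s) ^ 2 ≤ (s ^ 2 - 1) ^ 2 := by
    rcases le_total 1 s with h | h
    · have h9 : 0 ≤ s * Real.log s := mul_nonneg hs.le (Real.log_nonneg h)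
      exact pow_le_pow_left₀ h9 (by nlinarith) 2
    · have h9 : s * Real.log s ≤ 0 := by
        have := Real.log_nonpos hs.le h
        nlinarith
      have h10 : (-(s * Real.log s)) ^ 2 ≤ (1 - s ^ 2) ^ 2 :=
        pow_le_pow_left₀ (by linarith) (by nlinarith) 2
      calc (s * Real.log s) ^ 2 = (-(s * Real.log s)) ^ 2 := by ring
        _ ≤ (1 - s ^ 2) ^ 2 := h10
        _ = _ := by ring
  have h8 : s ^ 2 * (2 * Real.log s) ^ 2 = 4 * (s * Real.log s) ^ 2 := by ring
  rw [h8]
  linarith

lemma r_log_sq_le {r L : ℝ} (hr : 0 < r) (hL : 1 ≤ L) (hrL : r ≤ Real.exp L) :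
    r * Real.log r ^ 2 ≤ 64 * L * phi r := by
  have hphi := phi_nonneg hr.le
  rcases le_or_gt r 8 with h | h
  · have h1 := log_sq_le hr
    have h2 := sq_le_phi hr.le (by norm_num : (1 : ℝ) ≤ 8) h
    have h3 : 64 * phi r ≤ 64 * L * phi r := by nlinarith
    linarith
  · have h1 := self_le_phi h
    have h2 : Real.log r ≤ L := by
      have := Real.log_le_log hr hrL
      rwa [Real.log_exp] at this
    have h3 : 0 ≤ Real.log r := Real.log_nonneg (by linarith)
    have h4 : r * Real.log r = phi r + r - 1 := by unfold phi; ring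
    have h5 : r * Real.log r ^ 2 = (r * Real.log r) * Real.log r := by ring
    rw [h5]
    have h6 : r * Real.log r ≤ 2 * phi r := by linarith
    have h7 : (r * Real.log r) * Real.log r ≤ (2 * phi r) * L :=
      mul_le_mul h6 h2 h3 (by linarith)
    have : 0 ≤ L * phi r := mul_nonneg (by linarith) hphi
    linarith

/-- `r^{1+1/L}` is at most `r` plus a multiple of `(r-1)` plus the entropy term -/
lemma rpow_scalar {r L : ℝ} (hr : 0 ≤ r) (hL : 1 ≤ L) (hrL : r ≤ Real.exp L) :
    r * r ^ (1 / L) ≤ r + (1 / L) * (r - 1) + 65 / L * phi r := by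
  have hL0 : 0 < L := by linarith
  rcases hr.eq_or_lt with rfl | hr
  · simp only [zero_mul, phi, zero_sub]
    have : 0 < 1 / L := by positivity
    have h2 : 65 / L = 65 * (1 / L) := by ring
    rw [h2]
    simp
    have h3 : 0 < L⁻¹ := by positivity
    linarith
  obtain ⟨u, hu⟩ : ∃ u, u = Real.log r / L := ⟨_, rfl⟩
  have h1 : r ^ (1 / L) = Real.exp u := by
    rw [Real.rpow_def_of_pos hr, hu]; congr 1; ring
  have hu1 : u ≤ 1 := by
    rw [hu, div_le_one hL0]
    have := Real.log_le_log hr hrL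
    rwa [Real.log_exp] at this
  have h2 : Real.exp u ≤ 1 + u + u ^ 2 := by
    rcases le_or_gt (-1) u with h | h
    · have := Real.abs_exp_sub_one_sub_id_le (abs_le.mpr ⟨h, hu1⟩)
      have := (abs_le.mp this).2
      linarith
    · have : Real.exp u ≤ 1 := Real.exp_le_one_iff.mpr (by linarith)
      nlinarith
  rw [h1]
  have h3 := mul_le_mul_of_nonneg_left h2 hr.le
  have h4 : r * (1 + u + u ^ 2) = r + (1 / L) * (r * Real.log r)
      + (1 / L) ^ 2 * (r * Real.log r ^ 2) := by rw [hu]; field_simp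
  have h5 : r * Real.log r = phi r + r - 1 := by unfold phi; ring
  have h6 := mul_le_mul_of_nonneg_left (r_log_sq_le hr hL hrL) (sq_nonneg (1 / L))
  have h7 : (1 / L) ^ 2 * (64 * L * phi r) = 64 / L * phi r := by field_simp
  rw [h7] at h6
  rw [h4, h5] at h3
  have h8 : (1 / L) * (phi r + r - 1) = (1 / L) * (r - 1) + 1 / L * phi r := by ring
  have h9 : 65 / L * phi r = 1 / L * phi r + 64 / L * phi r := by ring
  rw [h8] at h3
  rw [h9]
  linarith

/-! Bernoulli weights -/

section
variable {ι : Type*} [Fintype ι] [DecidableEq ι]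

/-- Bernoulli weights with rates `t` -/
noncomputable def bt (t : ι → ℝ) (R : Finset ι) : ℝ := (∏ i ∈ R, t i) * ∏ i ∈ univ \ R, (1 - t i)

lemma bt_nonneg {t : ι → ℝ} (h0 : ∀ i, 0 ≤ t i) (h1 : ∀ i, t i ≤ 1) (R : Finset ι) :
    0 ≤ bt t R :=
  mul_nonneg (prod_nonneg fun i _ => h0 i) (prod_nonneg fun i _ => by linarith [h1 i])

lemma bt_sum (t : ι → ℝ) : ∑ R ∈ (univ : Finset ι).powerset, bt t R = 1 := by
  unfold bt
  rw [← Finset.prod_add]
  simp

lemma bt_insert (t : ι → ℝ) {j : ι} {R : Finset ι} (hj : j ∉ R) :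
    (1 - t j) * bt t (insert j R) = t j * bt t R := by
  unfold bt
  have h2 : univ \ R = insert j (univ \ insert j R) := by
    ext k
    simp only [mem_sdiff, mem_univ, true_and, mem_insert, not_or]
    constructor
    · intro hk
      by_cases hkj : k = j
      · exact Or.inl hkj
      · exact Or.inr ⟨hkj, hk⟩
    · rintro (rfl | ⟨_, hk⟩)
      · exact hj
      · exact hk
  rw [h2, prod_insert hj, prod_insert (by simp)]
  ring

/-- averaging over the membership of one coordinate -/
lemma bt_avg (t : ι → ℝ) (j : ι) (f : Finset ι → ℝ) :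
    ∑ R ∈ (univ : Finset ι).powerset, bt t R * f R
      = ∑ R ∈ (univ : Finset ι).powerset, bt t R *
        ((1 - t j) * f (R.erase j) + t j * f (insert j R)) := by
  have hu : (univ : Finset ι) = insert j (univ.erase j) := (insert_erase (mem_univ j)).symm
  have hj : j ∉ (univ : Finset ι).erase j := notMem_erase j _
  rw [hu, sum_powerset_insert hj, sum_powerset_insert hj, ← sum_add_distrib, ← sum_add_distrib]
  refine sum_congr rfl fun R hR => ?_
  have hjR : j ∉ R := fun hc => hj (mem_powerset.mp hR hc)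
  have h1 := bt_insert t hjR
  rw [erase_eq_of_notMem hjR, erase_insert hjR, insert_idem]
  linear_combination (f (insert j R) - f R) * h1

end

section
variable {ι : Type*} [Fintype ι] [DecidableEq ι] {V : ι → Type*} [∀ i, Fintype (V i)]
  [∀ i, DecidableEq (V i)] {w : ∀ i, V i → ℝ} {μ : (∀ i, V i) → ℝ}

/-- the one-step average -/
noncomputable def avr (w : ∀ i, V i → ℝ) (μ : (∀ i, V i) → ℝ) (ψ : ℝ → ℝ) (i : ι)
    (P : Finset ι) (x : ∀ i, V i) : ℝ :=
  ∑ a, w i a * (rt (gdw w μ) i (Function.update x i a) P *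
    ψ (rt (gdw w μ) i (Function.update x i a) P))

lemma loc_rt (i : ι) (P : Finset ι) : Loc (insert i P) (fun x => rt (gdw w μ) i x P) := by
  intro x y hxy
  simp only [rt]
  rw [loc_gdw (insert i P) x y hxy, loc_gdw P x y fun j hj => hxy j (mem_insert_of_mem hj)]

lemma rt_congr (i : ι) (P : Finset ι) {x y : ∀ i, V i} (hxy : ∀ j ∈ insert i P, x j = y j) :
    rt (gdw w μ) i x P = rt (gdw w μ) i y P := loc_rt i P x y hxy

lemma rt_update_congr {i : ι} {P : Finset ι} (a : V i) {x y : ∀ i, V i}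
    (hxy : ∀ j ∈ P, x j = y j) : rt (gdw w μ) i (Function.update x i a) P
      = rt (gdw w μ) i (Function.update y i a) P := by
  refine loc_rt i P _ _ fun j hj => ?_
  rcases mem_insert.mp hj with rfl | hj
  · simp
  · by_cases hji : j = i
    · subst hji; simp
    · simp [hji, hxy j hj]

lemma loc_avr (ψ : ℝ → ℝ) (i : ι) (P : Finset ι) : Loc P (avr w μ ψ i P) := by
  intro x y hxy
  unfold avr
  refine sum_congr rfl fun a _ => ?_
  rw [rt_update_congr a hxy]

lemma loc_Di (i : ι) (P : Finset ι) : Loc P (Di w (gdw w μ) i P) := by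
  intro x y hxy
  unfold Di
  refine sum_congr rfl fun a _ => ?_
  rw [rt_update_congr a hxy]

lemma gdw_insert_eq (H : Ref w μ) {i : ι} {P : Finset ι} (hi : i ∉ P) (x : ∀ i, V i) (a : V i) :
    gdw w μ (insert i P) (Function.update x i a)
      = rt (gdw w μ) i (Function.update x i a) P * gdw w μ P x := by
  unfold rt
  rw [g_update H.famT P hi]
  rcases (H.famT.g_nonneg P x).eq_or_lt with h0 | h0
  · rw [← h0]
    simp only [div_zero, zero_mul]
    by_contra hne
    have hpos : 0 < gdw w μ (insert i P) (Function.update x i a) :=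
      lt_of_le_of_ne (H.famT.g_nonneg _ _) (Ne.symm hne)
    have h2 := g_mono H.famT (subset_insert i P) trivial hpos
    rw [g_update H.famT P hi, ← h0] at h2
    exact lt_irrefl _ h2
  · rw [div_mul_cancel₀ _ h0.ne']

/-- one-step conditional expectation -/
lemma one_step (H : Ref w μ) {i : ι} {P : Finset ι} (hi : i ∉ P) {K : (∀ i, V i) → ℝ}
    (hK : Loc P K) (ψ : ℝ → ℝ) :
    ∑ x, μ x * (K x * ψ (rt (gdw w μ) i x P)) = ∑ x, μ x * (K x * avr w μ ψ i P x) := by
  have hKi : Loc (insert i P) (fun x => K x * ψ (rt (gdw w μ) i x P)) := by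
    refine (hK.mono (subset_insert _ _)).mul ?_
    intro x y hxy
    beta_reduce
    rw [rt_congr i P hxy]
  rw [H.mu_sum hKi, H.mu_sum (hK.mul (loc_avr ψ i P)), pw_avg H.famT i]
  refine sum_congr rfl fun x _ => ?_
  congr 1
  unfold avr
  rw [mul_sum, sum_mul]
  refine sum_congr rfl fun a _ => ?_
  have h1 : K (Function.update x i a) = K x := (hK.indep hi) x a
  rw [h1, gdw_insert_eq H hi]
  ring

lemma sum_w_rt (H : Ref w μ) {i : ι} {P : Finset ι} (hi : i ∉ P) {x : ∀ i, V i}
    (hx : 0 < gdw w μ P x) :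
    ∑ a, w i a * rt (gdw w μ) i (Function.update x i a) P = 1 := by
  have h1 := H.famT.g_avg P i hi trivial x
  have h2 : ∀ a, w i a * gdw w μ (insert i P) (Function.update x i a)
      = w i a * rt (gdw w μ) i (Function.update x i a) P * gdw w μ P x := by
    intro a; rw [gdw_insert_eq H hi]; ring
  rw [sum_congr rfl fun a _ => h2 a, ← sum_mul] at h1
  exact mul_right_cancel₀ hx.ne' (h1.trans (one_mul _).symm)

/-- conditional normalisation of the exponential of one step -/
noncomputable def cj (w : ∀ i, V i → ℝ) (μ : (∀ i, V i) → ℝ) (t : ι → ℝ) (L : ℝ) (j : ι)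
    (P : Finset ι) (x : ∀ i, V i) : ℝ :=
  1 - t j + t j * avr w μ (fun r => r ^ (1 / L)) j P x

lemma avr_rpow_nonneg (H : Ref w μ) (L : ℝ) (j : ι) (P : Finset ι) (x : ∀ i, V i) :
    0 ≤ avr w μ (fun r => r ^ (1 / L)) j P x := by
  unfold avr
  refine sum_nonneg fun a _ => mul_nonneg (H.w_nonneg j a) (mul_nonneg (rt_nonneg H.famT _ _ _) ?_)
  exact Real.rpow_nonneg (rt_nonneg H.famT _ _ _) _

lemma cj_pos (H : Ref w μ) {t : ι → ℝ} (h0 : ∀ i, 0 ≤ t i) (h1 : ∀ i, t i < 1) (L : ℝ) (j : ι)
    (P : Finset ι) (x : ∀ i, V i) : 0 < cj w μ t L j P x := by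
  unfold cj
  have := mul_nonneg (h0 j) (avr_rpow_nonneg H L j P x)
  have := h1 j
  linarith

lemma loc_cj (t : ι → ℝ) (L : ℝ) (j : ι) (P : Finset ι) : Loc P (cj w μ t L j P) := by
  intro x y hxy
  unfold cj
  rw [loc_avr _ j P x y hxy]

/-- the atoms bound the ratios -/
lemma rt_le (H : Ref w μ) {L : ℝ} (hat : ∀ i a, w i a = 0 ∨ Real.exp (-L) ≤ w i a) {i : ι}
    {P : Finset ι} (hi : i ∉ P) (x : ∀ i, V i) (a : V i) :
    rt (gdw w μ) i (Function.update x i a) P ≤ Real.exp L := by
  rcases hat i a with h0 | h0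
  · have h1 : gdw w μ (insert i P) (Function.update x i a) = 0 := by
      by_contra hne
      have hpos : 0 < gdw w μ (insert i P) (Function.update x i a) :=
        lt_of_le_of_ne (H.famT.g_nonneg _ _) (Ne.symm hne)
      rw [gdw_pos_iff H.prob H.w_nonneg H.ac] at hpos
      have h3 := marg_eq_zero_of_w H.prob H.ac (mem_insert_self i P)
        (x := Function.update x i a) (by simpa using h0)
      exact hpos.ne' h3
    unfold rt
    rw [h1, zero_div]
    exact Real.exp_nonneg _
  · exact rt_le_exp H.famT (by simpa using h0) hi trivial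

lemma log_cj_le (H : Ref w μ) {t : ι → ℝ} (h0 : ∀ i, 0 ≤ t i) (h1 : ∀ i, t i < 1) {L : ℝ}
    (hL : 1 ≤ L) (hat : ∀ i a, w i a = 0 ∨ Real.exp (-L) ≤ w i a) {j : ι} {P : Finset ι}
    (hj : j ∉ P) {x : ∀ i, V i} (hx : 0 < gdw w μ P x) :
    L * Real.log (cj w μ t L j P x) ≤ 65 * (t j * Di w (gdw w μ) j P x) := by
  have hL0 : 0 < L := by linarith
  have h2 := Real.log_le_sub_one_of_pos (cj_pos H h0 h1 L j P x)
  have h3 : avr w μ (fun r => r ^ (1 / L)) j P x ≤ 1 + 65 / L * Di w (gdw w μ) j P x := by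
    have h4 : avr w μ (fun r => r ^ (1 / L)) j P x
        ≤ ∑ a, w j a * (rt (gdw w μ) j (Function.update x j a) P
          + (1 / L) * (rt (gdw w μ) j (Function.update x j a) P - 1)
          + 65 / L * phi (rt (gdw w μ) j (Function.update x j a) P)) := by
      unfold avr
      exact sum_le_sum fun a _ => mul_le_mul_of_nonneg_left
        (rpow_scalar (rt_nonneg H.famT _ _ _) hL (rt_le H hat hj x a)) (H.w_nonneg j a)
    have h5 : ∑ a, w j a * (rt (gdw w μ) j (Function.update x j a) P
          + (1 / L) * (rt (gdw w μ) j (Function.update x j a) P - 1)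
          + 65 / L * phi (rt (gdw w μ) j (Function.update x j a) P))
        = (1 + 1 / L) * (∑ a, w j a * rt (gdw w μ) j (Function.update x j a) P)
          - (1 / L) * (∑ a, w j a) + 65 / L * Di w (gdw w μ) j P x := by
      unfold Di
      rw [mul_sum, mul_sum, mul_sum, ← sum_sub_distrib, ← sum_add_distrib]
      exact sum_congr rfl fun a _ => by ring
    rw [h5, sum_w_rt H hj hx, H.w_sum] at h4
    linarith
  have h6 : cj w μ t L j P x - 1 ≤ t j * (65 / L * Di w (gdw w μ) j P x) := by
    unfold cj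
    have := mul_le_mul_of_nonneg_left h3 (h0 j)
    linarith
  have h7 := mul_le_mul_of_nonneg_left (h2.trans h6) hL0.le
  have h8 : L * (t j * (65 / L * Di w (gdw w μ) j P x)) = 65 * (t j * Di w (gdw w μ) j P x) := by
    field_simp
  linarith

/-- one factor of the martingale -/
noncomputable def fac (w : ∀ i, V i → ℝ) (μ : (∀ i, V i) → ℝ) (t : ι → ℝ) (L : ℝ) (j : ι)
    (P R : Finset ι) (x : ∀ i, V i) : ℝ :=
  (if j ∈ R then rt (gdw w μ) j x P ^ (1 / L) else 1) / cj w μ t L j P x

/-- the martingale along a list, starting from the revealed set `T`; `W` are fixed pins -/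
noncomputable def Zl (w : ∀ i, V i → ℝ) (μ : (∀ i, V i) → ℝ) (t : ι → ℝ) (L : ℝ)
    (W : Finset ι) : Finset ι → List ι → Finset ι → (∀ i, V i) → ℝ
  | _, [], _, _ => 1
  | T, j :: l, R, x => fac w μ t L j (W ∪ R ∩ T) R x * Zl w μ t L W (insert j T) l R x

/-- expectation of the martingale under the true law with product rates -/
lemma mart (H : Ref w μ) {t : ι → ℝ} (h0 : ∀ i, 0 ≤ t i) (h1 : ∀ i, t i < 1) (L : ℝ)
    (W : Finset ι) (l : List ι) : ∀ (T : Finset ι), l.Nodup → (∀ j ∈ l, j ∉ T) →
    (∀ j ∈ l, j ∉ W) → ∀ K : Finset ι → (∀ i, V i) → ℝ,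
    (∀ R, Loc (W ∪ R ∩ T) (K R)) →
    (∀ R R' : Finset ι, (∀ i, i ∉ l → (i ∈ R ↔ i ∈ R')) → K R = K R') →
    ∑ R ∈ (univ : Finset ι).powerset, bt t R * ∑ x, μ x * (K R x * Zl w μ t L W T l R x)
      = ∑ R ∈ (univ : Finset ι).powerset, bt t R * ∑ x, μ x * K R x := by
  induction l with
  | nil =>
    intro T _ _ _ K _ _
    simp [Zl]
  | cons j l ih =>
    intro T hnd hT hW K hK hI
    have hjT : j ∉ T := hT j (by simp)
    have hjW : j ∉ W := hW j (by simp)
    have hjl : j ∉ l := (List.nodup_cons.mp hnd).1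
    have hjP : ∀ R : Finset ι, j ∉ W ∪ R ∩ T := fun R => by simp [hjW, hjT]
    have ih' := ih (insert j T) (List.nodup_cons.mp hnd).2
      (by
        intro k hk hc
        rcases mem_insert.mp hc with rfl | hc
        · exact hjl hk
        · exact hT k (List.mem_cons_of_mem _ hk) hc)
      (fun k hk => hW k (List.mem_cons_of_mem _ hk))
      (fun R x => K R x * fac w μ t L j (W ∪ R ∩ T) R x)
      (by
        intro R
        have hsub : W ∪ R ∩ T ⊆ W ∪ R ∩ insert j T := by
          intro k hk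
          simp only [mem_union, mem_inter, mem_insert] at hk ⊢
          tauto
        refine ((hK R).mono hsub).mul ?_
        intro x y hxy
        unfold fac
        rw [loc_cj t L j (W ∪ R ∩ T) x y fun k hk => hxy k (hsub hk)]
        congr 1
        split_ifs with hjR
        · have : rt (gdw w μ) j x (W ∪ R ∩ T) = rt (gdw w μ) j y (W ∪ R ∩ T) := by
            refine loc_rt j (W ∪ R ∩ T) x y fun k hk => ?_
            rcases mem_insert.mp hk with rfl | hk
            · exact hxy k (by simp [hjR])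
            · exact hxy k (hsub hk)
          rw [this]
        · rfl)
      (by
        intro R R' hRR
        have hj2 : j ∈ R ↔ j ∈ R' := hRR j hjl
        have hK' : K R = K R' := hI R R' fun i hi => hRR i fun hc => hi (List.mem_cons_of_mem _ hc)
        have hRT : R ∩ T = R' ∩ T := by
          ext k
          simp only [mem_inter]
          constructor
          · rintro ⟨h1, h2⟩
            exact ⟨(hRR k fun hc => hT k (List.mem_cons_of_mem _ hc) h2).mp h1, h2⟩
          · rintro ⟨h1, h2⟩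
            exact ⟨(hRR k fun hc => hT k (List.mem_cons_of_mem _ hc) h2).mpr h1, h2⟩
        funext x
        simp only [fac, hK', hRT]
        congr 2
        by_cases h : j ∈ R
        · rw [if_pos h, if_pos (hj2.mp h)]
        · rw [if_neg h, if_neg fun hc => h (hj2.mpr hc)])
    have e1 : ∀ R ∈ (univ : Finset ι).powerset, bt t R * ∑ x, μ x * (K R x *
        Zl w μ t L W T (j :: l) R x)
        = bt t R * ∑ x, μ x * (K R x * fac w μ t L j (W ∪ R ∩ T) R x *
          Zl w μ t L W (insert j T) l R x) := by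
      intro R _
      congr 1
      refine sum_congr rfl fun x _ => ?_
      simp only [Zl]
      ring
    rw [sum_congr rfl e1, ih',
      bt_avg t j (fun R => ∑ x, μ x * (K R x * fac w μ t L j (W ∪ R ∩ T) R x))]
    refine sum_congr rfl fun R _ => ?_
    congr 1
    have hRe : K (R.erase j) = K R := hI _ _ fun i hi => by
      have : i ≠ j := fun h => hi (by rw [h]; simp)
      simp [this]
    have hRi : K (insert j R) = K R := hI _ _ fun i hi => by
      have : i ≠ j := fun h => hi (by rw [h]; simp)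
      simp [this]
    have hTe : R.erase j ∩ T = R ∩ T := by
      ext k
      simp only [mem_inter, mem_erase]
      constructor
      · rintro ⟨⟨_, h1⟩, h2⟩; exact ⟨h1, h2⟩
      · rintro ⟨h1, h2⟩; exact ⟨⟨fun h => hjT (h ▸ h2), h1⟩, h2⟩
    have hTi : insert j R ∩ T = R ∩ T := by
      ext k
      simp only [mem_inter, mem_insert]
      constructor
      · rintro ⟨rfl | h1, h2⟩
        · exact absurd h2 hjT
        · exact ⟨h1, h2⟩
      · rintro ⟨h1, h2⟩; exact ⟨Or.inr h1, h2⟩
    rw [hRe, hRi, hTe, hTi]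
    obtain ⟨P, hP⟩ : ∃ P, P = W ∪ R ∩ T := ⟨_, rfl⟩
    rw [← hP]
    have hKP : Loc P (K R) := by rw [hP]; exact hK R
    have hjP' : j ∉ P := by rw [hP]; exact hjP R
    have hf1 : ∀ x, fac w μ t L j P (R.erase j) x = 1 / cj w μ t L j P x := by
      intro x; unfold fac; rw [if_neg (notMem_erase j R)]
    have hf2 : ∀ x, fac w μ t L j P (insert j R) x
        = rt (gdw w μ) j x P ^ (1 / L) / cj w μ t L j P x := by
      intro x; unfold fac; rw [if_pos (mem_insert_self j R)]
    have hKc : Loc P (fun x => K R x / cj w μ t L j P x) := by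
      intro x y hxy
      beta_reduce
      rw [hKP x y hxy, loc_cj t L j P x y hxy]
    have hos := one_step H hjP' hKc (fun r => r ^ (1 / L))
    have e2 : ∑ x, μ x * (K R x * fac w μ t L j P (insert j R) x)
        = ∑ x, μ x * (K R x / cj w μ t L j P x * avr w μ (fun r => r ^ (1 / L)) j P x) := by
      rw [← hos]
      refine sum_congr rfl fun x _ => ?_
      rw [hf2]; ring
    rw [e2, mul_sum, mul_sum, ← sum_add_distrib]
    refine sum_congr rfl fun x _ => ?_
    rw [hf1]
    have hc := (cj_pos H h0 h1 L j P x).ne'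
    have hcd : cj w μ t L j P x = 1 - t j + t j * avr w μ (fun r => r ^ (1 / L)) j P x := rfl
    field_simp
    rw [hcd]

end

end Vale.Agent.P042.H779.Ab
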