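import Vale.Agent.P042.H779.MuMart

/-! Revealing: consequences of the martingale and of the Donsker-Varadhan transfer. -/

namespace Vale.Agent.P042.H779.Ab

open Finset

set_option linter.unusedSectionVars false

section
variable {ι : Type*} [Fintype ι] [DecidableEq ι] {V : ι → Type*} [∀ i, Fintype (V i)]
  [∀ i, DecidableEq (V i)] {w : ∀ i, V i → ℝ} {μ : (∀ i, V i) → ℝ} {β : Finset ι → ℝ}

/-- logarithms of the revealed ratios -/
noncomputable def LR (w : ∀ i, V i → ℝ) (μ : (∀ i, V i) → ℝ) (W : Finset ι) :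
    Finset ι → List ι → Finset ι → (∀ i, V i) → ℝ
  | _, [], _, _ => 0
  | T, j :: l, R, x => (if j ∈ R then Real.log (rt (gdw w μ) j x (W ∪ R ∩ T)) else 0)
      + LR w μ W (insert j T) l R x

/-- costs of the revealed coordinates -/
noncomputable def CDl (w : ∀ i, V i → ℝ) (μ : (∀ i, V i) → ℝ) (t : ι → ℝ) (W : Finset ι) :
    Finset ι → List ι → Finset ι → (∀ i, V i) → ℝ
  | _, [], _, _ => 0
  | T, j :: l, R, x => t j * Di w (gdw w μ) j (W ∪ R ∩ T) x + CDl w μ t W (insert j T) l R x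

lemma inter_insert_of_mem' {R T : Finset ι} {j : ι} (h : j ∈ R) :
    R ∩ insert j T = insert j (R ∩ T) := by
  ext k; simp only [mem_inter, mem_insert]
  constructor
  · rintro ⟨h1, h2 | h2⟩
    · exact Or.inl h2
    · exact Or.inr ⟨h1, h2⟩
  · rintro (rfl | ⟨h1, h2⟩)
    · exact ⟨h, Or.inl rfl⟩
    · exact ⟨h1, Or.inr h2⟩

lemma inter_insert_of_notMem' {R T : Finset ι} {j : ι} (h : j ∉ R) :
    R ∩ insert j T = R ∩ T := by
  ext k; simp only [mem_inter, mem_insert]
  constructor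
  · rintro ⟨h1, rfl | h2⟩
    · exact absurd h1 h
    · exact ⟨h1, h2⟩
  · rintro ⟨h1, h2⟩; exact ⟨h1, Or.inr h2⟩

lemma LR_eq (H : Ref w μ) (W : Finset ι) (l : List ι) : ∀ (T R : Finset ι) (x : ∀ i, V i),
    0 < μ x → LR w μ W T l R x
      = Real.log (gdw w μ (W ∪ R ∩ (T ∪ l.toFinset)) x) - Real.log (gdw w μ (W ∪ R ∩ T) x) := by
  induction l with
  | nil => intro T R x _; simp [LR]
  | cons j l ih =>
    intro T R x hx
    simp only [LR]
    rw [ih (insert j T) R x hx]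
    have e1 : insert j T ∪ l.toFinset = T ∪ (j :: l).toFinset := by
      ext k; simp only [mem_union, mem_insert, List.toFinset_cons]; tauto
    rw [e1]
    by_cases hj : j ∈ R
    · rw [if_pos hj, inter_insert_of_mem' hj, union_insert]
      have h1 := H.g_pos hx (W ∪ R ∩ T)
      have h2 := H.g_pos hx (insert j (W ∪ R ∩ T))
      unfold rt
      rw [Real.log_div h2.ne' h1.ne']; ring
    · rw [if_neg hj, inter_insert_of_notMem' hj]; ring

lemma Zl_pos (H : Ref w μ) {t : ι → ℝ} (h0 : ∀ i, 0 ≤ t i) (h1 : ∀ i, t i < 1) (L : ℝ)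
    (W : Finset ι) (l : List ι) : ∀ (T R : Finset ι) (x : ∀ i, V i), 0 < μ x →
    0 < Zl w μ t L W T l R x := by
  induction l with
  | nil => intro T R x _; simp [Zl]
  | cons j l ih =>
    intro T R x hx
    simp only [Zl]
    refine mul_pos ?_ (ih _ R x hx)
    unfold fac
    refine div_pos ?_ (cj_pos H h0 h1 L j _ x)
    split_ifs
    · refine Real.rpow_pos_of_pos ?_ _
      unfold rt
      exact div_pos (H.g_pos hx _) (H.g_pos hx _)
    · exact one_pos

lemma log_Zl_ge (H : Ref w μ) {t : ι → ℝ} (h0 : ∀ i, 0 ≤ t i) (h1 : ∀ i, t i < 1) {L : ℝ}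
    (hL : 1 ≤ L) (hat : ∀ i a, w i a = 0 ∨ Real.exp (-L) ≤ w i a)
    (W : Finset ι) (l : List ι) : ∀ (T : Finset ι), l.Nodup → (∀ j ∈ l, j ∉ T) →
    (∀ j ∈ l, j ∉ W) → ∀ (R : Finset ι) (x : ∀ i, V i), 0 < μ x →
    LR w μ W T l R x - 65 * CDl w μ t W T l R x ≤ L * Real.log (Zl w μ t L W T l R x) := by
  induction l with
  | nil => intro T _ _ _ R x _; simp [LR, CDl, Zl]
  | cons j l ih =>
    intro T hnd hT hW R x hx
    have hjT : j ∉ T := hT j (by simp)
    have hjW : j ∉ W := hW j (by simp)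
    have hjl : j ∉ l := (List.nodup_cons.mp hnd).1
    have hjP : j ∉ W ∪ R ∩ T := by simp [hjW, hjT]
    have ih' := ih (insert j T) (List.nodup_cons.mp hnd).2
      (by
        intro k hk hc
        rcases mem_insert.mp hc with rfl | hc
        · exact hjl hk
        · exact hT k (List.mem_cons_of_mem _ hk) hc)
      (fun k hk => hW k (List.mem_cons_of_mem _ hk)) R x hx
    simp only [LR, CDl, Zl]
    have hg := H.g_pos hx (W ∪ R ∩ T)
    have hrt : 0 < rt (gdw w μ) j x (W ∪ R ∩ T) := div_pos (H.g_pos hx _) hg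
    have hc := cj_pos H h0 h1 L j (W ∪ R ∩ T) x
    have hZ := Zl_pos H h0 h1 L W l (insert j T) R x hx
    have hL0 : 0 < L := by linarith
    have hcj := log_cj_le H h0 h1 hL hat hjP hg
    unfold fac
    by_cases hj : j ∈ R
    · rw [if_pos hj, if_pos hj]
      have hp : 0 < rt (gdw w μ) j x (W ∪ R ∩ T) ^ (1 / L) := Real.rpow_pos_of_pos hrt _
      rw [Real.log_mul (div_pos hp hc).ne' hZ.ne', Real.log_div hp.ne' hc.ne',
        Real.log_rpow hrt]
      have : L * (1 / L * Real.log (rt (gdw w μ) j x (W ∪ R ∩ T)))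
          = Real.log (rt (gdw w μ) j x (W ∪ R ∩ T)) := by field_simp
      nlinarith
    · rw [if_neg hj, if_neg hj]
      rw [Real.log_mul (div_pos one_pos hc).ne' hZ.ne', Real.log_div one_ne_zero hc.ne',
        Real.log_one]
      nlinarith

/-- **Revealing inequality.** -/
theorem reveal (H : Ref w μ) {t : ι → ℝ} (h0 : ∀ i, 0 ≤ t i) (h1 : ∀ i, t i < 1) {L : ℝ}
    (hL : 1 ≤ L) (hat : ∀ i a, w i a = 0 ∨ Real.exp (-L) ≤ w i a)
    (hβ0 : ∀ R, 0 ≤ β R) (hβ : ∀ R, β R ≤ bt t R) {τ : ℝ} (ht0 : 0 < τ) (ht1 : τ < 1)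
    (hG : 0 < Gm w (gdw w μ) β τ)
    (W : Finset ι) (l : List ι) (T : Finset ι) (hnd : l.Nodup) (hT : ∀ j ∈ l, j ∉ T)
    (hW : ∀ j ∈ l, j ∉ W) :
    JJ w μ β τ (fun _ R x => Real.log (gdw w μ (W ∪ R ∩ (T ∪ l.toFinset)) x)
        - Real.log (gdw w μ (W ∪ R ∩ T) x))
      ≤ L * KK w μ β τ + 65 * JJ w μ β τ (fun _ R x => CDl w μ t W T l R x) := by
  have hZ1 : ∑ R ∈ (univ : Finset ι).powerset, β R * ∑ x, μ x * Zl w μ t L W T l R x ≤ 1 := by
    have hm := mart H h0 h1 L W l T hnd hT hW (fun _ _ => 1) (fun _ _ _ _ => rfl)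
      (fun _ _ _ => rfl)
    simp only [one_mul, mul_one] at hm
    rw [H.prob.sum_eq] at hm
    simp only [mul_one] at hm
    rw [bt_sum] at hm
    rw [← hm]
    refine sum_le_sum fun R _ => mul_le_mul_of_nonneg_right (hβ R) ?_
    refine sum_nonneg fun x _ => ?_
    rcases (H.prob.nonneg x).eq_or_lt with hx | hx
    · rw [← hx]; simp
    · exact mul_nonneg hx.le (Zl_pos H h0 h1 L W l T R x hx).le
  have hdv := dv_transfer H hβ0 ht0 ht1 hG (fun R x => Zl w μ t L W T l R x)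
    (fun R x _ hx => Zl_pos H h0 h1 L W l T R x hx) hZ1
  have hL0 : 0 < L := by linarith
  have h2 := mul_le_mul_of_nonneg_left hdv hL0.le
  rw [← JJ_smul] at h2
  have h3 : JJ w μ β τ (fun _ R x => (Real.log (gdw w μ (W ∪ R ∩ (T ∪ l.toFinset)) x)
        - Real.log (gdw w μ (W ∪ R ∩ T) x)) - 65 * CDl w μ t W T l R x)
      ≤ JJ w μ β τ (fun _ R x => L * Real.log (Zl w μ t L W T l R x)) := by
    refine JJ_mono H hβ0 ht0 ht1 fun R _ A _ x hx => ?_
    rw [← LR_eq H W l T R x hx]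
    exact log_Zl_ge H h0 h1 hL hat W l T hnd hT hW R x hx
  rw [JJ_sub, JJ_smul] at h3
  linarith

/-- densities are not small on average -/
lemma neg_log_le (H : Ref w μ) (hβ0 : ∀ R, 0 ≤ β R)
    (hβ1 : ∑ R ∈ (univ : Finset ι).powerset, β R ≤ 1) {τ : ℝ} (ht0 : 0 < τ) (ht1 : τ < 1)
    (hG : 0 < Gm w (gdw w μ) β τ) (P : Finset ι → Finset ι) :
    JJ w μ β τ (fun _ R x => - Real.log (gdw w μ (P R) x)) ≤ KK w μ β τ := by
  have hZ1 : ∑ R ∈ (univ : Finset ι).powerset, β R * ∑ x, μ x * (gdw w μ (P R) x)⁻¹ ≤ 1 := by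
    refine le_trans (sum_le_sum fun R _ => ?_) hβ1
    refine mul_le_of_le_one_right (hβ0 R) ?_
    have hloc : Loc (P R) (fun x => (gdw w μ (P R) x)⁻¹) := by
      intro x y hxy; beta_reduce; rw [loc_gdw (P R) x y hxy]
    rw [H.mu_sum hloc, ← pw_sum H.famT]
    refine sum_le_sum fun x _ => ?_
    refine mul_le_of_le_one_right (pw_nonneg H.famT x) ?_
    exact inv_mul_le_one
  have := dv_transfer H hβ0 ht0 ht1 hG (fun R x => (gdw w μ (P R) x)⁻¹)
    (fun R x _ hx => inv_pos.mpr (H.g_pos hx _)) hZ1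
  simpa [Real.log_inv] using this

/-- number of background points in a set of coordinates -/
lemma card_le (H : Ref w μ) {t : ι → ℝ} (h0 : ∀ i, 0 ≤ t i) (h1 : ∀ i, t i < 1)
    (hβ0 : ∀ R, 0 ≤ β R) (hβ : ∀ R, β R ≤ bt t R) {τ : ℝ} (ht0 : 0 < τ) (ht1 : τ < 1)
    (hG : 0 < Gm w (gdw w μ) β τ) (S : Finset ι) :
    JJ w μ β τ (fun _ R _ => ((R ∩ S).card : ℝ))
      ≤ KK w μ β τ + 2 * (∑ i ∈ S, t i) * Gm w (gdw w μ) β τ := by
  -- exponential moment
  have hexp : ∑ R ∈ (univ : Finset ι).powerset, bt t R * Real.exp ((R ∩ S).card)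
      ≤ Real.exp (2 * ∑ i ∈ S, t i) := by
    have e1 : ∀ R ∈ (univ : Finset ι).powerset, bt t R * Real.exp ((R ∩ S).card)
        = (∏ i ∈ R, (if i ∈ S then t i * Real.exp 1 else t i)) * ∏ i ∈ univ \ R, (1 - t i) := by
      intro R _
      have : Real.exp ((R ∩ S).card) = ∏ i ∈ R, (if i ∈ S then Real.exp 1 else 1) := by
        rw [prod_ite, prod_const_one, mul_one, prod_const, ← Real.exp_nat_mul, mul_one]
        congr 3
      rw [this]
      unfold bt
      have e2 : ∏ i ∈ R, (if i ∈ S then t i * Real.exp 1 else t i)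
          = (∏ i ∈ R, t i) * ∏ i ∈ R, (if i ∈ S then Real.exp 1 else 1) := by
        rw [← prod_mul_distrib]
        refine prod_congr rfl fun i _ => ?_
        split_ifs <;> ring
      rw [e2]; ring
    rw [sum_congr rfl e1, ← Finset.prod_add]
    have e3 : Real.exp (2 * ∑ i ∈ S, t i)
        = ∏ i, (if i ∈ S then Real.exp (2 * t i) else 1) := by
      rw [prod_ite_mem, univ_inter, mul_sum, Real.exp_sum]
    rw [e3]
    refine prod_le_prod (fun i _ => ?_) fun i _ => ?_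
    · have hh := h1 i
      have hh0 := h0 i
      split_ifs
      · have := Real.exp_pos (1 : ℝ)
        nlinarith [mul_nonneg hh0 this.le]
      · linarith
    · split_ifs
      · have he : Real.exp 1 ≤ 3 := by
          have := Real.exp_one_lt_d9; linarith
        have h5 := Real.add_one_le_exp (2 * t i)
        have := mul_le_mul_of_nonneg_left he (h0 i)
        linarith
      · linarith
  obtain ⟨c, hc⟩ : ∃ c, c = 2 * ∑ i ∈ S, t i := ⟨_, rfl⟩
  rw [← hc] at hexp ⊢
  have hZ1 : ∑ R ∈ (univ : Finset ι).powerset, β R *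
      ∑ x, μ x * Real.exp ((R ∩ S).card - c) ≤ 1 := by
    have e4 : ∀ R ∈ (univ : Finset ι).powerset, β R * ∑ x, μ x * Real.exp ((R ∩ S).card - c)
        ≤ (bt t R * Real.exp ((R ∩ S).card)) * Real.exp (-c) := by
      intro R _
      rw [← sum_mul, H.prob.sum_eq, one_mul, Real.exp_sub, div_eq_mul_inv, ← Real.exp_neg,
        ← mul_assoc]
      exact mul_le_mul_of_nonneg_right (mul_le_mul_of_nonneg_right (hβ R) (Real.exp_nonneg _))
        (Real.exp_nonneg _)
    refine (sum_le_sum e4).trans ?_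
    rw [← sum_mul]
    have := mul_le_mul_of_nonneg_right hexp (Real.exp_nonneg (-c))
    rwa [← Real.exp_add, add_neg_cancel, Real.exp_zero] at this
  have hdv := dv_transfer H hβ0 ht0 ht1 hG (fun R _ => Real.exp ((R ∩ S).card - c))
    (fun R x _ _ => Real.exp_pos _) hZ1
  simp only [Real.log_exp] at hdv
  have h6 := JJ_sub w μ β τ (fun _ R _ => ((R ∩ S).card : ℝ)) (fun _ _ _ => c)
  rw [JJ_const H] at h6
  rw [h6] at hdv
  linarith

end

end Vale.Agent.P042.H779.Ab
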