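import Vale.Agent.P042.H779.MuFinalE

/-! Truncated Bernoulli weights satisfy the structure `Wts`. -/

namespace Vale.Agent.P042.H779.Ab

open Finset

set_option linter.unusedSectionVars false

section
variable {ι : Type*} [Fintype ι] [DecidableEq ι]

lemma rw'_eq (s : ι → ℝ) (ok : Finset ι → Prop) [DecidablePred ok] (R : Finset ι) :
    rw' s ok R = if ok R then bt s R else 0 := rfl

lemma rw'_le_bt {s : ι → ℝ} (h0 : ∀ i, 0 ≤ s i) (h1 : ∀ i, s i ≤ 1) (ok : Finset ι → Prop)
    [DecidablePred ok] (R : Finset ι) : rw' s ok R ≤ bt s R := by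
  rw [rw'_eq]
  split_ifs
  · exact le_rfl
  · exact bt_nonneg h0 h1 R

lemma rw'_nonneg {s : ι → ℝ} (h0 : ∀ i, 0 ≤ s i) (h1 : ∀ i, s i ≤ 1) (ok : Finset ι → Prop)
    [DecidablePred ok] (R : Finset ι) : 0 ≤ rw' s ok R := by
  rw [rw'_eq]
  split_ifs
  · exact bt_nonneg h0 h1 R
  · exact le_rfl

/-- conditioning on the membership of one coordinate -/
lemma bt_mem (t : ι → ℝ) (i : ι) (f : Finset ι → ℝ) :
    ∑ S ∈ (univ : Finset ι).powerset, bt t S * (if i ∈ S then f S else 0)
      = t i * ∑ S ∈ (univ : Finset ι).powerset, bt t S * f (insert i S) := by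
  rw [bt_avg t i (fun S => if i ∈ S then f S else 0), mul_sum]
  refine sum_congr rfl fun S _ => ?_
  rw [if_neg (notMem_erase i S), if_pos (mem_insert_self i S)]
  ring

/-- exponential moment of a weighted count over the whole set -/
lemma bt_exp_wt' {q : ι → ℝ} (h0 : ∀ i, 0 ≤ q i) (h1 : ∀ i, q i ≤ 1) {c : ι → ℝ}
    (hc0 : ∀ i, 0 ≤ c i) (hc1 : ∀ i, c i ≤ 1) :
    ∑ R ∈ (univ : Finset ι).powerset, bt q R * Real.exp (∑ i ∈ R, c i)
      ≤ Real.exp (2 * ∑ i, q i * c i) := by
  have := bt_exp_wt h0 h1 hc0 hc1 univ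
  simpa only [inter_univ] using this

/-- **Truncated Bernoulli weights.**  The inserted set `S` is truncated by finitely many linear
conditions `∑ i ∈ S, f k i ≤ d k`. -/
theorem wts_trunc {κ : Type*} (I : Finset κ) {t u : ι → ℝ} (ht0 : ∀ i, 0 ≤ t i)
    (ht1 : ∀ i, t i ≤ 1) (hu0 : ∀ i, 0 ≤ u i) (hu1 : ∀ i, u i ≤ 1)
    {f : κ → ι → ℝ} (hf0 : ∀ k i, 0 ≤ f k i) (hf1 : ∀ k i, f k i ≤ 1) {d : κ → ℝ}
    {ok okd ok' : Finset ι → Prop} [DecidablePred ok] [DecidablePred okd]
    (hokd : ∀ S, (∀ k ∈ I, ∑ i ∈ S, f k i ≤ d k) → okd S)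
    (hok' : ∀ R, ok R → ∀ S, okd S → ok' (R ∪ S)) {ε : ℝ}
    (hε : ∑ k ∈ I, Real.exp (2 * ∑ i, u i * f k i - d k) ≤ ε) (hε6 : ε ≤ 1 / 6) :
    Wts (rw' t ok) (rw' u okd) t u ok' ε := by
  have hbad : ∀ S, bt u S - rw' u okd S
      ≤ ∑ k ∈ I, bt u S * Real.exp (∑ i ∈ S, f k i - d k) := by
    intro S
    have hb := bt_nonneg hu0 hu1 S
    have hs : 0 ≤ ∑ k ∈ I, bt u S * Real.exp (∑ i ∈ S, f k i - d k) :=
      sum_nonneg fun k _ => mul_nonneg hb (Real.exp_nonneg _)
    rw [rw'_eq]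
    split_ifs with h
    · linarith
    · have : ∃ k ∈ I, d k < ∑ i ∈ S, f k i := by
        by_contra hc
        push Not at hc
        exact h (hokd S hc)
      obtain ⟨k, hk, hkd⟩ := this
      have h2 : bt u S * Real.exp (∑ i ∈ S, f k i - d k)
          ≤ ∑ k ∈ I, bt u S * Real.exp (∑ i ∈ S, f k i - d k) :=
        single_le_sum (f := fun k => bt u S * Real.exp (∑ i ∈ S, f k i - d k))
          (fun k _ => mul_nonneg hb (Real.exp_nonneg _)) hk
      have h3 : 1 ≤ Real.exp (∑ i ∈ S, f k i - d k) := Real.one_le_exp (by linarith)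
      have h4 : bt u S * 1 ≤ bt u S * Real.exp (∑ i ∈ S, f k i - d k) :=
        mul_le_mul_of_nonneg_left h3 hb
      linarith
  have hmom : ∀ k, ∑ S ∈ (univ : Finset ι).powerset, bt u S * Real.exp (∑ i ∈ S, f k i - d k)
      ≤ Real.exp (2 * ∑ i, u i * f k i - d k) := by
    intro k
    have h2 := bt_exp_wt' hu0 hu1 (hf0 k) (hf1 k)
    have h3 : ∑ S ∈ (univ : Finset ι).powerset, bt u S * Real.exp (∑ i ∈ S, f k i - d k)
        = (∑ S ∈ (univ : Finset ι).powerset, bt u S * Real.exp (∑ i ∈ S, f k i)) *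
          Real.exp (- d k) := by
      rw [sum_mul]
      refine sum_congr rfl fun S _ => ?_
      rw [sub_eq_add_neg, Real.exp_add]; ring
    rw [h3, sub_eq_add_neg, Real.exp_add]
    exact mul_le_mul_of_nonneg_right h2 (Real.exp_nonneg _)
  refine ⟨rw'_nonneg ht0 ht1 ok, rw'_le_bt ht0 ht1 ok, rw'_nonneg hu0 hu1 okd,
    rw'_le_bt hu0 hu1 okd, ?_, ?_, ?_⟩
  · intro R hR S hS
    refine hok' R ?_ S ?_
    · by_contra hc; exact hR (by rw [rw'_eq, if_neg hc])
    · by_contra hc; exact hS (by rw [rw'_eq, if_neg hc])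
  · have h2 : ∑ S ∈ (univ : Finset ι).powerset, (bt u S - rw' u okd S)
        ≤ ∑ S ∈ (univ : Finset ι).powerset, ∑ k ∈ I, bt u S * Real.exp (∑ i ∈ S, f k i - d k) :=
      sum_le_sum fun S _ => hbad S
    rw [sum_sub_distrib, bt_sum, sum_comm] at h2
    have h3 := sum_le_sum fun k (_ : k ∈ I) => hmom k
    linarith
  · intro i
    have h2 : ∑ S ∈ (univ : Finset ι).powerset, (bt u S - rw' u okd S) *
        (if i ∈ S then 1 else 0)
        ≤ ∑ S ∈ (univ : Finset ι).powerset,
          (∑ k ∈ I, bt u S * Real.exp (∑ i ∈ S, f k i - d k)) * (if i ∈ S then 1 else 0) :=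
      sum_le_sum fun S _ => mul_le_mul_of_nonneg_right (hbad S) (by split_ifs <;> norm_num)
    have h3 : ∑ S ∈ (univ : Finset ι).powerset, bt u S * (if i ∈ S then (1 : ℝ) else 0) = u i := by
      rw [bt_mem u i (fun _ => 1)]
      simp only [mul_one]
      rw [bt_sum, mul_one]
    have h4 : ∑ S ∈ (univ : Finset ι).powerset,
          (∑ k ∈ I, bt u S * Real.exp (∑ i ∈ S, f k i - d k)) * (if i ∈ S then 1 else 0)
        = ∑ k ∈ I, u i * ∑ S ∈ (univ : Finset ι).powerset,
          bt u S * Real.exp (∑ j ∈ insert i S, f k j - d k) := by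
      have h5 : ∀ k, u i * ∑ S ∈ (univ : Finset ι).powerset,
          bt u S * Real.exp (∑ j ∈ insert i S, f k j - d k)
          = ∑ S ∈ (univ : Finset ι).powerset, bt u S *
            (if i ∈ S then Real.exp (∑ j ∈ S, f k j - d k) else 0) := fun k =>
        (bt_mem u i (fun S => Real.exp (∑ j ∈ S, f k j - d k))).symm
      rw [sum_congr rfl fun k _ => h5 k, sum_comm]
      refine sum_congr rfl fun S _ => ?_
      rw [sum_mul]
      refine sum_congr rfl fun k _ => ?_
      split_ifs <;> ring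
    have h6 : ∀ k, ∑ S ∈ (univ : Finset ι).powerset,
          bt u S * Real.exp (∑ j ∈ insert i S, f k j - d k)
        ≤ 3 * Real.exp (2 * ∑ i, u i * f k i - d k) := by
      intro k
      have h7 : ∀ S ∈ (univ : Finset ι).powerset,
          bt u S * Real.exp (∑ j ∈ insert i S, f k j - d k)
          ≤ 3 * (bt u S * Real.exp (∑ j ∈ S, f k j - d k)) := by
        intro S _
        have h8 : ∑ j ∈ insert i S, f k j ≤ 1 + ∑ j ∈ S, f k j := by
          by_cases hi : i ∈ S
          · rw [insert_eq_of_mem hi]; linarith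
          · rw [sum_insert hi]; linarith [hf1 k i]
        have h9 : Real.exp (∑ j ∈ insert i S, f k j - d k)
            ≤ Real.exp 1 * Real.exp (∑ j ∈ S, f k j - d k) := by
          rw [← Real.exp_add]; exact Real.exp_le_exp.mpr (by linarith)
        have he : Real.exp 1 ≤ 3 := by
          have := Real.exp_one_lt_d9; linarith
        have h10 := mul_le_mul_of_nonneg_right he (Real.exp_nonneg (∑ j ∈ S, f k j - d k))
        have h11 := mul_le_mul_of_nonneg_left (h9.trans h10) (bt_nonneg hu0 hu1 S)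
        linarith
      refine (sum_le_sum h7).trans ?_
      rw [← mul_sum]
      exact mul_le_mul_of_nonneg_left (hmom k) (by norm_num)
    have h12 : ∑ k ∈ I, u i * ∑ S ∈ (univ : Finset ι).powerset,
          bt u S * Real.exp (∑ j ∈ insert i S, f k j - d k) ≤ u i * (3 * ε) := by
      rw [← mul_sum]
      refine mul_le_mul_of_nonneg_left ?_ (hu0 i)
      refine (sum_le_sum fun k _ => h6 k).trans ?_
      rw [← mul_sum]
      exact mul_le_mul_of_nonneg_left hε (by norm_num)
    have h13 : ∑ S ∈ (univ : Finset ι).powerset, (bt u S - rw' u okd S) *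
        (if i ∈ S then (1 : ℝ) else 0)
        = u i - ∑ S ∈ (univ : Finset ι).powerset, rw' u okd S * (if i ∈ S then 1 else 0) := by
      rw [← h3, ← sum_sub_distrib]
      exact sum_congr rfl fun S _ => by ring
    rw [h13, h4] at h2
    have h14 : u i * (3 * ε) ≤ u i * (1 / 2) :=
      mul_le_mul_of_nonneg_left (by linarith) (hu0 i)
    linarith

end

end Vale.Agent.P042.H779.Ab
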