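import Vale.Agent.P042.H482.SMain

/-! The planted mass for logarithmic power parameters with a free factor `X` (a power of `l`) in
the rates: numerical part. -/

namespace Vale.Agent.P042.H779.Ab.Sb

open Finset Vale.Agent.P042.H779.Ab Vale.Agent.P042.H482
open Vale.Agent.P042.H779 (marg m1 IsProb bw)

set_option linter.unusedSectionVars false

section
variable {l C1 gH lam0 th a0 B1 X : ℝ}

/-- number of scales -/
noncomputable def nX (l X : ℝ) : ℕ := Nat.log 2 ⌊Real.exp (2 * l) / (l ^ 20 * X ^ 2)⌋₊ + 1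

lemma one_le_den (N : NumS l C1 gH lam0 th a0 B1) (hX : 1 ≤ X) : 1 ≤ l ^ 20 * X ^ 2 := by
  have h1 := one_le_pow₀ (n := 20) N.l1
  have h2 := one_le_pow₀ (n := 2) hX
  nlinarith

lemma floor_ne (hY : 1 ≤ Real.exp (2 * l) / (l ^ 20 * X ^ 2)) :
    ⌊Real.exp (2 * l) / (l ^ 20 * X ^ 2)⌋₊ ≠ 0 := by
  have := Nat.le_floor (α := ℝ) (n := 1) (by exact_mod_cast hY)
  omega

lemma two_pow_le (hY : 1 ≤ Real.exp (2 * l) / (l ^ 20 * X ^ 2)) :
    (2 : ℝ) ^ (Nat.log 2 ⌊Real.exp (2 * l) / (l ^ 20 * X ^ 2)⌋₊)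
      ≤ Real.exp (2 * l) / (l ^ 20 * X ^ 2) := by
  have h1 := Nat.pow_log_le_self 2 (floor_ne hY)
  have h2 : ((2 ^ (Nat.log 2 ⌊Real.exp (2 * l) / (l ^ 20 * X ^ 2)⌋₊) : ℕ) : ℝ)
      ≤ (⌊Real.exp (2 * l) / (l ^ 20 * X ^ 2)⌋₊ : ℝ) := by exact_mod_cast h1
  have h3 := Nat.floor_le (a := Real.exp (2 * l) / (l ^ 20 * X ^ 2)) (by linarith)
  push_cast at h2
  linarith

lemma r2_nX (N : NumS l C1 gH lam0 th a0 B1) (hX : 1 ≤ X)
    (hY : 1 ≤ Real.exp (2 * l) / (l ^ 20 * X ^ 2)) :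
    r2 ^ nX l X ≤ 1.5 * (Real.exp l / (l ^ 10 * X)) := by
  have h1 := two_pow_le hY
  unfold nX
  obtain ⟨k, hk⟩ : ∃ k, k = Nat.log 2 ⌊Real.exp (2 * l) / (l ^ 20 * X ^ 2)⌋₊ := ⟨_, rfl⟩
  rw [← hk] at h1 ⊢
  rw [pow_succ, mul_comm]
  refine mul_le_mul r2_lt.le ?_ (pow_pos r2_pos _).le (by norm_num)
  rw [← r2_pow_sq] at h1
  have h2 : Real.exp (2 * l) / (l ^ 20 * X ^ 2) = (Real.exp l / (l ^ 10 * X)) ^ 2 := by
    rw [div_pow, mul_pow, ← pow_mul, ← Real.exp_nat_mul]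
    norm_num
  rw [h2, ← sq] at h1
  have h3 : 0 ≤ Real.exp l / (l ^ 10 * X) := by
    have := N.l0
    have : 0 < X := by linarith
    positivity
  exact (pow_le_pow_iff_left₀ (pow_pos r2_pos k).le h3 two_ne_zero).mp h1

lemma nX_le (N : NumS l C1 gH lam0 th a0 B1) (hX : 1 ≤ X)
    (hY : 1 ≤ Real.exp (2 * l) / (l ^ 20 * X ^ 2)) : (nX l X : ℝ) ≤ 4 * l := by
  have h1 := two_pow_le hY
  have h2 : Real.exp (2 * l) / (l ^ 20 * X ^ 2) ≤ Real.exp (2 * l) :=
    div_le_self (Real.exp_pos _).le (one_le_den N hX)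
  have h3 := h1.trans h2
  have h4 := Real.log_le_log (by positivity) h3
  rw [Real.log_exp, Real.log_pow] at h4
  have h5 : (0.69 : ℝ) < Real.log 2 := by have := Real.log_two_gt_d9; linarith
  unfold nX
  push_cast
  have h6 : (0 : ℝ) ≤ (Nat.log 2 ⌊Real.exp (2 * l) / (l ^ 20 * X ^ 2)⌋₊ : ℝ) := by positivity
  have h7 := N.hl
  nlinarith

lemma two_pow_lt_nX (N : NumS l C1 gH lam0 th a0 B1) (hX : 1 ≤ X)
    (hY : 1 ≤ Real.exp (2 * l) / (l ^ 20 * X ^ 2)) {s : ℕ} (hs : s < nX l X) :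
    (2 : ℝ) ^ s ≤ Real.exp (2 * l) := by
  have h1 : (2 : ℝ) ^ s ≤ 2 ^ (Nat.log 2 ⌊Real.exp (2 * l) / (l ^ 20 * X ^ 2)⌋₊) :=
    pow_le_pow_right₀ (by norm_num) (by unfold nX at hs; omega)
  refine h1.trans ((two_pow_le hY).trans ?_)
  exact div_le_self (Real.exp_pos _).le (one_le_den N hX)

end

section
variable {l C1 gH lam0 th a0 B1 X : ℝ} {ι : Type*} [Fintype ι] [DecidableEq ι] {pr : ι → ℕ}

/-- harmonic number of a scale -/
lemma Hn_At_le (N : NumS l C1 gH lam0 th a0 B1) (hX : 1 ≤ X)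
    (hY : 1 ≤ Real.exp (2 * l) / (l ^ 20 * X ^ 2)) (hinj : Function.Injective pr)
    (hpos : ∀ i, 1 ≤ pr i) {s : ℕ} (hs : s < nX l X) :
    Hn (At (dsc pr) s).card ≤ 3 * l := by
  refine (Hn_le _).trans ?_
  have h1 : Real.log ((At (dsc pr) s).card : ℝ) ≤ 2 * l := by
    rcases Nat.eq_zero_or_pos (At (dsc pr) s).card with h | h
    · rw [h]; simp; linarith [N.l0]
    · have h2 : ((At (dsc pr) s).card : ℝ) ≤ Real.exp (2 * l) := by
        refine le_trans ?_ (two_pow_lt_nX N hX hY hs)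
        exact_mod_cast card_At_le hinj hpos s
      have h3 := Real.log_le_log (by exact_mod_cast h) h2
      rwa [Real.log_exp] at h3
  linarith [N.hl]

lemma dsc_lt (hhi : ∀ i, (pr i : ℝ) ≤ Real.exp (2 * l) / (l ^ 20 * X ^ 2)) (i : ι) :
    dsc pr i < nX l X := by
  unfold dsc nX
  have h1 : pr i ≤ ⌊Real.exp (2 * l) / (l ^ 20 * X ^ 2)⌋₊ := Nat.le_floor (hhi i)
  have h2 := Nat.log_mono_right (b := 2) h1
  omega

lemma sqrt_ge (hlo : ∀ i, l ^ 20 * X ^ 2 ≤ (pr i : ℝ)) (i : ι) : l ^ 10 * X ≤ √(pr i) := by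
  apply Real.le_sqrt_of_sq_le
  rw [mul_pow, ← pow_mul]
  exact hlo i

lemma pr_pos (N : NumS l C1 gH lam0 th a0 B1) (hX : 1 ≤ X)
    (hlo : ∀ i, l ^ 20 * X ^ 2 ≤ (pr i : ℝ)) (i : ι) : 1 ≤ pr i := by
  have h1 : (1 : ℝ) ≤ pr i := (one_le_den N hX).trans (hlo i)
  exact_mod_cast h1

lemma tS_nonneg (N : NumS l C1 gH lam0 th a0 B1) {R : ι → ℝ} (hR0 : ∀ i, 0 ≤ R i) (i : ι) :
    0 ≤ tS l gH R i := div_nonneg (mul_nonneg zero_le_two (hR0 i)) N.tau0.le

lemma tS_le (N : NumS l C1 gH lam0 th a0 B1) {R : ι → ℝ}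
    (hR1 : ∀ i, R i ≤ C1 * X / √(pr i)) (i : ι) :
    tS l gH R i ≤ (B1 * l * X) / √(pr i) := by
  unfold tS
  rw [N.tau_inv, N.hB1]
  have h1 := hR1 i
  have h2 : 0 ≤ 256 * Real.exp (2 * gH + 1) * l := by have := N.l0; positivity
  have h3 := mul_le_mul_of_nonneg_left h1 h2
  refine h3.trans (le_of_eq ?_)
  ring

lemma tS_small (N : NumS l C1 gH lam0 th a0 B1) (hX : 1 ≤ X) {R : ι → ℝ}
    (hlo : ∀ i, l ^ 20 * X ^ 2 ≤ (pr i : ℝ)) (hR1 : ∀ i, R i ≤ C1 * X / √(pr i)) (i : ι) :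
    KS l * tS l gH R i ≤ 1 / 2 := by
  have h0 := N.l0
  have hX0 : 0 < X := by linarith
  have hB := N.B0
  have h1 := tS_le N hR1 i
  have h2 : (B1 * l * X) / √(pr i) ≤ (B1 * l * X) / (l ^ 10 * X) :=
    div_le_div_of_nonneg_left (by positivity) (by positivity) (sqrt_ge hlo i)
  have h3 := mul_le_mul_of_nonneg_left (h1.trans h2) (zero_le_one.trans (KS_one N))
  refine h3.trans ?_
  have h4 : KS l * (B1 * l * X / (l ^ 10 * X)) = 10 ^ 9 * B1 / l ^ 5 := by
    unfold KS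
    field_simp
  rw [h4, div_le_iff₀ (pow_pos h0 5)]
  have h5 := N.h2
  have h6 := N.lpow 5 (by norm_num)
  linarith

/-- the total planted rate -/
lemma sum_tS (N : NumS l C1 gH lam0 th a0 B1) (hX : 1 ≤ X)
    (hY : 1 ≤ Real.exp (2 * l) / (l ^ 20 * X ^ 2)) (hinj : Function.Injective pr)
    {R : ι → ℝ} (hlo : ∀ i, l ^ 20 * X ^ 2 ≤ (pr i : ℝ))
    (hhi : ∀ i, (pr i : ℝ) ≤ Real.exp (2 * l) / (l ^ 20 * X ^ 2))
    (hR1 : ∀ i, R i ≤ C1 * X / √(pr i)) :
    ∑ i, tS l gH R i ≤ 4.5 * B1 * Real.exp l / l ^ 9 := by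
  have h0 := N.l0
  have hX0 : 0 < X := by linarith
  have hB := N.B0
  have h1 := sum_all_le hinj (pr_pos N hX hlo) (q := B1 * l * X) (by positivity)
    (tS_le N hR1) (dsc_lt hhi)
  refine h1.trans ?_
  have h2 := mul_le_mul_of_nonneg_left (r2_nX N hX hY)
    (show 0 ≤ 3 * (B1 * l * X) by positivity)
  refine h2.trans (le_of_eq ?_)
  field_simp
  ring

/-- the entropy of the exceptional event of the inserted set -/
lemma eps_S (N : NumS l C1 gH lam0 th a0 B1) (hX : 1 ≤ X)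
    (hY : 1 ≤ Real.exp (2 * l) / (l ^ 20 * X ^ 2)) (hinj : Function.Injective pr)
    {R : ι → ℝ} (hlo : ∀ i, l ^ 20 * X ^ 2 ≤ (pr i : ℝ))
    (hhi : ∀ i, (pr i : ℝ) ≤ Real.exp (2 * l) / (l ^ 20 * X ^ 2))
    (hR1 : ∀ i, R i ≤ C1 * X / √(pr i)) {D : ℕ} (hD : th * Real.exp l / l ≤ D) :
    64 * ∑ i, tS l gH R i ≤ ((D / 2 : ℕ) : ℝ) ∧
    Real.exp (2 * ∑ i, KS l * tS l gH R i * 1 - ((D / 2 : ℕ) : ℝ)) ≤ 1 / l ^ 2 := by
  have h0 := N.l0
  have h1 := sum_tS N hX hY hinj hlo hhi hR1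
  have h2 := half_D N hD
  have hE : 0 < Real.exp l := Real.exp_pos l
  have h3 := N.h3
  constructor
  · refine le_trans ?_ h2
    refine (mul_le_mul_of_nonneg_left h1 (by norm_num)).trans ?_
    rw [show 64 * (4.5 * B1 * Real.exp l / l ^ 9) = (288 * B1 / l ^ 8) * (Real.exp l / l) by
      field_simp; ring,
      show th * Real.exp l / (3 * l) = (th / 3) * (Real.exp l / l) by field_simp]
    refine mul_le_mul_of_nonneg_right ?_ (by positivity)
    rw [div_le_iff₀ (pow_pos h0 8)]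
    have h4 := N.lpow 8 (by norm_num)
    have h5 := mul_le_mul_of_nonneg_left h4 N.hth.le
    have := N.B0
    linarith
  · have h4 : 2 * ∑ i, KS l * tS l gH R i * 1 ≤ th * Real.exp l / (6 * l) := by
      have e1 : ∑ i, KS l * tS l gH R i * 1 = KS l * ∑ i, tS l gH R i := by
        rw [mul_sum]
        exact sum_congr rfl fun i _ => by ring
      rw [e1]
      have h5 := mul_le_mul_of_nonneg_left h1 (zero_le_one.trans (KS_one N))
      have h6 : KS l * (4.5 * B1 * Real.exp l / l ^ 9)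
          = (4.5 * 10 ^ 9 * B1 / l ^ 4) * (Real.exp l / l) := by
        unfold KS
        field_simp
      rw [h6] at h5
      have h7 : th * Real.exp l / (6 * l) = (th / 6) * (Real.exp l / l) := by field_simp
      rw [h7]
      have h8 : 2 * ((4.5 * 10 ^ 9 * B1 / l ^ 4) * (Real.exp l / l))
          ≤ (th / 6) * (Real.exp l / l) := by
        rw [← mul_assoc]
        refine mul_le_mul_of_nonneg_right ?_ (by positivity)
        rw [mul_div_assoc', div_le_iff₀ (pow_pos h0 4)]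
        have h9 := N.lpow 4 (by norm_num)
        have h10 := mul_le_mul_of_nonneg_left h9 N.hth.le
        have := N.B0
        linarith
      linarith
    have h5 : 2 * ∑ i, KS l * tS l gH R i * 1 - ((D / 2 : ℕ) : ℝ) ≤ -(2 * l) := by
      have h6 : th * Real.exp l / (3 * l) = 2 * (th * Real.exp l / (6 * l)) := by
        field_simp
        ring
      have h7 : 2 * l ≤ th * Real.exp l / (6 * l) := by
        rw [le_div_iff₀ (by positivity)]
        have h8 := mul_le_mul_of_nonneg_left N.exp_ge_cube N.hth.le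
        have h9 := N.h5
        have h10 : th * (l ^ 3 / 6) = (th * l) * (l * l) / 6 := by ring
        rw [h10] at h8
        have h11 : 200 * (l * l) ≤ (th * l) * (l * l) :=
          mul_le_mul_of_nonneg_right h9 (by positivity)
        nlinarith
      linarith
    refine (Real.exp_le_exp.mpr h5).trans ?_
    have h6 : Real.exp (-(2 * l)) = (Real.exp (-l)) ^ 2 := by
      rw [← Real.exp_nat_mul]
      congr 1
      push_cast
      ring
    rw [h6]
    have h7 := pow_le_pow_left₀ (Real.exp_pos (-l)).le N.exp_neg_le 2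
    rw [div_pow, one_pow] at h7
    exact h7

/-- upper bounds of the rates on a scale -/
noncomputable def qX (l B1 X : ℝ) (s : ℕ) : ℝ := 2 * KS l * (B1 * l * X) / r2 ^ s

lemma qX_nonneg (N : NumS l C1 gH lam0 th a0 B1) (hX : 1 ≤ X) (s : ℕ) : 0 ≤ qX l B1 X s := by
  have h0 := N.l0
  have hX0 : 0 < X := by linarith
  have hB := N.B0
  have := pow_pos r2_pos s
  unfold qX KS
  positivity

lemma rates_S (N : NumS l C1 gH lam0 th a0 B1) (hX : 1 ≤ X)
    {R : ι → ℝ} (hR0 : ∀ i, 0 ≤ R i) (hlo : ∀ i, l ^ 20 * X ^ 2 ≤ (pr i : ℝ))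
    (hhi : ∀ i, (pr i : ℝ) ≤ Real.exp (2 * l) / (l ^ 20 * X ^ 2))
    (hR1 : ∀ i, R i ≤ C1 * X / √(pr i)) :
    Rates (tS l gH R) (fun i => KS l * tS l gH R i) (dsc pr) (nX l X) (KS l) (qX l B1 X) := by
  have h0 := N.l0
  have hX0 : 0 < X := by linarith
  have hB := N.B0
  have hK := KS_one N
  have ht := tS_nonneg N hR0
  have hKt : ∀ i, tS l gH R i ≤ KS l * tS l gH R i := fun i => by
    have := mul_le_mul_of_nonneg_right hK (ht i)
    linarith
  exact
    { t0 := ht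
      t1 := fun i => (hKt i).trans (tS_small N hX hlo hR1 i)
      u0 := fun i => (ht i).trans (hKt i)
      u1 := fun i => tS_small N hX hlo hR1 i
      K0 := by linarith
      Kt := fun i => le_rfl
      scn := dsc_lt hhi
      qb1 := fun i => by
        have h1 := tS_le N hR1 i
        have h2 : (B1 * l * X) / √(pr i) ≤ (B1 * l * X) / r2 ^ dsc pr i :=
          div_le_div_of_nonneg_left (by positivity) (pow_pos r2_pos _)
            (sqrt_pr_ge (pr_pos N hX hlo) i)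
        have h3 := mul_le_mul_of_nonneg_left (h1.trans h2) (show 0 ≤ 2 * KS l by linarith)
        have h4 : 2 * KS l * (B1 * l * X / r2 ^ dsc pr i) = qX l B1 X (dsc pr i) := by
          unfold qX
          ring
        rw [h4] at h3
        have h5 := hKt i
        linarith
      qb0 := qX_nonneg N hX }

/-- the sum over the scales -/
lemma Q1_S (N : NumS l C1 gH lam0 th a0 B1) (hX : 1 ≤ X)
    (hY : 1 ≤ Real.exp (2 * l) / (l ^ 20 * X ^ 2)) (hinj : Function.Injective pr)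
    (hlo : ∀ i, l ^ 20 * X ^ 2 ≤ (pr i : ℝ)) :
    ∀ s ∈ range (nX l X), qX l B1 X s * Hn (At (dsc pr) s).card / (lam0 / l)
      ≤ 9 * 10 ^ 9 * B1 / (lam0 * l ^ 3) := by
  intro s hs
  rw [mem_range] at hs
  have h0 := N.l0
  have hX0 : 0 < X := by linarith
  have hB := N.B0
  have hlam := N.hlam
  rcases (At (dsc pr) s).eq_empty_or_nonempty with h | ⟨i, hi⟩
  · rw [h, card_empty]
    have : Hn 0 = 0 := by simp [Hn]
    rw [this, mul_zero, zero_div]
    positivity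
  · have h1 := Hn_At_le N hX hY hinj (pr_pos N hX hlo) hs
    have h2 : l ^ 10 * X ≤ 1.5 * r2 ^ s := by
      unfold At at hi
      rw [mem_filter] at hi
      have h3 := (sqrt_ge hlo i).trans (sqrt_pr_lt (pr := pr) i).le
      rw [hi.2, pow_succ r2 s] at h3
      have h4 := mul_le_mul_of_nonneg_left r2_lt.le (pow_pos r2_pos s).le
      linarith
    have hr := pow_pos r2_pos s
    have h3 : qX l B1 X s ≤ 3 * KS l * (B1 * l * X) / (l ^ 10 * X) := by
      unfold qX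
      rw [div_le_div_iff₀ hr (by positivity)]
      have h5 : 0 ≤ KS l * (B1 * l * X) := by unfold KS; positivity
      nlinarith
    have h4 : 3 * KS l * (B1 * l * X) / (l ^ 10 * X) = 3 * 10 ^ 9 * B1 / l ^ 5 := by
      unfold KS
      field_simp
    rw [h4] at h3
    have h5 : qX l B1 X s * Hn (At (dsc pr) s).card ≤ (3 * 10 ^ 9 * B1 / l ^ 5) * (3 * l) :=
      mul_le_mul h3 h1 (Hn_nonneg _) (by positivity)
    have h6 := div_le_div_of_nonneg_right h5 (show 0 ≤ lam0 / l by positivity)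
    refine h6.trans (le_of_eq ?_)
    field_simp
    ring

lemma Q1_sum (N : NumS l C1 gH lam0 th a0 B1) (hX : 1 ≤ X)
    (hY : 1 ≤ Real.exp (2 * l) / (l ^ 20 * X ^ 2)) (hinj : Function.Injective pr)
    (hlo : ∀ i, l ^ 20 * X ^ 2 ≤ (pr i : ℝ)) :
    ∑ s ∈ range (nX l X), qX l B1 X s * Hn (At (dsc pr) s).card / (lam0 / l) ≤ 1 / l := by
  have h0 := N.l0
  have hlam := N.hlam
  have hB := N.B0
  refine (sum_le_sum (Q1_S N hX hY hinj hlo)).trans ?_
  rw [sum_const, card_range, nsmul_eq_mul]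
  have h1 := mul_le_mul_of_nonneg_right (nX_le N hX hY)
    (show 0 ≤ 9 * 10 ^ 9 * B1 / (lam0 * l ^ 3) by positivity)
  refine h1.trans ?_
  rw [mul_div_assoc', div_le_div_iff₀ (by positivity) h0]
  have h2 := N.h4
  have h3 : 0 ≤ l * l := by positivity
  nlinarith [mul_le_mul_of_nonneg_right h2 h3]

end

end Vale.Agent.P042.H779.Ab.Sb
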