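import Vale.Agent.P042.H779.Scalar

/-! The good region of the replica bound. -/

namespace Vale.Agent.P042.H779

open Finset

lemma pow_le_two {m : ℕ} {τ : ℝ} (hτ : 0 < τ) (hmτ : 16 * m * τ ≤ 1) : (1 + 9 * τ) ^ m ≤ 2 := by
  have h1 : (1 + 9 * τ) ≤ Real.exp (9 * τ) := by
    have := Real.add_one_le_exp (9 * τ); linarith
  calc (1 + 9 * τ) ^ m ≤ (Real.exp (9 * τ)) ^ m := pow_le_pow_left₀ (by positivity) h1 m
    _ = Real.exp (m * (9 * τ)) := by rw [← Real.exp_nat_mul]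
    _ ≤ Real.exp (Real.log 2) := by
        apply Real.exp_le_exp.mpr
        have := Real.log_two_gt_d9
        nlinarith
    _ = 2 := Real.exp_log (by norm_num)

section
variable {m : ℕ} {τ : ℝ} (sR rA rb : ℝ) (r : Fin m → ℝ)

/-- the replica product -/
noncomputable def PiQ (τ rb : ℝ) (r : Fin m → ℝ) : ℝ :=
  (∏ j, (1 - τ + τ * r j) - ∏ j, (τ * r j)) / (1 - τ + τ * rb) ^ m

lemma PiQ_eq (τ rb : ℝ) (r : Fin m → ℝ) :
    PiQ τ rb r = ∏ j, ((1 - τ + τ * r j) / (1 - τ + τ * rb)) -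
      ∏ j, (τ * r j / (1 - τ + τ * rb)) := by
  unfold PiQ
  rw [prod_div_distrib, prod_div_distrib, sub_div]
  simp

lemma PiQ_nonneg (hτ : 0 < τ) (hτ1 : τ ≤ 1) (hrb : 0 ≤ rb) (hr : ∀ j, 0 ≤ r j) :
    0 ≤ PiQ τ rb r := by
  unfold PiQ
  refine div_nonneg (sub_nonneg.mpr ?_) (pow_nonneg (by nlinarith [mul_nonneg hτ.le hrb]) m)
  exact prod_le_prod (fun j _ => mul_nonneg hτ.le (hr j)) (fun j _ => by linarith)

lemma PiQ_le_prod (hτ : 0 < τ) (hτ1 : τ ≤ 1) (hrb : 0 ≤ rb) (hr : ∀ j, 0 ≤ r j) :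
    PiQ τ rb r ≤ (∏ j, (1 - τ + τ * r j)) / (1 - τ + τ * rb) ^ m := by
  unfold PiQ
  refine div_le_div_of_nonneg_right ?_ (pow_nonneg (by nlinarith [mul_nonneg hτ.le hrb]) m)
  have : 0 ≤ ∏ j, (τ * r j) := prod_nonneg fun j _ => mul_nonneg hτ.le (hr j)
  linarith

lemma combine {sR rA Pi P Q S T : ℝ} (hs0 : 0 ≤ sR) (hs : sR ≤ 8) (hA0 : 0 ≤ rA) (hA : rA ≤ 8)
    (hPi0 : 0 ≤ Pi) (hPi2 : Pi ≤ 2) (hPQ : Pi = P - Q) (hQ0 : 0 ≤ Q) (hQT : Q ≤ T)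
    (hP : (P - 1) ^ 2 ≤ S) :
    phi (sR * rA * Pi) ≤ 16384 * phi sR + 256 * phi rA + 4 * S + 4 * T ^ 2 := by
  have hrr0 : 0 ≤ sR * rA * Pi := mul_nonneg (mul_nonneg hs0 hA0) hPi0
  have hsq_s : (sR - 1) ^ 2 ≤ 16 * phi sR := by
    have := sq_le_phi hs0 (by norm_num : (1 : ℝ) ≤ 8) hs; linarith
  have hsq_A : (rA - 1) ^ 2 ≤ 16 * phi rA := by
    have := sq_le_phi hA0 (by norm_num : (1 : ℝ) ≤ 8) hA; linarith
  have e : sR * rA * Pi - 1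
      = (sR - 1) * (rA * Pi) + (rA - 1) * Pi + (P - 1) - Q := by
    have : P = Pi + Q := by rw [hPQ]; ring
    rw [this]; ring
  refine (phi_le_sq hrr0).trans ?_
  rw [e]
  have hq1 : ((sR - 1) * (rA * Pi)) ^ 2 ≤ 4096 * phi sR := by
    have h1 : rA * Pi ≤ 8 * 2 := mul_le_mul hA hPi2 hPi0 (by norm_num)
    have h2 : (rA * Pi) ^ 2 ≤ (8 * 2) ^ 2 := pow_le_pow_left₀ (mul_nonneg hA0 hPi0) h1 2
    rw [mul_pow]
    have h3 := mul_le_mul hsq_s h2 (sq_nonneg _) (by linarith [phi_nonneg hs0])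
    linarith
  have hq2 : ((rA - 1) * Pi) ^ 2 ≤ 64 * phi rA := by
    have h2 : Pi ^ 2 ≤ 2 ^ 2 := pow_le_pow_left₀ hPi0 hPi2 2
    rw [mul_pow]
    have h3 := mul_le_mul hsq_A h2 (sq_nonneg _) (by linarith [phi_nonneg hA0])
    linarith
  have hq4 : Q ^ 2 ≤ T ^ 2 := pow_le_pow_left₀ hQ0 hQT 2
  have hgen : ∀ a b c d : ℝ, (a + b + c - d) ^ 2 ≤ 4 * (a ^ 2 + b ^ 2 + c ^ 2 + d ^ 2) := by
    intro a b c d
    nlinarith [sq_nonneg (a - b), sq_nonneg (a - c), sq_nonneg (a + d), sq_nonneg (b - c),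
      sq_nonneg (b + d), sq_nonneg (c + d)]
  refine (hgen _ _ _ _).trans ?_
  linarith

lemma good_P (hτ : 0 < τ) (hmτ : 16 * m * τ ≤ 1) (hτ16 : 16 * τ ≤ 1)
    (hr0 : ∀ j, 0 ≤ r j) (hr : ∀ j, r j ≤ 8) (hb0 : 0 ≤ rb) (hb : rb ≤ 16) :
    (∏ j, ((1 - τ + τ * r j) / (1 - τ + τ * rb))) ≤ 2 ∧
    (∏ j, ((1 - τ + τ * r j) / (1 - τ + τ * rb)) - 1) ^ 2
      ≤ 16 * m * τ ^ 2 * ∑ j, (16 * phi (r j) + 32 * phi rb) := by
  have hη : 15 / 16 ≤ 1 - τ + τ * rb := by nlinarith [mul_nonneg hτ.le hb0]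
  have hη0 : 0 < 1 - τ + τ * rb := by linarith
  obtain ⟨η, hηd⟩ : ∃ η, η = 1 - τ + τ * rb := ⟨_, rfl⟩
  rw [← hηd] at hη hη0 ⊢
  have hx0 : ∀ j, 0 ≤ (1 - τ + τ * r j) / η := fun j =>
    div_nonneg (by nlinarith [mul_nonneg hτ.le (hr0 j)]) hη0.le
  have hxB : ∀ j, (1 - τ + τ * r j) / η ≤ 1 + 9 * τ := by
    intro j
    rw [div_le_iff₀ hη0]
    have h1 : 1 - τ + τ * r j ≤ 1 + 7 * τ := by nlinarith [hr j]
    have h2 : (1 + 9 * τ) * (1 - τ) ≤ (1 + 9 * τ) * η := by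
      apply mul_le_mul_of_nonneg_left _ (by positivity)
      rw [hηd]; nlinarith [mul_nonneg hτ.le hb0]
    nlinarith
  have hBm := pow_le_two (m := m) hτ hmτ
  have hB1 : (1 : ℝ) ≤ 1 + 9 * τ := by linarith
  have hsq_r : ∀ j, (r j - 1) ^ 2 ≤ 16 * phi (r j) := fun j => by
    have := sq_le_phi (hr0 j) (by norm_num : (1 : ℝ) ≤ 8) (hr j); linarith
  have hsq_b : (rb - 1) ^ 2 ≤ 32 * phi rb := by
    have := sq_le_phi hb0 (by norm_num : (1 : ℝ) ≤ 16) hb; linarith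
  constructor
  · calc (∏ j, ((1 - τ + τ * r j) / η)) ≤ ∏ _j : Fin m, (1 + 9 * τ) :=
          prod_le_prod (fun j _ => hx0 j) (fun j _ => hxB j)
      _ = (1 + 9 * τ) ^ m := by simp
      _ ≤ 2 := hBm
  have hxj : ∀ j, ((1 - τ + τ * r j) / η - 1) ^ 2 ≤ 4 * τ ^ 2 * (16 * phi (r j) + 32 * phi rb) := by
    intro j
    have e : (1 - τ + τ * r j) / η - 1 = τ * (r j - rb) / η := by
      rw [div_sub_one hη0.ne']; congr 1; rw [hηd]; ring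
    rw [e, div_pow, div_le_iff₀ (by positivity)]
    have h1 : (τ * (r j - rb)) ^ 2 ≤ τ ^ 2 * (2 * ((r j - 1) ^ 2 + (rb - 1) ^ 2)) := by
      rw [mul_pow]
      apply mul_le_mul_of_nonneg_left _ (by positivity)
      nlinarith [sq_nonneg ((r j - 1) + (rb - 1))]
    have h2 : (r j - 1) ^ 2 + (rb - 1) ^ 2 ≤ 16 * phi (r j) + 32 * phi rb := by
      have := hsq_r j; linarith
    have h3 : τ ^ 2 * (2 * ((r j - 1) ^ 2 + (rb - 1) ^ 2))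
        ≤ τ ^ 2 * (2 * (16 * phi (r j) + 32 * phi rb)) := by
      apply mul_le_mul_of_nonneg_left _ (by positivity); linarith
    have h4 : (1 / 2 : ℝ) ≤ η ^ 2 := by nlinarith
    have h5 : 0 ≤ 4 * τ ^ 2 * (16 * phi (r j) + 32 * phi rb) := by
      have := phi_nonneg (hr0 j); have := phi_nonneg hb0; positivity
    nlinarith [mul_le_mul_of_nonneg_left h4 h5]
  have h1 := abs_prod_sub_one (fun j => (1 - τ + τ * r j) / η) hx0 hxB hB1 hBm univ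
  have h2 : (∏ j, ((1 - τ + τ * r j) / η) - 1) ^ 2
      ≤ (2 * ∑ j, |(1 - τ + τ * r j) / η - 1|) ^ 2 := by
    rw [← sq_abs (∏ j, ((1 - τ + τ * r j) / η) - 1)]
    exact pow_le_pow_left₀ (abs_nonneg _) h1 2
  have h3 : (∑ j, |(1 - τ + τ * r j) / η - 1|) ^ 2
      ≤ m * ∑ j, ((1 - τ + τ * r j) / η - 1) ^ 2 := by
    have := sq_sum_le_card_mul_sum_sq (s := (univ : Finset (Fin m)))
      (f := fun j => |(1 - τ + τ * r j) / η - 1|)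
    simpa [sq_abs] using this
  have h4 : ∑ j, ((1 - τ + τ * r j) / η - 1) ^ 2
      ≤ ∑ j, 4 * τ ^ 2 * (16 * phi (r j) + 32 * phi rb) := sum_le_sum fun j _ => hxj j
  rw [← mul_sum] at h4
  calc (∏ j, ((1 - τ + τ * r j) / η) - 1) ^ 2
      ≤ (2 * ∑ j, |(1 - τ + τ * r j) / η - 1|) ^ 2 := h2
    _ = 4 * (∑ j, |(1 - τ + τ * r j) / η - 1|) ^ 2 := by ring
    _ ≤ 4 * (m * ∑ j, ((1 - τ + τ * r j) / η - 1) ^ 2) := by linarith
    _ ≤ 4 * (m * (4 * τ ^ 2 * ∑ j, (16 * phi (r j) + 32 * phi rb))) := by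
        have := mul_le_mul_of_nonneg_left h4 (by positivity : (0 : ℝ) ≤ m)
        linarith
    _ = 16 * m * τ ^ 2 * ∑ j, (16 * phi (r j) + 32 * phi rb) := by ring

lemma good (hm : 1 ≤ m) (hτ : 0 < τ) (hmτ : 16 * m * τ ≤ 1) (hs0 : 0 ≤ sR) (hs : sR ≤ 8)
    (hA0 : 0 ≤ rA) (hA : rA ≤ 8) (hr0 : ∀ j, 0 ≤ r j) (hr : ∀ j, r j ≤ 8) (hb0 : 0 ≤ rb)
    (hb : rb ≤ 16) :
    phi (sR * rA * PiQ τ rb r) ≤ 16384 * phi sR + 256 * phi rA
      + 4 * (16 * m * τ ^ 2 * ∑ j, (16 * phi (r j) + 32 * phi rb)) + 4 * ((15 * τ) ^ m) ^ 2 := by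
  have hm' : (1 : ℝ) ≤ m := by exact_mod_cast hm
  have hτ16 : 16 * τ ≤ 1 := by nlinarith
  have hη : 15 / 16 ≤ 1 - τ + τ * rb := by nlinarith [mul_nonneg hτ.le hb0]
  have hη0 : 0 < 1 - τ + τ * rb := by linarith
  obtain ⟨hP2, hP1⟩ := good_P rb r hτ hmτ hτ16 hr0 hr hb0 hb
  have hPi0 : 0 ≤ PiQ τ rb r := PiQ_nonneg rb r hτ (by linarith) hb0 hr0
  have hQ0 : 0 ≤ ∏ j, (τ * r j / (1 - τ + τ * rb)) :=
    prod_nonneg fun j _ => div_nonneg (mul_nonneg hτ.le (hr0 j)) hη0.le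
  have hQ1 : ∏ j, (τ * r j / (1 - τ + τ * rb)) ≤ (15 * τ) ^ m := by
    calc ∏ j, (τ * r j / (1 - τ + τ * rb)) ≤ ∏ _j : Fin m, (15 * τ) := by
          refine prod_le_prod (fun j _ => div_nonneg (mul_nonneg hτ.le (hr0 j)) hη0.le)
            (fun j _ => ?_)
          rw [div_le_iff₀ hη0]
          have : τ * r j ≤ τ * 8 := mul_le_mul_of_nonneg_left (hr j) hτ.le
          nlinarith
      _ = (15 * τ) ^ m := by simp
  have hPi := PiQ_eq τ rb r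
  exact combine hs0 hs hA0 hA hPi0 (by rw [hPi]; linarith) hPi hQ0 hQ1 hP1

end

end Vale.Agent.P042.H779
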