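import Vale.Agent.P042.H779.Star1

/-! The replica bound in expectation. -/

namespace Vale.Agent.P042.H779

open Finset

section
variable {𝒜 : Type*} [DecidableEq 𝒜] {m : ℕ} {τ L : ℝ} (s : Finset 𝒜) (p r : 𝒜 → ℝ)

/-- all replica labellings -/
abbrev reps (m : ℕ) (s : Finset 𝒜) : Finset (Fin m → 𝒜) := Fintype.piFinset (fun _ : Fin m => s)

omit [DecidableEq 𝒜] in
lemma mem_reps {α : Fin m → 𝒜} : α ∈ reps m s ↔ ∀ j, α j ∈ s := Fintype.mem_piFinset

lemma exp_PiQ (hsum : ∑ A ∈ s, p A = 1) (rb : ℝ) (hrb : rb = ∑ A ∈ s, p A * r A)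
    (hη : 0 < 1 - τ + τ * rb) :
    ∑ α ∈ reps m s, (∏ j, p (α j)) * PiQ τ rb (fun j => r (α j))
      = 1 - (τ * rb / (1 - τ + τ * rb)) ^ m := by
  have h1 : ∑ α ∈ reps m s, (∏ j, p (α j)) * ∏ j, (1 - τ + τ * r (α j))
      = (1 - τ + τ * rb) ^ m := by
    have := pi_sum_prod (m := m) s p (fun _ A => 1 - τ + τ * r A)
    rw [this]
    have h2 : ∑ A ∈ s, p A * (1 - τ + τ * r A) = 1 - τ + τ * rb := by
      have : ∀ A ∈ s, p A * (1 - τ + τ * r A) = (1 - τ) * p A + τ * (p A * r A) :=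
        fun A _ => by ring
      rw [sum_congr rfl this, sum_add_distrib, ← mul_sum, ← mul_sum, hsum, hrb]; ring
    simp [h2]
  have h3 : ∑ α ∈ reps m s, (∏ j, p (α j)) * ∏ j, (τ * r (α j)) = (τ * rb) ^ m := by
    have := pi_sum_prod (m := m) s p (fun _ A => τ * r A)
    rw [this]
    have h2 : ∑ A ∈ s, p A * (τ * r A) = τ * rb := by
      have : ∀ A ∈ s, p A * (τ * r A) = τ * (p A * r A) := fun A _ => by ring
      rw [sum_congr rfl this, ← mul_sum, hrb]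
    simp [h2]
  unfold PiQ
  have h4 : ∀ α ∈ reps m s, (∏ j, p (α j)) *
      ((∏ j, (1 - τ + τ * r (α j)) - ∏ j, (τ * r (α j))) / (1 - τ + τ * rb) ^ m)
      = ((∏ j, p (α j)) * ∏ j, (1 - τ + τ * r (α j)) - (∏ j, p (α j)) * ∏ j, (τ * r (α j)))
        / (1 - τ + τ * rb) ^ m := fun α _ => by ring
  rw [sum_congr rfl h4, ← sum_div, sum_sub_distrib, h1, h3, sub_div, div_self (pow_pos hη m).ne',
    div_pow]

lemma exp_PiQ_single (hsum : ∑ A ∈ s, p A = 1) (hp : ∀ A ∈ s, 0 ≤ p A) (hr0 : ∀ A ∈ s, 0 ≤ r A)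
    (hτ : 0 < τ) (hτ1 : τ ≤ 1) (rb : ℝ) (hrb : rb = ∑ A ∈ s, p A * r A) (hrb0 : 0 ≤ rb)
    (hη : 0 < 1 - τ + τ * rb) (b : 𝒜 → ℝ) (hb : ∀ A ∈ s, 0 ≤ b A) (j0 : Fin m) :
    ∑ α ∈ reps m s, (∏ j, p (α j)) * (b (α j0) * PiQ τ rb (fun j => r (α j)))
      ≤ (∑ A ∈ s, p A * (b A * (1 - τ + τ * r A))) / (1 - τ + τ * rb) := by
  have hu : ∑ A ∈ s, p A * (1 - τ + τ * r A) = 1 - τ + τ * rb := by
    have : ∀ A ∈ s, p A * (1 - τ + τ * r A) = (1 - τ) * p A + τ * (p A * r A) :=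
      fun A _ => by ring
    rw [sum_congr rfl this, sum_add_distrib, ← mul_sum, ← mul_sum, hsum, hrb]; ring
  have h1 := pi_sum_prod (m := m) s p
    (fun j A => (if j = j0 then b A else 1) * (1 - τ + τ * r A))
  have h2 : ∏ j, ∑ A ∈ s, p A * ((if j = j0 then b A else 1) * (1 - τ + τ * r A))
      = (∑ A ∈ s, p A * (b A * (1 - τ + τ * r A))) * (1 - τ + τ * rb) ^ (m - 1) := by
    rw [← mul_prod_erase univ _ (mem_univ j0)]
    congr 1
    · simp
    · have : ∀ j ∈ univ.erase j0, ∑ A ∈ s, p A * ((if j = j0 then b A else 1) *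
          (1 - τ + τ * r A)) = 1 - τ + τ * rb := by
        intro j hj
        have hj : j ≠ j0 := (mem_erase.mp hj).1
        simp [hj, hu]
      rw [prod_congr rfl this]
      simp
  rw [h2] at h1
  have h3 : ∀ α ∈ reps m s, (∏ j, p (α j)) * (b (α j0) * PiQ τ rb (fun j => r (α j)))
      ≤ ((∏ j, p (α j)) * ∏ j, ((if j = j0 then b (α j) else 1) * (1 - τ + τ * r (α j))))
        / (1 - τ + τ * rb) ^ m := by
    intro α hα
    rw [mem_reps] at hα
    have e : ∏ j, ((if j = j0 then b (α j) else 1) * (1 - τ + τ * r (α j)))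
        = b (α j0) * ∏ j, (1 - τ + τ * r (α j)) := by
      rw [prod_mul_distrib]; simp
    rw [e, mul_div_assoc, mul_div_assoc]
    refine mul_le_mul_of_nonneg_left ?_ (prod_nonneg fun j _ => hp _ (hα j))
    refine mul_le_mul_of_nonneg_left ?_ (hb _ (hα j0))
    exact PiQ_le_prod rb _ hτ hτ1 hrb0 (fun j => hr0 _ (hα j))
  refine (sum_le_sum h3).trans ?_
  rw [← sum_div, h1]
  have hm : 0 < m := Nat.pos_of_ne_zero (fun h => by subst h; exact j0.elim0)
  obtain ⟨k, rfl⟩ : ∃ k, m = k + 1 := ⟨m - 1, by omega⟩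
  simp only [Nat.add_sub_cancel]
  have hk := (pow_pos hη k).ne'
  have hη' := hη.ne'
  refine le_of_eq ?_
  rw [pow_succ]
  field_simp

/-- coarse bound of the replica weight -/
lemma rr_le_exp {sR rA rb : ℝ} (ρ : Fin m → ℝ) (hL : 1 ≤ L) (hτ : 0 < τ) (hτ16 : 16 * τ ≤ 1)
    (hs0 : 0 ≤ sR) (hs : sR ≤ Real.exp L) (hA0 : 0 ≤ rA) (hA : rA ≤ Real.exp L)
    (hρ0 : ∀ j, 0 ≤ ρ j) (hρ : ∀ j, ρ j ≤ Real.exp L) (hb0 : 0 ≤ rb) :
    sR * rA * PiQ τ rb ρ ≤ Real.exp ((2 * m + 2) * L) := by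
  have hη : 15 / 16 ≤ 1 - τ + τ * rb := by nlinarith [mul_nonneg hτ.le hb0]
  have hη0 : 0 < 1 - τ + τ * rb := by linarith
  have hPi0 : 0 ≤ PiQ τ rb ρ := PiQ_nonneg rb ρ hτ (by linarith) hb0 hρ0
  have he1 : 1 ≤ Real.exp L := Real.one_le_exp (by linarith)
  have hPi : PiQ τ rb ρ ≤ Real.exp (2 * m * L) := by
    refine (PiQ_le_prod rb ρ hτ (by linarith) hb0 hρ0).trans ?_
    rw [div_le_iff₀ (pow_pos hη0 m)]
    have h1 : ∏ j, (1 - τ + τ * ρ j) ≤ (Real.exp L) ^ m := by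
      calc ∏ j, (1 - τ + τ * ρ j) ≤ ∏ _j : Fin m, Real.exp L := by
            refine prod_le_prod (fun j _ => by nlinarith [mul_nonneg hτ.le (hρ0 j)]) fun j _ => ?_
            have := hρ j
            nlinarith
        _ = (Real.exp L) ^ m := by simp
    have h2 : 1 ≤ Real.exp L * (1 - τ + τ * rb) := by
      have : (1 : ℝ) + 1 ≤ Real.exp L := by
        have := Real.add_one_le_exp L; linarith
      nlinarith
    calc ∏ j, (1 - τ + τ * ρ j) ≤ (Real.exp L) ^ m * 1 := by linarith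
      _ ≤ (Real.exp L) ^ m * (Real.exp L * (1 - τ + τ * rb)) ^ m := by
          apply mul_le_mul_of_nonneg_left _ (by positivity)
          exact one_le_pow₀ h2
      _ = Real.exp (2 * m * L) * (1 - τ + τ * rb) ^ m := by
          rw [mul_pow, ← mul_assoc, ← pow_add, ← Real.exp_nat_mul]
          congr 2
          push_cast; ring
  calc sR * rA * PiQ τ rb ρ ≤ Real.exp L * Real.exp L * Real.exp (2 * m * L) := by
        apply mul_le_mul _ hPi hPi0 (by positivity)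
        exact mul_le_mul hs hA hA0 (by positivity)
    _ = Real.exp ((2 * m + 2) * L) := by
        rw [← Real.exp_add, ← Real.exp_add]; congr 1; ring

omit [DecidableEq 𝒜] in
/-- Jensen for `phi`. -/
lemma phi_jensen (hp : ∀ A ∈ s, 0 ≤ p A) (hsum : ∑ A ∈ s, p A = 1) (hr0 : ∀ A ∈ s, 0 ≤ r A) :
    phi (∑ A ∈ s, p A * r A) ≤ ∑ A ∈ s, p A * phi (r A) := by
  have hconv : ConvexOn ℝ (Set.Ici (0 : ℝ)) phi := by
    have h1 : ConvexOn ℝ (Set.Ici (0 : ℝ)) (fun x : ℝ => x * Real.log x) :=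
      Real.convexOn_mul_log
    have h2 : ConvexOn ℝ (Set.Ici (0 : ℝ)) (fun x : ℝ => -x + 1) := by
      refine ⟨convex_Ici 0, fun x _ y _ a b _ _ hab => ?_⟩
      simp only [smul_eq_mul]
      have : a * (-x + 1) + b * (-y + 1) = -(a * x + b * y) + (a + b) := by ring
      rw [this, hab]
    have h3 := h1.add h2
    refine h3.congr fun x _ => ?_
    simp only [phi, Pi.add_apply]; ring
  have := hconv.map_sum_le (t := s) (w := p) (p := r) hp hsum (fun A hA => hr0 A hA)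
  simpa [smul_eq_mul] using this

lemma ind_le_phi {y : ℝ} (hy : 0 ≤ y) : (if 8 < y then y else 0) ≤ phi y := by
  split_ifs with h
  · exact self_le_phi h
  · exact phi_nonneg hy

end

end Vale.Agent.P042.H779
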