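import Vale.Agent.P042.H779.Star2

/-! The replica bound in expectation, main statement. -/

namespace Vale.Agent.P042.H779

open Finset

section
variable {𝒜 : Type*} [DecidableEq 𝒜] {m : ℕ} {τ L : ℝ} (s : Finset 𝒜) (p r : 𝒜 → ℝ)

lemma exp_PiQ_le_one (hsum : ∑ A ∈ s, p A = 1) (hp : ∀ A ∈ s, 0 ≤ p A)
    (hr0 : ∀ A ∈ s, 0 ≤ r A) (hτ : 0 < τ) (hτ1 : 16 * τ ≤ 1) :
    ∑ α ∈ reps m s, (∏ j, p (α j)) * PiQ τ (∑ A ∈ s, p A * r A) (fun j => r (α j)) ≤ 1 := by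
  have hb0 : 0 ≤ ∑ A ∈ s, p A * r A := sum_nonneg fun A hA => mul_nonneg (hp A hA) (hr0 A hA)
  rw [exp_PiQ s p r hsum _ rfl (by nlinarith [mul_nonneg hτ.le hb0])]
  have : 0 ≤ (τ * (∑ A ∈ s, p A * r A) / (1 - τ + τ * ∑ A ∈ s, p A * r A)) ^ m :=
    pow_nonneg (div_nonneg (mul_nonneg hτ.le hb0) (by nlinarith [mul_nonneg hτ.le hb0])) m
  linarith

lemma rb_exp_PiQ_le (hsum : ∑ A ∈ s, p A = 1) (hp : ∀ A ∈ s, 0 ≤ p A)
    (hr0 : ∀ A ∈ s, 0 ≤ r A) (hτ : 0 < τ) (hτ1 : 16 * τ ≤ 1) :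
    (∑ A ∈ s, p A * r A) *
      ∑ α ∈ reps m s, (∏ j, p (α j)) * PiQ τ (∑ A ∈ s, p A * r A) (fun j => r (α j))
      ≤ m / τ := by
  have hb0 : 0 ≤ ∑ A ∈ s, p A * r A := sum_nonneg fun A hA => mul_nonneg (hp A hA) (hr0 A hA)
  obtain ⟨rb, hrb⟩ : ∃ rb, rb = ∑ A ∈ s, p A * r A := ⟨_, rfl⟩
  have hη : 0 < 1 - τ + τ * rb := by rw [hrb]; nlinarith [mul_nonneg hτ.le hb0]
  rw [← hrb] at hb0 ⊢
  rw [exp_PiQ s p r hsum rb hrb hη]
  have h1 : τ * rb / (1 - τ + τ * rb) = 1 + (-((1 - τ) / (1 - τ + τ * rb))) := by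
    field_simp; ring
  have h2 : (1 - τ) / (1 - τ + τ * rb) ≤ 1 := by
    rw [div_le_one hη]; nlinarith [mul_nonneg hτ.le hb0]
  have h3 := one_add_mul_le_pow (a := -((1 - τ) / (1 - τ + τ * rb))) (by linarith) m
  rw [← h1] at h3
  have h4 : 1 - (τ * rb / (1 - τ + τ * rb)) ^ m ≤ m * ((1 - τ) / (1 - τ + τ * rb)) := by
    linarith
  calc rb * (1 - (τ * rb / (1 - τ + τ * rb)) ^ m)
      ≤ rb * (m * ((1 - τ) / (1 - τ + τ * rb))) := mul_le_mul_of_nonneg_left h4 hb0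
    _ ≤ m / τ := by
        rw [← sub_nonneg]
        have : m / τ - rb * (m * ((1 - τ) / (1 - τ + τ * rb)))
            = m * ((1 - τ) + τ ^ 2 * rb) / (τ * (1 - τ + τ * rb)) := by
          field_simp; ring
        rw [this]
        have h5 : 0 ≤ 1 - τ := by linarith
        positivity

/-- Case of a large ratio on the outer set. -/
lemma star_large {sR : ℝ} (hm : 1 ≤ m) (hL : 1 ≤ L) (hτ : 0 < τ) (hmτ : 16 * m * τ ≤ 1)
    (hp : ∀ A ∈ s, 0 ≤ p A) (hsum : ∑ A ∈ s, p A = 1) (hr0 : ∀ A ∈ s, 0 ≤ r A)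
    (hrL : ∀ A ∈ s, r A ≤ Real.exp L) (hs : 8 < sR) (hsL : sR ≤ Real.exp L) :
    ∑ A ∈ s, p A * ∑ α ∈ reps m s, (∏ j, p (α j)) *
        phi (sR * r A * PiQ τ (∑ A ∈ s, p A * r A) (fun j => r (α j)))
      ≤ 5 * (m ^ 2 * L / τ) * phi sR := by
  have hm' : (1 : ℝ) ≤ m := by exact_mod_cast hm
  have hτ16 : 16 * τ ≤ 1 := by nlinarith
  have hb0 : 0 ≤ ∑ A ∈ s, p A * r A := sum_nonneg fun A hA => mul_nonneg (hp A hA) (hr0 A hA)
  have h1 : ∀ A ∈ s, ∀ α ∈ reps m s,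
      phi (sR * r A * PiQ τ (∑ A ∈ s, p A * r A) (fun j => r (α j)))
        ≤ 1 + ((2 * m + 2) * L) * (sR * r A * PiQ τ (∑ A ∈ s, p A * r A) (fun j => r (α j))) := by
    intro A hA α hα
    rw [mem_reps] at hα
    refine phi_le_of_le_exp ?_ ?_
    · exact mul_nonneg (mul_nonneg (by linarith) (hr0 A hA))
        (PiQ_nonneg _ _ hτ (by linarith) hb0 (fun j => hr0 _ (hα j)))
    · exact rr_le_exp _ hL hτ hτ16 (by linarith) hsL (hr0 A hA) (hrL A hA)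
        (fun j => hr0 _ (hα j)) (fun j => hrL _ (hα j)) hb0
  have h2 : ∑ A ∈ s, p A * ∑ α ∈ reps m s, (∏ j, p (α j)) *
        phi (sR * r A * PiQ τ (∑ A ∈ s, p A * r A) (fun j => r (α j)))
      ≤ ∑ A ∈ s, p A * ∑ α ∈ reps m s, (∏ j, p (α j)) *
        (1 + ((2 * m + 2) * L) * (sR * r A * PiQ τ (∑ A ∈ s, p A * r A) (fun j => r (α j)))) := by
    refine sum_le_sum fun A hA => mul_le_mul_of_nonneg_left ?_ (hp A hA)
    refine sum_le_sum fun α hα => mul_le_mul_of_nonneg_left (h1 A hA α hα) ?_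
    rw [mem_reps] at hα
    exact prod_nonneg fun j _ => hp _ (hα j)
  refine h2.trans ?_
  have h3 : ∀ A ∈ s, p A * ∑ α ∈ reps m s, (∏ j, p (α j)) *
        (1 + ((2 * m + 2) * L) * (sR * r A * PiQ τ (∑ A ∈ s, p A * r A) (fun j => r (α j))))
      = p A + ((2 * m + 2) * L) * sR * ((p A * r A) *
        ∑ α ∈ reps m s, (∏ j, p (α j)) * PiQ τ (∑ A ∈ s, p A * r A) (fun j => r (α j))) := by
    intro A _
    have : ∀ α ∈ reps m s, (∏ j, p (α j)) *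
        (1 + ((2 * m + 2) * L) * (sR * r A * PiQ τ (∑ A ∈ s, p A * r A) (fun j => r (α j))))
        = (∏ j, p (α j)) + ((2 * m + 2) * L) * sR * r A *
          ((∏ j, p (α j)) * PiQ τ (∑ A ∈ s, p A * r A) (fun j => r (α j))) :=
      fun α _ => by ring
    rw [sum_congr rfl this, sum_add_distrib, ← mul_sum, pi_sum_one s p hsum]
    ring
  rw [sum_congr rfl h3, sum_add_distrib, hsum, ← mul_sum, ← sum_mul]
  have h4 := rb_exp_PiQ_le (m := m) s p r hsum hp hr0 hτ hτ16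
  have h5 : 0 ≤ ((2 * (m : ℝ) + 2) * L) * sR := by positivity
  have h6 := mul_le_mul_of_nonneg_left h4 h5
  have h7 : sR ≤ phi sR := self_le_phi hs
  have h8 : 1 ≤ (m ^ 2 * L / τ) := by
    rw [le_div_iff₀ hτ]; nlinarith
  have h9 : (2 * (m : ℝ) + 2) * L * sR * (m / τ) ≤ 4 * (m ^ 2 * L / τ) * sR := by
    have : (2 * (m : ℝ) + 2) * L * sR * (m / τ) = ((2 * m + 2) * m) * (L / τ) * sR := by ring
    rw [this]
    have h10 : (2 * (m : ℝ) + 2) * m ≤ 4 * m ^ 2 := by nlinarith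
    have h11 : 0 ≤ L / τ * sR := by positivity
    have := mul_le_mul_of_nonneg_right h10 h11
    calc (2 * (m : ℝ) + 2) * m * (L / τ) * sR = (2 * (m : ℝ) + 2) * m * (L / τ * sR) := by ring
      _ ≤ 4 * m ^ 2 * (L / τ * sR) := this
      _ = 4 * (m ^ 2 * L / τ) * sR := by ring
  have h12 : 1 ≤ (m ^ 2 * L / τ) * sR := by nlinarith
  calc _ ≤ 1 + 4 * (m ^ 2 * L / τ) * sR := by linarith
    _ ≤ 5 * (m ^ 2 * L / τ) * sR := by linarith
    _ ≤ 5 * (m ^ 2 * L / τ) * phi sR := by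
        apply mul_le_mul_of_nonneg_left h7; positivity

end

end Vale.Agent.P042.H779
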