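import Vale.Agent.P042.H779.Star3

/-! The replica bound in expectation, small outer ratio and final statement. -/

namespace Vale.Agent.P042.H779

open Finset

/-- indicator of a large value -/
noncomputable def bad (y : ℝ) : ℝ := if 8 < y then 1 else 0

lemma bad_nonneg (y : ℝ) : 0 ≤ bad y := by unfold bad; split_ifs <;> norm_num

lemma bad_mul_le {y : ℝ} (hy : 0 ≤ y) : bad y * y ≤ phi y := by
  unfold bad
  split_ifs with h
  · rw [one_mul]; exact self_le_phi h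
  · rw [zero_mul]; exact phi_nonneg hy

lemma bad_le {y : ℝ} (hy : 0 ≤ y) : bad y ≤ phi y := by
  refine le_trans ?_ (bad_mul_le hy)
  unfold bad
  split_ifs with h
  · linarith
  · simp

section
variable {𝒜 : Type*} [DecidableEq 𝒜] {m : ℕ} {τ L : ℝ} (s : Finset 𝒜) (p r : 𝒜 → ℝ)

omit [DecidableEq 𝒜] in
lemma point_small {sR rA rb E8 : ℝ} (ρ : Fin m → ℝ) (hm : 1 ≤ m) (hL : 1 ≤ L) (hτ : 0 < τ)
    (hmτ : 16 * m * τ ≤ 1)
    (hs0 : 0 ≤ sR) (hs : sR ≤ 8) (hsL : sR ≤ Real.exp L) (hA0 : 0 ≤ rA) (hA : rA ≤ Real.exp L)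
    (hρ0 : ∀ j, 0 ≤ ρ j) (hρ : ∀ j, ρ j ≤ Real.exp L) (hb0 : 0 ≤ rb) (hE0 : 0 ≤ E8)
    (hE : 16 < rb → 8 ≤ E8) :
    phi (sR * rA * PiQ τ rb ρ) ≤
      bad rA * (1 + ((2 * m + 2) * L) * (sR * rA * PiQ τ rb ρ))
      + ∑ j, bad (ρ j) * (1 + ((2 * m + 2) * L) * (sR * rA * PiQ τ rb ρ))
      + (16384 * phi sR + 256 * phi rA
      + 4 * (16 * m * τ ^ 2 * ∑ j, (16 * phi (ρ j) + 32 * phi rb)) + 4 * ((15 * τ) ^ m) ^ 2
      + 500 * E8) := by
  have hm' : (1 : ℝ) ≤ m := by exact_mod_cast hm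
  have hτ16 : 16 * τ ≤ 1 := by nlinarith
  have hPi0 : 0 ≤ PiQ τ rb ρ := PiQ_nonneg rb ρ hτ (by linarith) hb0 hρ0
  have hrr0 : 0 ≤ sR * rA * PiQ τ rb ρ := mul_nonneg (mul_nonneg hs0 hA0) hPi0
  have hbig : phi (sR * rA * PiQ τ rb ρ) ≤ 1 + ((2 * m + 2) * L) * (sR * rA * PiQ τ rb ρ) :=
    phi_le_of_le_exp hrr0 (rr_le_exp ρ hL hτ hτ16 hs0 hsL hA0 hA hρ0 hρ hb0)
  have hc0 : 0 ≤ 1 + ((2 * m + 2) * L) * (sR * rA * PiQ τ rb ρ) := by positivity
  have hphb := phi_nonneg hb0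
  have hsum0 : 0 ≤ ∑ j, bad (ρ j) * (1 + ((2 * m + 2) * L) * (sR * rA * PiQ τ rb ρ)) :=
    sum_nonneg fun j _ => mul_nonneg (bad_nonneg _) hc0
  have hquad0 : 0 ≤ ∑ j, (16 * phi (ρ j) + 32 * phi rb) :=
    sum_nonneg fun j _ => by have := phi_nonneg (hρ0 j); positivity
  have hG0 : 0 ≤ 16384 * phi sR + 256 * phi rA
      + 4 * (16 * m * τ ^ 2 * ∑ j, (16 * phi (ρ j) + 32 * phi rb)) + 4 * ((15 * τ) ^ m) ^ 2
      + 500 * E8 := by
    have := phi_nonneg hs0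
    have := phi_nonneg hA0
    positivity
  by_cases h1 : 8 < rA
  · have : bad rA = 1 := by simp [bad, h1]
    rw [this, one_mul]
    linarith
  by_cases h2 : ∃ j, 8 < ρ j
  · obtain ⟨j0, hj0⟩ := h2
    have h3 : bad (ρ j0) * (1 + ((2 * m + 2) * L) * (sR * rA * PiQ τ rb ρ))
        ≤ ∑ j, bad (ρ j) * (1 + ((2 * m + 2) * L) * (sR * rA * PiQ τ rb ρ)) :=
      single_le_sum (f := fun j => bad (ρ j) *
        (1 + ((2 * m + 2) * L) * (sR * rA * PiQ τ rb ρ)))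
        (fun j _ => mul_nonneg (bad_nonneg _) hc0) (mem_univ j0)
    have h4 : bad (ρ j0) = 1 := by simp [bad, hj0]
    rw [h4, one_mul] at h3
    have h5 : 0 ≤ bad rA * (1 + ((2 * m + 2) * L) * (sR * rA * PiQ τ rb ρ)) :=
      mul_nonneg (bad_nonneg _) hc0
    linarith
  push Not at h2
  have hA8 : rA ≤ 8 := not_lt.mp h1
  have h5 : 0 ≤ bad rA * (1 + ((2 * m + 2) * L) * (sR * rA * PiQ τ rb ρ)) :=
    mul_nonneg (bad_nonneg _) hc0
  by_cases hb : rb ≤ 16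
  · have := good sR rA rb ρ hm hτ hmτ hs0 hs hA0 hA8 hρ0 h2 hb0 hb
    linarith
  · have hb' : 16 < rb := not_le.mp hb
    have hη0 : 0 < 1 - τ + τ * rb := by nlinarith
    have h6 : PiQ τ rb ρ ≤ 1 := by
      refine (PiQ_le_prod rb ρ hτ (by linarith) hb0 hρ0).trans ?_
      rw [div_le_one (pow_pos hη0 m)]
      calc ∏ j, (1 - τ + τ * ρ j) ≤ ∏ _j : Fin m, (1 - τ + τ * rb) := by
            refine prod_le_prod (fun j _ => by nlinarith [mul_nonneg hτ.le (hρ0 j)]) fun j _ => ?_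
            have := h2 j; nlinarith
        _ = (1 - τ + τ * rb) ^ m := by simp
    have h7 : sR * rA * PiQ τ rb ρ ≤ 64 := by
      have h8 : sR * rA ≤ 8 * 8 := mul_le_mul hs hA8 hA0 (by norm_num)
      have h9 : sR * rA * PiQ τ rb ρ ≤ (8 * 8) * 1 :=
        mul_le_mul h8 h6 hPi0 (by norm_num)
      linarith
    have h10 : phi (sR * rA * PiQ τ rb ρ) ≤ 4000 := by
      refine (phi_le_sq hrr0).trans ?_
      nlinarith
    have h11 := hE hb'
    have h12 := phi_nonneg hs0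
    have h13 := phi_nonneg hA0
    have h14 : 0 ≤ 4 * (16 * m * τ ^ 2 * ∑ j, (16 * phi (ρ j) + 32 * phi rb)) := by positivity
    have h15 : 0 ≤ 4 * ((15 * τ) ^ m) ^ 2 := by positivity
    linarith

lemma exp_badA {sR : ℝ} (hm : 1 ≤ m) (hL : 1 ≤ L) (hτ : 0 < τ) (hmτ : 16 * m * τ ≤ 1)
    (hp : ∀ A ∈ s, 0 ≤ p A) (hsum : ∑ A ∈ s, p A = 1) (hr0 : ∀ A ∈ s, 0 ≤ r A)
    (hs0 : 0 ≤ sR) (hs : sR ≤ 8) :
    ∑ A ∈ s, p A * ∑ α ∈ reps m s, (∏ j, p (α j)) *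
      (bad (r A) * (1 + ((2 * m + 2) * L) *
        (sR * r A * PiQ τ (∑ A ∈ s, p A * r A) (fun j => r (α j)))))
      ≤ (1 + 8 * ((2 * m + 2) * L)) * ∑ A ∈ s, p A * phi (r A) := by
  have hm' : (1 : ℝ) ≤ m := by exact_mod_cast hm
  have hτ16 : 16 * τ ≤ 1 := by nlinarith
  rw [mul_sum]
  refine sum_le_sum fun A hA => ?_
  have h3 : ∑ α ∈ reps m s, (∏ j, p (α j)) *
      (bad (r A) * (1 + ((2 * m + 2) * L) *
        (sR * r A * PiQ τ (∑ A ∈ s, p A * r A) (fun j => r (α j)))))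
      = bad (r A) * (1 + ((2 * m + 2) * L) * sR * r A *
        ∑ α ∈ reps m s, (∏ j, p (α j)) * PiQ τ (∑ A ∈ s, p A * r A) (fun j => r (α j))) := by
    have : ∀ α ∈ reps m s, (∏ j, p (α j)) *
        (bad (r A) * (1 + ((2 * m + 2) * L) *
        (sR * r A * PiQ τ (∑ A ∈ s, p A * r A) (fun j => r (α j)))))
        = bad (r A) * (∏ j, p (α j)) + bad (r A) * (((2 * m + 2) * L) * sR * r A) *
          ((∏ j, p (α j)) * PiQ τ (∑ A ∈ s, p A * r A) (fun j => r (α j))) :=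
      fun α _ => by ring
    rw [sum_congr rfl this, sum_add_distrib, ← mul_sum, ← mul_sum, pi_sum_one s p hsum]
    ring
  rw [h3]
  have h4 := exp_PiQ_le_one (m := m) s p r hsum hp hr0 hτ hτ16
  have h5 : 0 ≤ ((2 * (m : ℝ) + 2) * L) * sR * r A := by
    have := hr0 A hA; positivity
  have h6 := mul_le_mul_of_nonneg_left h4 h5
  have h7 : ((2 * (m : ℝ) + 2) * L) * sR * r A ≤ ((2 * (m : ℝ) + 2) * L) * 8 * r A := by
    apply mul_le_mul_of_nonneg_right _ (hr0 A hA)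
    apply mul_le_mul_of_nonneg_left hs (by positivity)
  have h8 := bad_nonneg (r A)
  have h9 := bad_le (hr0 A hA)
  have h10 := bad_mul_le (hr0 A hA)
  have h11 : bad (r A) * (1 + ((2 * (m : ℝ) + 2) * L) * sR * r A *
        ∑ α ∈ reps m s, (∏ j, p (α j)) * PiQ τ (∑ A ∈ s, p A * r A) (fun j => r (α j)))
      ≤ bad (r A) * (1 + ((2 * (m : ℝ) + 2) * L) * 8 * r A) := by
    apply mul_le_mul_of_nonneg_left _ h8; linarith
  have h12 : bad (r A) * (1 + ((2 * (m : ℝ) + 2) * L) * 8 * r A)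
      ≤ (1 + 8 * ((2 * m + 2) * L)) * phi (r A) := by
    have h13 : 0 ≤ ((2 * (m : ℝ) + 2) * L) * 8 := by positivity
    have := mul_le_mul_of_nonneg_left h10 h13
    calc bad (r A) * (1 + ((2 * (m : ℝ) + 2) * L) * 8 * r A)
        = bad (r A) + ((2 * (m : ℝ) + 2) * L) * 8 * (bad (r A) * r A) := by ring
      _ ≤ phi (r A) + ((2 * (m : ℝ) + 2) * L) * 8 * phi (r A) := by linarith
      _ = _ := by ring
  calc p A * _ ≤ p A * ((1 + 8 * ((2 * m + 2) * L)) * phi (r A)) :=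
        mul_le_mul_of_nonneg_left (h11.trans h12) (hp A hA)
    _ = _ := by ring

lemma exp_badj {sR : ℝ} (hm : 1 ≤ m) (hL : 1 ≤ L) (hτ : 0 < τ) (hmτ : 16 * m * τ ≤ 1)
    (hp : ∀ A ∈ s, 0 ≤ p A) (hsum : ∑ A ∈ s, p A = 1) (hr0 : ∀ A ∈ s, 0 ≤ r A)
    (hs0 : 0 ≤ sR) (hs : sR ≤ 8) (j0 : Fin m) :
    ∑ A ∈ s, p A * ∑ α ∈ reps m s, (∏ j, p (α j)) *
      (bad (r (α j0)) * (1 + ((2 * m + 2) * L) *
        (sR * r A * PiQ τ (∑ A ∈ s, p A * r A) (fun j => r (α j)))))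
      ≤ (1 + 8 * ((2 * m + 2) * L) / τ) * ∑ A ∈ s, p A * phi (r A) := by
  have hm' : (1 : ℝ) ≤ m := by exact_mod_cast hm
  have hτ16 : 16 * τ ≤ 1 := by nlinarith
  have hb0 : 0 ≤ ∑ A ∈ s, p A * r A := sum_nonneg fun A hA => mul_nonneg (hp A hA) (hr0 A hA)
  obtain ⟨rb, hrb⟩ : ∃ rb, rb = ∑ A ∈ s, p A * r A := ⟨_, rfl⟩
  have hη : 0 < 1 - τ + τ * rb := by rw [hrb]; nlinarith [mul_nonneg hτ.le hb0]
  have h1 := exp_PiQ_single (m := m) s p r hsum hp hr0 hτ (by linarith) rb hrb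
    (by rw [hrb]; exact hb0) hη (fun A => bad (r A)) (fun A _ => bad_nonneg _) j0
  rw [← hrb]
  have h2 : ∑ A ∈ s, p A * (bad (r A) * (1 - τ + τ * r A)) ≤ ∑ A ∈ s, p A * phi (r A) := by
    refine sum_le_sum fun A hA => mul_le_mul_of_nonneg_left ?_ (hp A hA)
    refine le_trans ?_ (bad_mul_le (hr0 A hA))
    unfold bad
    split_ifs with h
    · nlinarith
    · simp
  have h3 : ∀ A ∈ s, p A * ∑ α ∈ reps m s, (∏ j, p (α j)) *
      (bad (r (α j0)) * (1 + ((2 * m + 2) * L) * (sR * r A * PiQ τ rb (fun j => r (α j)))))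
      = p A * (∑ A ∈ s, p A * bad (r A)) + ((2 * m + 2) * L) * sR * (p A * r A) *
        ∑ α ∈ reps m s, (∏ j, p (α j)) * (bad (r (α j0)) * PiQ τ rb (fun j => r (α j))) := by
    intro A _
    have : ∀ α ∈ reps m s, (∏ j, p (α j)) *
      (bad (r (α j0)) * (1 + ((2 * m + 2) * L) * (sR * r A * PiQ τ rb (fun j => r (α j)))))
        = (∏ j, p (α j)) * bad (r (α j0)) + (((2 * m + 2) * L) * sR * r A) *
          ((∏ j, p (α j)) * (bad (r (α j0)) * PiQ τ rb (fun j => r (α j)))) :=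
      fun α _ => by ring
    rw [sum_congr rfl this, sum_add_distrib, ← mul_sum,
      pi_sum_single s p hsum j0 (fun A => bad (r A))]
    ring
  rw [sum_congr rfl h3, sum_add_distrib, ← sum_mul, hsum, one_mul, ← sum_mul, ← mul_sum, ← hrb]
  have h4 : ∑ A ∈ s, p A * bad (r A) ≤ ∑ A ∈ s, p A * phi (r A) :=
    sum_le_sum fun A hA => mul_le_mul_of_nonneg_left (bad_le (hr0 A hA)) (hp A hA)
  have hE0 : 0 ≤ ∑ A ∈ s, p A * phi (r A) :=
    sum_nonneg fun A hA => mul_nonneg (hp A hA) (phi_nonneg (hr0 A hA))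
  have hrb0 : 0 ≤ rb := by rw [hrb]; exact hb0
  have h5 : rb * ((∑ A ∈ s, p A * (bad (r A) * (1 - τ + τ * r A))) / (1 - τ + τ * rb))
      ≤ (∑ A ∈ s, p A * phi (r A)) / τ := by
    have h6 : rb / (1 - τ + τ * rb) ≤ 1 / τ := by
      rw [div_le_div_iff₀ hη hτ]; nlinarith
    calc _ = (rb / (1 - τ + τ * rb)) * (∑ A ∈ s, p A * (bad (r A) * (1 - τ + τ * r A))) := by ring
      _ ≤ (1 / τ) * (∑ A ∈ s, p A * phi (r A)) := by
          refine mul_le_mul h6 h2 ?_ (by positivity)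
          refine sum_nonneg fun A hA => mul_nonneg (hp A hA) (mul_nonneg (bad_nonneg _) ?_)
          have := mul_nonneg hτ.le (hr0 A hA); linarith
      _ = _ := by ring
  have h7 : ((2 * (m : ℝ) + 2) * L) * sR * rb *
        ∑ α ∈ reps m s, (∏ j, p (α j)) * (bad (r (α j0)) * PiQ τ rb (fun j => r (α j)))
      ≤ 8 * ((2 * m + 2) * L) / τ * ∑ A ∈ s, p A * phi (r A) := by
    have h8 := mul_le_mul_of_nonneg_left h1 hrb0
    have h9 := h8.trans h5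
    have h10 : 0 ≤ ((2 * (m : ℝ) + 2) * L) * sR := by positivity
    calc ((2 * (m : ℝ) + 2) * L) * sR * rb *
        ∑ α ∈ reps m s, (∏ j, p (α j)) * (bad (r (α j0)) * PiQ τ rb (fun j => r (α j)))
        = ((2 * (m : ℝ) + 2) * L) * sR * (rb *
        ∑ α ∈ reps m s, (∏ j, p (α j)) * (bad (r (α j0)) * PiQ τ rb (fun j => r (α j)))) := by
          ring
      _ ≤ ((2 * (m : ℝ) + 2) * L) * sR * ((∑ A ∈ s, p A * phi (r A)) / τ) :=
          mul_le_mul_of_nonneg_left h9 h10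
      _ ≤ ((2 * (m : ℝ) + 2) * L) * 8 * ((∑ A ∈ s, p A * phi (r A)) / τ) := by
          apply mul_le_mul_of_nonneg_right _ (by positivity)
          apply mul_le_mul_of_nonneg_left hs (by positivity)
      _ = _ := by ring
  linarith

end

end Vale.Agent.P042.H779
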